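import Vale.Agent.P220Z.Def.Nw
import Mathlib.RingTheory.Norm.Transitivity
import Mathlib.RingTheory.Complex

/-!
# P220, the degree of the map of the base
-/

open Set Topology

namespace Vale.Agent.P220Z.Def

open Vale.Agent.P220Z.Deg Vale.Agent.P205.TI.Deg

namespace BaseA

/-- a coordinate of the first factor -/
noncomputable def pF (i : Fin 2) : EB5 →L[ℂ] ℂ where
  toFun m := m.fst i
  map_add' _ _ := rfl
  map_smul' _ _ := rfl
  cont := by fun_prop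

/-- a coordinate of the second factor -/
noncomputable def pS (j : Fin 9) : EB5 →L[ℂ] ℂ where
  toFun m := m.snd j
  map_add' _ _ := rfl
  map_smul' _ _ := rfl
  cont := by fun_prop

theorem pF_apply (i : Fin 2) (m : EB5) : pF i m = m.fst i := rfl

theorem pS_apply (j : Fin 9) (m : EB5) : pS j m = m.snd j := rfl

/-- the form `yy` -/
noncomputable def yL (j : Fin 9) : EB5 →L[ℂ] ℂ :=
  if j = 0 then (30 : ℂ) • pS 0 - ∑ k : Fin 8, pS k.succ else pS j

theorem yL_apply (j : Fin 9) (m : EB5) : yL j m = yy m j := by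
  unfold yL yy
  split_ifs
  · simp [pS_apply]
  · rfl

/-- the point with given coordinates -/
noncomputable def mkL : ((Fin 2 → ℂ) × (Fin 9 → ℂ)) →L[ℂ] EB5 where
  toFun x := mkB x.1 x.2
  map_add' _ _ := rfl
  map_smul' _ _ := rfl
  cont := by unfold mkB; fun_prop

theorem mkL_apply (u : Fin 2 → ℂ) (v : Fin 9 → ℂ) : mkL (u, v) = mkB u v := rfl

theorem mkB_eq_zero {u : Fin 2 → ℂ} {v : Fin 9 → ℂ} : mkB u v = 0 ↔ u = 0 ∧ v = 0 :=
  ⟨fun h => ⟨funext fun i => congrArg (fun m : EB5 => m.fst i) h,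
    funext fun j => congrArg (fun m : EB5 => m.snd j) h⟩, fun h => by rw [h.1, h.2]; rfl⟩

theorem yy_succ (m : EB5) (k : Fin 8) : yy m k.succ = m.snd k.succ := if_neg k.succ_ne_zero

theorem sum_yy (m : EB5) : ∑ j, yy m j = 30 * m.snd 0 := by
  rw [Fin.sum_univ_succ, Finset.sum_congr rfl fun k _ => yy_succ m k, yy, if_pos rfl,
    sub_add_cancel]

theorem fst_zero {m : EB5} (h0 : m.fst 0 = 0) (h1 : m.fst 1 = 0) : m.fst = 0 := by
  ext i
  fin_cases i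
  · exact h0
  · exact h1

theorem snd_zero {m : EB5} (j0 : Fin 9) (h0 : m.snd 0 = 0) (h : ∀ j, j ≠ j0 → yy m j = 0) :
    m.snd = 0 := by
  have h1 := sum_yy m
  rw [Finset.sum_eq_single j0 (fun j _ hj => h j hj) (by simp), h0, mul_zero] at h1
  have h2 : ∀ j, yy m j = 0 := fun j => if e : j = j0 then e ▸ h1 else h j e
  ext j
  refine Fin.cases h0 (fun k => ?_) j
  rw [← yy_succ, h2]
  rfl

variable {a b : ℕ}

theorem ee_zero {m : EB5} {j : Fin 9} : ee a b m j = 0 ↔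
    (∃ i < a, m.fst 1 = (5 * (j : ℕ) + i : ℕ) * m.fst 0) ∨ ∃ i < b, yy m j = (i : ℕ) * m.snd 0 := by
  simp only [ee, mul_eq_zero, Finset.prod_eq_zero_iff, Finset.mem_range, sub_eq_zero]

/-- the nine second factors do not vanish together -/
theorem not_all (hb : b ≤ 4) {m : EB5} (h2 : m.snd ≠ 0) :
    ¬ ∀ j, ∃ i < b, yy m j = (i : ℕ) * m.snd 0 := by
  intro h
  choose ι h3 h4 using h
  have h5 := sum_yy m
  rw [Finset.sum_congr rfl fun j _ => h4 j, ← Finset.sum_mul, ← Nat.cast_sum] at h5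
  have h6 : ∑ j, ι j ≤ ∑ _j : Fin 9, 3 := Finset.sum_le_sum fun j _ => by
    have := h3 j
    omega
  have h7 : m.snd 0 = 0 := by
    by_contra h7
    have h8 : ∑ j, ι j = 30 := by exact_mod_cast mul_right_cancel₀ h7 h5
    simp [h8] at h6
  exact h2 (snd_zero 0 h7 fun j _ => by rw [h4, h7, mul_zero])

/-- the roots of the first factors are distinct -/
theorem root_eq {p : ℂ} (hp : p ≠ 0) {j j' : Fin 9} {i i' : ℕ} (hi : i < 5) (hi' : i' < 5)
    (h : ((5 * (j : ℕ) + i : ℕ) : ℂ) * p = (5 * (j' : ℕ) + i' : ℕ) * p) : j = j' ∧ i = i' := by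
  have h1 : 5 * (j : ℕ) + i = 5 * (j' : ℕ) + i' := Nat.cast_injective (mul_right_cancel₀ hp h)
  exact ⟨Fin.ext (by omega), by omega⟩

/-- the structure of the zeros -/
theorem zeros (ha : a ≤ 4) (hb : b ≤ 4) {m : EB5} (h1 : m.fst ≠ 0) (h2 : m.snd ≠ 0)
    (h : ee a b m = 0) : m.fst 0 ≠ 0 ∧ m.snd 0 ≠ 0 ∧ ∃ j0 : Fin 9, ∃ i0 < a,
      m.fst 1 = (5 * (j0 : ℕ) + i0 : ℕ) * m.fst 0 ∧
      (¬ ∃ i < b, yy m j0 = (i : ℕ) * m.snd 0) ∧
      ∀ j, j ≠ j0 → ∃ i < b, yy m j = (i : ℕ) * m.snd 0 := by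
  obtain ⟨j0, h3⟩ := not_forall.1 (not_all hb h2)
  obtain ⟨i0, h4, h5⟩ := (ee_zero.1 (congrFun h j0)).resolve_right h3
  have h6 : m.fst 0 ≠ 0 := fun e => h1 (fst_zero e (by rw [h5, e, mul_zero]))
  have h7 : ∀ j, j ≠ j0 → ∃ i < b, yy m j = (i : ℕ) * m.snd 0 := fun j hj =>
    (ee_zero.1 (congrFun h j)).resolve_left fun ⟨i, h8, h9⟩ =>
      hj (root_eq h6 (by omega) (by omega) (h9.symm.trans h5)).1
  refine ⟨h6, fun e => h2 (snd_zero j0 e fun j hj => ?_), j0, i0, h4, h5, h3, h7⟩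
  obtain ⟨i, -, h8⟩ := h7 j hj
  rw [h8, e, mul_zero]

/-! ### the list of the zeros -/

/-- the values of the forms `yy` -/
noncomputable def yv (j0 : Fin 9) (ι : Fin 8 → ℕ) : Fin 9 → ℂ :=
  Fin.insertNth (α := fun _ => ℂ) j0 (30 - ∑ k, (ι k : ℂ)) fun k => ι k

theorem yv_same (j0 : Fin 9) (ι : Fin 8 → ℕ) : yv j0 ι j0 = 30 - ∑ k, (ι k : ℂ) :=
  Fin.insertNth_apply_same _ _ _

theorem yv_ne (j0 : Fin 9) (ι : Fin 8 → ℕ) (k : Fin 8) : yv j0 ι (j0.succAbove k) = ι k :=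
  Fin.insertNth_apply_succAbove (α := fun _ => ℂ) _ _ _ _

theorem sum_yv (j0 : Fin 9) (ι : Fin 8 → ℕ) : ∑ j, yv j0 ι j = 30 := by
  rw [Fin.sum_univ_succAbove _ j0, yv_same, Finset.sum_congr rfl fun k _ => yv_ne j0 ι k,
    sub_add_cancel]

/-- the zeros -/
noncomputable def ptB (d : Fin 9 × Fin a × (Fin 8 → Fin b)) (p q : ℂ) : EB5 :=
  mkB ![p, (5 * (d.1 : ℕ) + d.2.1 : ℕ) * p]
    fun j => if j = 0 then q else yv d.1 (fun k => d.2.2 k) j * q

theorem yy_ptB (d : Fin 9 × Fin a × (Fin 8 → Fin b)) (p q : ℂ) (j : Fin 9) :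
    yy (ptB d p q) j = yv d.1 (fun k => d.2.2 k) j * q := by
  refine Fin.cases ?_ (fun k => ?_) j
  · have h := sum_yv d.1 fun k => d.2.2 k
    rw [Fin.sum_univ_succ] at h
    simp only [yy, ptB, mkB_snd, if_true, Fin.succ_ne_zero, if_false, ← Finset.sum_mul]
    rw [← h]
    ring
  · rw [yy_succ, ptB, mkB_snd, if_neg k.succ_ne_zero]

theorem ee_ptB (d : Fin 9 × Fin a × (Fin 8 → Fin b)) (p q : ℂ) : ee a b (ptB d p q) = 0 := by
  funext j
  refine ee_zero.2 ?_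
  rcases Fin.eq_self_or_eq_succAbove d.1 j with rfl | ⟨k, rfl⟩
  · exact Or.inl ⟨d.2.1, d.2.1.2, rfl⟩
  · exact Or.inr ⟨d.2.2 k, (d.2.2 k).2, by rw [yy_ptB, yv_ne]; rfl⟩

theorem exists_ptB (ha : a ≤ 4) (hb : b ≤ 4) {m : EB5} (h1 : m.fst ≠ 0) (h2 : m.snd ≠ 0)
    (h : ee a b m = 0) :
    ∃ d : Fin 9 × Fin a × (Fin 8 → Fin b), m = ptB d (m.fst 0) (m.snd 0) := by
  obtain ⟨-, -, j0, i0, h3, h4, -, h5⟩ := zeros ha hb h1 h2 h
  choose ι h6 h7 using fun k : Fin 8 => h5 _ (Fin.succAbove_ne j0 k)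
  have h8 : ∀ j, yy m j = yv j0 ι j * m.snd 0 := fun j => by
    rcases Fin.eq_self_or_eq_succAbove j0 j with rfl | ⟨k, rfl⟩
    · have h9 := sum_yy m
      rw [Fin.sum_univ_succAbove _ j, Finset.sum_congr rfl fun k _ => h7 k,
        ← Finset.sum_mul] at h9
      rw [yv_same, sub_mul, ← h9, add_sub_cancel_right]
    · rw [h7, yv_ne]
  refine ⟨(j0, ⟨i0, h3⟩, fun k => ⟨ι k, h6 k⟩), extB (fun i => ?_) fun j => ?_⟩
  · fin_cases i
    · rfl
    · exact h4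
  · refine Fin.cases rfl (fun k => ?_) j
    rw [← yy_succ, ← yy_succ, yy_ptB, h8]

theorem ptB_inj (ha : a ≤ 4) :
    Function.Injective fun d : Fin 9 × Fin a × (Fin 8 → Fin b) => ptB d 1 1 := by
  rintro ⟨j, i, ι⟩ ⟨j', i', ι'⟩ h
  have h1 := root_eq one_ne_zero (i.2.trans_le (by omega)) (i'.2.trans_le (by omega))
    (congrArg (fun m : EB5 => m.fst 1) h)
  obtain ⟨rfl, h2⟩ := h1
  refine Prod.ext rfl (Prod.ext (Fin.ext h2) (funext fun k => Fin.ext ?_))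
  have h3 := congrArg (fun m : EB5 => yy m (j.succAbove k)) h
  simp only [yy_ptB, yv_ne, mul_one] at h3
  exact_mod_cast h3

theorem cont_ptB (d : Fin 9 × Fin a × (Fin 8 → Fin b)) :
    Continuous fun r : ℝ × ℝ => ptB d r.1 r.2 := by
  refine mkL.continuous.comp (Continuous.prodMk (continuous_pi fun i => ?_)
    (continuous_pi fun j => ?_))
  · fin_cases i
    · change Continuous fun r : ℝ × ℝ => (r.1 : ℂ)
      fun_prop
    · change Continuous fun r : ℝ × ℝ => _ * (r.1 : ℂ)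
      fun_prop
  · change Continuous fun r : ℝ × ℝ => if j = 0 then (r.2 : ℂ) else _ * (r.2 : ℂ)
    split_ifs <;> fun_prop

/-! ### the derivative -/

theorem der_mul {E : Type} [NormedAddCommGroup E] [NormedSpace ℂ E] {l : E →L[ℂ] ℂ} {R : E → ℂ}
    {z : E} (h0 : l z = 0) (hR : DifferentiableAt ℂ R z) :
    HasFDerivAt (fun m => l m * R m) (R z • l) z := by
  refine (l.hasFDerivAt.fun_mul hR.hasFDerivAt).congr_fderiv (ContinuousLinearMap.ext fun w => ?_)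
  simp [h0]

theorem cont_of {E : Type} [NormedAddCommGroup E] [NormedSpace ℂ E] {f : E → ℂ}
    (h : Differentiable ℂ f) : Continuous f := h.continuous

theorem diff_fst (i : Fin 2) : Differentiable ℂ fun m : EB5 => m.fst i := (pF i).differentiable

theorem diff_snd (j : Fin 9) : Differentiable ℂ fun m : EB5 => m.snd j := (pS j).differentiable

theorem diff_yy (j : Fin 9) : Differentiable ℂ fun m : EB5 => yy m j := by
  simpa only [← yL_apply] using (yL j).differentiable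

theorem diff_P (s : Finset ℕ) (c : ℕ → ℂ) :
    Differentiable ℂ fun m : EB5 => ∏ i ∈ s, (m.fst 1 - c i * m.fst 0) :=
  fun z => (HasFDerivAt.finsetProd fun i _ =>
    (((diff_fst 1).fun_sub ((diff_fst 0).const_mul (c i))) z).hasFDerivAt).differentiableAt

theorem diff_Q (s : Finset ℕ) (j : Fin 9) :
    Differentiable ℂ fun m : EB5 => ∏ i ∈ s, (yy m j - (i : ℕ) * m.snd 0) :=
  fun z => (HasFDerivAt.finsetProd fun i _ =>
    (((diff_yy j).fun_sub ((diff_snd 0).const_mul ((i : ℕ) : ℂ))) z).hasFDerivAt).differentiableAt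

theorem cont_ee (a b : ℕ) : Continuous (ee a b) :=
  continuous_pi fun j => (cont_of (diff_P (Finset.range a) fun i => (5 * (j : ℕ) + i : ℕ))).mul
    (cont_of (diff_Q (Finset.range b) j))

/-- the derivative of the polynomial map is injective at the zeros -/
theorem exists_der (ha : a ≤ 4) (hb : b ≤ 4) {z : EB5} (h1 : z.fst ≠ 0) (h2 : z.snd ≠ 0)
    (h : ee a b z = 0) : ∃ A : EB5 →L[ℂ] EB5,
      HasFDerivAt (fun m : EB5 => mkB ![m.fst 0, m.snd 0] (ee a b m)) A z ∧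
        Function.Injective A := by
  obtain ⟨u0, v0, j0, i0, h3, h4, h5, h6⟩ := zeros ha hb h1 h2 h
  have key : ∀ j, ∃ l : EB5 →L[ℂ] ℂ, HasFDerivAt (fun m => ee a b m j) l z ∧
      ∀ w : EB5, w.fst 0 = 0 → w.snd 0 = 0 → l w = 0 →
        (j = j0 → w.fst 1 = 0) ∧ (j ≠ j0 → yy w j = 0) := fun j => by
    by_cases e : j = j0
    · subst e
      have b1 := der_mul (l := pF 1 - ((5 * (j : ℕ) + i0 : ℕ) : ℂ) • pF 0) (z := z)
        (sub_eq_zero.2 h4) (((diff_P ((Finset.range a).erase i0)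
          fun i => (5 * (j : ℕ) + i : ℕ)).mul (diff_Q (Finset.range b) j)) z)
      refine ⟨_, b1.congr_of_eventuallyEq (.of_forall fun m => ?_), fun w w1 _ b2 =>
        ⟨fun _ => ?_, fun b3 => absurd rfl b3⟩⟩
      · change ee a b m j = (m.fst 1 - _ * m.fst 0) * (_ * _)
        rw [ee, ← Finset.mul_prod_erase _ _ (Finset.mem_range.2 h3), mul_assoc]
      · change (_ * _) * (w.fst 1 - _ * w.fst 0) = 0 at b2
        rw [w1, mul_zero, sub_zero] at b2
        refine (mul_eq_zero.1 b2).resolve_left (mul_ne_zero ?_ ?_)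
        · refine Finset.prod_ne_zero_iff.2 fun i hi b3 => (Finset.mem_erase.1 hi).1 ?_
          have := Finset.mem_range.1 (Finset.mem_erase.1 hi).2
          exact (root_eq u0 (by omega) (by omega) ((sub_eq_zero.1 b3).symm.trans h4)).2
        · exact Finset.prod_ne_zero_iff.2 fun i hi b3 =>
            h5 ⟨i, Finset.mem_range.1 hi, sub_eq_zero.1 b3⟩
    · obtain ⟨i1, h7, h8⟩ := h6 j e
      have b1 := der_mul (l := yL j - ((i1 : ℕ) : ℂ) • pS 0) (z := z)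
        (sub_eq_zero.2 ((yL_apply j z).trans h8)) (((diff_P (Finset.range a)
          fun i => (5 * (j : ℕ) + i : ℕ)).mul (diff_Q ((Finset.range b).erase i1) j)) z)
      refine ⟨_, b1.congr_of_eventuallyEq (.of_forall fun m => ?_), fun w _ w2 b2 =>
        ⟨fun b3 => absurd b3 e, fun _ => ?_⟩⟩
      · change ee a b m j = (yL j m - _ * m.snd 0) * (_ * _)
        rw [ee, ← Finset.mul_prod_erase (Finset.range b) _ (Finset.mem_range.2 h7), yL_apply,
          mul_left_comm]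
      · change (_ * _) * (yL j w - _ * w.snd 0) = 0 at b2
        rw [w2, mul_zero, sub_zero, yL_apply] at b2
        refine (mul_eq_zero.1 b2).resolve_left (mul_ne_zero ?_ ?_)
        · refine Finset.prod_ne_zero_iff.2 fun i hi b3 => e ?_
          have := Finset.mem_range.1 hi
          exact (root_eq u0 (by omega) (by omega) ((sub_eq_zero.1 b3).symm.trans h4)).1
        · refine Finset.prod_ne_zero_iff.2 fun i hi b3 => (Finset.mem_erase.1 hi).1 ?_
          exact Nat.cast_injective (mul_right_cancel₀ v0 ((sub_eq_zero.1 b3).symm.trans h8))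
  choose l hl hl' using key
  let U : EB5 →L[ℂ] (Fin 2 → ℂ) := ContinuousLinearMap.pi ![pF 0, pS 0]
  have hU : ∀ m, U m = ![m.fst 0, m.snd 0] := fun m => funext fun i => by fin_cases i <;> rfl
  refine ⟨mkL.comp (U.prod (ContinuousLinearMap.pi l)), ?_,
    (injective_iff_map_eq_zero _).2 fun w hw => ?_⟩
  · simp only [← hU]
    exact mkL.hasFDerivAt.comp z (U.hasFDerivAt.prodMk (hasFDerivAt_pi.2 hl))
  · obtain ⟨b1, b2⟩ := mkB_eq_zero.1 hw
    have w1 : w.fst 0 = 0 := congrFun b1 0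
    have w2 : w.snd 0 = 0 := congrFun b1 1
    have b3 := fst_zero w1 ((hl' j0 w w1 w2 (congrFun b2 j0)).1 rfl)
    have b4 := snd_zero j0 w2 fun j hj => (hl' j w w1 w2 (congrFun b2 j)).2 hj
    exact extB (fun i => by rw [b3]; rfl) fun j => by rw [b4]; rfl

theorem det_pos {A : EB5 →L[ℂ] EB5} (h : Function.Injective A) :
    0 < LinearMap.det ((A.restrictScalars ℝ : EB5 →L[ℝ] EB5) : EB5 →ₗ[ℝ] EB5) := by
  have h1 : ((A.restrictScalars ℝ : EB5 →L[ℝ] EB5) : EB5 →ₗ[ℝ] EB5) =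
      (A : EB5 →ₗ[ℂ] EB5).restrictScalars ℝ := rfl
  rw [h1, LinearMap.det_restrictScalars, Algebra.norm_complex_apply, Complex.normSq_pos]
  exact fun h0 => LinearMap.det_eq_zero_iff_ker_ne_bot.1 h0 (LinearMap.ker_eq_bot.2 h)

/-- the sign of the determinant of a block triangular map -/
theorem det_shear {X Y : Type} [AddCommGroup X] [Module ℝ X] [FiniteDimensional ℝ X]
    [AddCommGroup Y] [Module ℝ Y] [FiniteDimensional ℝ Y] (B : X →ₗ[ℝ] Y) (A : Y →ₗ[ℝ] Y)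
    (hA : 0 < LinearMap.det A) (L : X × Y →ₗ[ℝ] X × Y) (hL : ∀ x, L x = (x.1, A x.2 - B x.1)) :
    0 < LinearMap.det L := by
  let s : ℝ → X × Y →ₗ[ℝ] X × Y := fun t =>
    (LinearMap.fst ℝ X Y).prod (LinearMap.snd ℝ X Y + t • B ∘ₗ LinearMap.fst ℝ X Y)
  have hs : ∀ t x, s t x = (x.1, x.2 + t • B x.1) := fun _ _ => rfl
  have h1 : s (1 / 2) ∘ₗ s (-(1 / 2)) = LinearMap.id := LinearMap.ext fun x => by
    simp [hs]
  have h2 : L = s (-(1 / 2)) ∘ₗ s (-(1 / 2)) ∘ₗ LinearMap.prodMap LinearMap.id A :=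
    LinearMap.ext fun x => by
      rw [hL, LinearMap.comp_apply, LinearMap.comp_apply, hs, hs]
      refine Prod.ext rfl ?_
      change _ = A x.2 + _ • B x.1 + _ • B x.1
      module
  have h3 := congrArg LinearMap.det h1
  rw [LinearMap.det_comp, LinearMap.det_id] at h3
  rw [h2, LinearMap.det_comp, LinearMap.det_comp, LinearMap.det_prodMap, LinearMap.det_id, one_mul,
    ← mul_assoc]
  exact mul_pos (mul_self_pos.2 (right_ne_zero_of_mul_eq_one h3)) hA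

/-! ### the homotopy -/

/-- the homotopy to a map with nondegenerate zeros -/
noncomputable def hF (a b : ℕ) (p : ℝ × (ℝ × ℝ) × EB5) : (ℝ × ℝ) × EB5 :=
  (((1 - p.1) * (‖p.2.2.fst‖ - 1) + p.1 * (p.2.1.1 - 1),
    (1 - p.1) * (‖p.2.2.snd‖ - 1) + p.1 * (p.2.1.2 - 1)), (baseMap a b p.2).2)

theorem cont_hF (a b : ℕ) : Continuous (hF a b) := by
  refine Continuous.prodMk (by fun_prop) (mkL.continuous.comp (Continuous.prodMk
    (continuous_pi fun i => ?_) ((cont_ee a b).comp continuous_snd.snd)))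
  fin_cases i
  · change Continuous fun p : ℝ × (ℝ × ℝ) × EB5 => p.2.2.fst 0 - (p.2.1.1 : ℂ)
    fun_prop
  · change Continuous fun p : ℝ × (ℝ × ℝ) × EB5 => p.2.2.snd 0 - (p.2.1.2 : ℂ)
    fun_prop

theorem hF_zero {p : ℝ × (ℝ × ℝ) × EB5} : hF a b p = 0 ↔
    ((1 - p.1) * (‖p.2.2.fst‖ - 1) + p.1 * (p.2.1.1 - 1) = 0 ∧
      (1 - p.1) * (‖p.2.2.snd‖ - 1) + p.1 * (p.2.1.2 - 1) = 0) ∧
    (p.2.2.fst 0 = p.2.1.1 ∧ p.2.2.snd 0 = p.2.1.2) ∧ ee a b p.2.2 = 0 := by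
  rw [hF, Prod.mk_eq_zero, Prod.mk_eq_zero, baseMap, mkB_eq_zero]
  refine and_congr_right fun _ => and_congr_left fun _ => ?_
  simp [sub_eq_zero]

theorem open_dom : IsOpen baseDom := by
  refine (isOpen_lt continuous_const continuous_fst.fst).inter ((isOpen_lt continuous_const
    continuous_fst.snd).inter (IsOpen.inter ?_ ?_))
  · exact isOpen_ne_fun (f := fun x : (ℝ × ℝ) × EB5 => x.2.fst) (by fun_prop) continuous_const
  · exact isOpen_ne_fun (f := fun x : (ℝ × ℝ) × EB5 => x.2.snd) (by fun_prop) continuous_const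

theorem aux_ne {n : ℕ} {v : EuclideanSpace ℂ (Fin (n + 1))} {s r : ℝ}
    (h : (1 - s) * (‖v‖ - 1) + s * (r - 1) = 0) (h' : v 0 = r) : v ≠ 0 := by
  rintro rfl
  have h1 : r = 0 := Complex.ofReal_eq_zero.1 h'.symm
  rw [norm_zero, h1] at h
  linarith

theorem aux_le {n : ℕ} {v : EuclideanSpace ℂ (Fin (n + 1))} {s r : ℝ} (hs : s ∈ Icc (0 : ℝ) 1)
    (h : (1 - s) * (‖v‖ - 1) + s * (r - 1) = 0) (h' : v 0 = r) : r ≤ 1 := by
  have h1 := PiLp.norm_apply_le v 0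
  rw [h', Complex.norm_real] at h1
  have h2 := (le_abs_self r).trans h1
  nlinarith [mul_nonneg (sub_nonneg.2 hs.2) (sub_nonneg.2 h2)]

theorem cpt_hF (ha : a ≤ 4) (hb : b ≤ 4) : IsCompact {p : ℝ × (ℝ × ℝ) × EB5 |
    p.2 ∈ baseDom ∧ p.1 ∈ Icc (0 : ℝ) 1 ∧ hF a b p = 0} := by
  have h1 : IsCompact (⋃ d : Fin 9 × Fin a × (Fin 8 → Fin b),
      (fun q : ℝ × ℝ × ℝ => (q.1, q.2, ptB d q.2.1 q.2.2)) ''
        (Icc (0 : ℝ) 1 ×ˢ Icc (0 : ℝ) 1 ×ˢ Icc (0 : ℝ) 1)) :=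
    isCompact_iUnion fun d => (isCompact_Icc.prod (isCompact_Icc.prod isCompact_Icc)).image
      (continuous_fst.prodMk (continuous_snd.prodMk ((cont_ptB d).comp continuous_snd)))
  have h2 : {p : ℝ × (ℝ × ℝ) × EB5 | p.2 ∈ baseDom ∧ p.1 ∈ Icc (0 : ℝ) 1 ∧ hF a b p = 0} =
      {p | 0 ≤ p.2.1.1} ∩ ({p | 0 ≤ p.2.1.2} ∩ ({p | p.1 ∈ Icc (0 : ℝ) 1} ∩
        {p | hF a b p = 0})) := by
    refine Set.ext fun p => ⟨fun h => ⟨h.1.1.le, h.1.2.1.le, h.2⟩, fun ⟨b1, b2, b3, b4⟩ => ?_⟩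
    obtain ⟨⟨c1, c2⟩, ⟨c3, c4⟩, c5⟩ := hF_zero.1 b4
    obtain ⟨c6, c7, -⟩ := zeros ha hb (aux_ne c1 c3) (aux_ne c2 c4) c5
    rw [c3, Complex.ofReal_ne_zero] at c6
    rw [c4, Complex.ofReal_ne_zero] at c7
    exact ⟨⟨lt_of_le_of_ne b1 c6.symm, lt_of_le_of_ne b2 c7.symm, aux_ne c1 c3, aux_ne c2 c4⟩,
      b3, b4⟩
  refine h1.of_isClosed_subset ?_ fun p ⟨b1, b2, b3⟩ => ?_
  · rw [h2]
    exact (isClosed_le continuous_const (by fun_prop)).inter
      ((isClosed_le continuous_const (by fun_prop)).inter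
        ((isClosed_Icc.preimage continuous_fst).inter
          (isClosed_eq (cont_hF a b) continuous_const)))
  · obtain ⟨⟨c1, c2⟩, ⟨c3, c4⟩, c5⟩ := hF_zero.1 b3
    obtain ⟨d, hd⟩ := exists_ptB ha hb b1.2.2.1 b1.2.2.2 c5
    rw [c3, c4] at hd
    exact mem_iUnion.2 ⟨d, (p.1, p.2.1), ⟨b2, ⟨b1.1.le, aux_le b2 c1 c3⟩, b1.2.1.le,
      aux_le b2 c2 c4⟩, Prod.ext rfl (Prod.ext rfl hd.symm)⟩

theorem hF_at_zero (a b : ℕ) : (fun x => hF a b (0, x)) = baseMap a b :=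
  funext fun x => by simp [hF, baseMap]

/-- the real part of the first two coordinates -/
noncomputable def rB : (ℝ × ℝ) →L[ℝ] EB5 :=
  LinearMap.toContinuousLinearMap
    { toFun := fun r => mkB ![r.1, r.2] 0
      map_add' := fun _ _ => extB (fun i => by fin_cases i <;> simp) fun j => by simp
      map_smul' := fun _ _ => extB (fun i => by fin_cases i <;> simp) fun j => by simp }

theorem hF_at_one (a b : ℕ) : (fun x => hF a b (1, x)) = fun x : (ℝ × ℝ) × EB5 =>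
    (x.1 - (1, 1), mkB ![x.2.fst 0, x.2.snd 0] (ee a b x.2) - rB x.1) := by
  funext x
  refine Prod.ext (Prod.ext (by simp [hF]) (by simp [hF])) (extB (fun i => ?_) fun j => ?_)
  · fin_cases i <;> rfl
  · exact (sub_zero _).symm

theorem deg_one (hL : StLocal) (ha : a ≤ 4) (hb : b ≤ 4) :
    pdeg baseDom (fun x => hF a b (1, x)) = 9 * a * b ^ 8 := by
  have key : ∀ z : (ℝ × ℝ) × EB5, z ∈ baseDom → hF a b (1, z) = 0 →
      ∃ L : ((ℝ × ℝ) × EB5) →L[ℝ] ((ℝ × ℝ) × EB5),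
        HasFDerivAt (fun x => hF a b (1, x)) L z ∧ 0 < L.det := fun z h1 h2 => by
    obtain ⟨A, h3, h4⟩ := exists_der ha hb h1.2.2.1 h1.2.2.2 (hF_zero.1 h2).2.2
    rw [hF_at_one]
    exact ⟨_, (hasFDerivAt_fst.sub_const _).prodMk (((h3.restrictScalars ℝ).comp z
      hasFDerivAt_snd).sub (rB.hasFDerivAt.comp z hasFDerivAt_fst)),
      det_shear (rB : (ℝ × ℝ) →ₗ[ℝ] EB5) _ (det_pos h4) _ fun _ => rfl⟩
  choose! L h1 h2 using key
  let e : (Fin 9 × Fin a × (Fin 8 → Fin b)) ↪ (ℝ × ℝ) × EB5 :=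
    ⟨fun d => ((1, 1), ptB d 1 1), fun _ _ h => ptB_inj ha (congrArg Prod.snd h)⟩
  have hZ : ∀ z, z ∈ Finset.univ.map e ↔ z ∈ baseDom ∧ hF a b (1, z) = 0 := fun z => by
    simp only [Finset.mem_map, Finset.mem_univ, true_and]
    constructor
    · rintro ⟨d, rfl⟩
      have h0 : ∀ t : ℝ, (1 - 1) * t + 1 * (1 - 1) = 0 := fun t => by ring
      have c1 : (ptB d 1 1).fst 0 = 1 := rfl
      have c2 : (ptB d 1 1).snd 0 = 1 := rfl
      refine ⟨⟨one_pos, one_pos, fun h => ?_, fun h => ?_⟩,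
        hF_zero.2 ⟨⟨h0 _, h0 _⟩, ⟨c1, c2⟩, ee_ptB d 1 1⟩⟩
      · change (ptB d 1 1).fst = 0 at h
        rw [h] at c1
        exact zero_ne_one c1
      · change (ptB d 1 1).snd = 0 at h
        rw [h] at c2
        exact zero_ne_one c2
    · rintro ⟨b1, b2⟩
      obtain ⟨⟨c1, c2⟩, ⟨c3, c4⟩, c5⟩ := hF_zero.1 b2
      have r1 : z.1.1 = 1 := by simpa [sub_eq_zero] using c1
      have r2 : z.1.2 = 1 := by simpa [sub_eq_zero] using c2
      obtain ⟨d, hd⟩ := exists_ptB ha hb b1.2.2.1 b1.2.2.2 c5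
      rw [c3, c4, r1, r2] at hd
      exact ⟨d, Prod.ext (Prod.ext r1.symm r2.symm) hd.symm⟩
  rw [hL _ baseDom (fun x => hF a b (1, x)) (Finset.univ.map e) L open_dom
    ((cont_hF a b).comp (Continuous.prodMk_right 1)).continuousOn hZ
    fun z hz => ⟨h1 z ((hZ z).1 hz).1 ((hZ z).1 hz).2,
      (h2 z ((hZ z).1 hz).1 ((hZ z).1 hz).2).ne'⟩,
    Finset.sum_congr rfl fun z hz => sg_pos (h2 z ((hZ z).1 hz).1 ((hZ z).1 hz).2)]
  simp [mul_assoc]

end BaseA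

open BaseA in
theorem stBase (hL : StLocal) : StBase := by
  intro a b _ ha _ hb
  refine ⟨fun m h1 h2 h => ⟨(zeros ha hb h1 h2 h).1, (zeros ha hb h1 h2 h).2.1⟩, ?_, ?_⟩
  · have h : HGerm {p : ℝ × (ℝ × ℝ) × EB5 | p.2 ∈ baseDom} (hF a b) :=
      ⟨open_dom.preimage continuous_snd, (cont_hF a b).continuousOn, cpt_hF ha hb⟩
    have h1 := h.slice (t := 0) ⟨le_rfl, zero_le_one⟩
    rwa [hF_at_zero] at h1
  · rw [← hF_at_zero, pdeg_htpy' open_dom (cont_hF a b).continuousOn (cpt_hF ha hb),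
      deg_one hL ha hb]

end Vale.Agent.P220Z.Def
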