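import Vale.Agent.P220Z.Def.Wind

/-!
# P220, labels exist after a small perturbation
-/

open Set Topology
open scoped unitInterval

namespace Vale.Agent.P220Z.Def

open Vale.Agent.P220Z.Deg

namespace La

theorem isClosed_RR : IsClosed RR := by
  have h : RR = ⋃ k : ZMod 5, (fun c : ℂ => om (-k) * c) ⁻¹' {z : ℂ | ∃ r : ℝ, 0 ≤ r ∧ z = r} := by
    have h1 : ∀ k : ZMod 5, (om (-k) : ℂ) * om k = 1 := fun k => by
      rw [← om_add, neg_add_cancel, om_zero]
    ext c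
    simp only [RR, mem_ofPred_eq, mem_iUnion, mem_preimage]
    refine exists_congr fun k => exists_congr fun r => and_congr_right fun _ => ⟨?_, fun h => ?_⟩
    · rintro rfl
      rw [mul_left_comm, h1, mul_one]
    · rw [← h, mul_right_comm, h1, one_mul]
  rw [h]
  exact isClosed_iUnion_of_finite fun k => isClosed_nonneg.preimage (by fun_prop)

theorem mul_mem_RR (k : ZMod 5) {c : ℂ} (h : c ∈ RR) : om k * c ∈ RR := by
  obtain ⟨j, r, h1, rfl⟩ := h
  exact ⟨k + j, r, h1, by rw [om_add, mul_left_comm]⟩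

/-- the action on the label -/
noncomputable def lab (a b : ZMod 5) : G3 →* (ℂ →L[ℝ] ℂ) where
  toFun γ := ContinuousLinearMap.mul ℝ ℂ (om (γ.2.toAdd - chi a b γ))
  map_one' := ContinuousLinearMap.ext fun z => by simp [chi, om_zero]
  map_mul' g h := by
    refine ContinuousLinearMap.ext fun z => ?_
    show (om ((g * h).2.toAdd - chi a b (g * h)) : ℂ) * z =
      om (g.2.toAdd - chi a b g) * (om (h.2.toAdd - chi a b h) * z)
    rw [← mul_assoc, ← om_add]
    refine congrArg (fun k => (om k : ℂ) * z) ?_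
    simp only [chi, Prod.snd_mul, Prod.fst_mul, toAdd_mul, Prod.fst_add, Prod.snd_add]
    ring

variable {V : Type} [NormedAddCommGroup V] [NormedSpace ℝ V] {π : G3 →* (V →L[ℝ] V)}

theorem slice {O : Set ((I × ℝ) × V)} {Φ : (I × ℝ) × V → V} {ε : (I × ℝ) × V → ℂ}
    (h : IsQ π O Φ ε) (s : I) :
    IsQ π (atL s ⁻¹' O) (fun y => Φ (atL s y)) fun y => ε (atL s y) := by
  have hc : Continuous (atL s : ℝ × V → (I × ℝ) × V) := by
    unfold atL
    fun_prop
  refine ⟨h.op.preimage hc, h.cont.comp hc.continuousOn fun _ hy => hy,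
    h.conte.comp hc.continuousOn fun _ hy => hy, fun γ p z hz => h.mem γ (s, p) z hz,
    fun γ p z hz => h.eq γ (s, p) z hz, fun γ p z hz => h.eqe γ (s, p) z hz,
    fun y hy => h.free (atL s y) hy, ?_⟩
  have h1 := (h.cpt.inter_right (isClosed_eq (f := fun y : (I × ℝ) × V => y.1.1) (by fun_prop)
    (continuous_const (y := s)))).image (f := fun y : (I × ℝ) × V => (y.1.2, y.2)) (by fun_prop)
  refine Wi.cpt_of h1 fun y => ⟨fun hy => ⟨atL s y, ⟨hy, rfl⟩, rfl⟩, ?_⟩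
  rintro ⟨⟨⟨r, t⟩, z⟩, ⟨h2, h3⟩, rfl⟩
  obtain rfl : r = s := h3
  exact h2

end La

open La in
/-- A label exists after a small perturbation. -/
theorem stLab (hG : Deg.StGP) : StLab := by
  intro V _ _ _ π H a b O Φ ε hH hχ h hst
  obtain ⟨L, hL, h1, h2⟩ := exists_compact_between h.cpt h.op fun y hy => hy.1
  have hπ : ∀ γ γ' z, π γ (π γ' z) = π (γ * γ') z := fun γ γ' z => by rw [map_mul]; rfl
  have hπ1 : ∀ z, π 1 z = z := fun z => by rw [map_one]; rfl
  have hcγ : ∀ γ, Continuous fun y : ℝ × V => (y.1, π γ y.2) := fun γ => by fun_prop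
  obtain ⟨K, hK⟩ : ∃ K : Set (ℝ × V), K = ⋂ γ, (fun y => (y.1, π γ y.2)) ⁻¹' L := ⟨_, rfl⟩
  obtain ⟨U, hU⟩ : ∃ U : Set (ℝ × V), U = ⋂ γ, (fun y => (y.1, π γ y.2)) ⁻¹' interior L :=
    ⟨_, rfl⟩
  have mK : ∀ y, y ∈ K ↔ ∀ γ, (y.1, π γ y.2) ∈ L := fun y => by rw [hK, mem_iInter]; rfl
  have mU : ∀ y, y ∈ U ↔ ∀ γ, (y.1, π γ y.2) ∈ interior L := fun y => by rw [hU, mem_iInter]; rfl
  have hKL : K ⊆ L := fun y hy => by simpa only [hπ1] using (mK y).1 hy 1
  have hKO : K ⊆ O := hKL.trans h2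
  have hUK : U ⊆ K := fun y hy => (mK y).2 fun γ => interior_subset ((mU y).1 hy γ)
  have cK : IsCompact K := hL.of_isClosed_subset
    (hK ▸ isClosed_iInter fun γ => hL.isClosed.preimage (hcγ γ)) hKL
  have oU : IsOpen U := hU ▸ isOpen_iInter_of_finite fun γ => isOpen_interior.preimage (hcγ γ)
  have iK : ∀ γ t z, (t, z) ∈ K → (t, π γ z) ∈ K := fun γ t z hz =>
    (mK _).2 fun γ' => by simpa only [hπ] using (mK _).1 hz (γ' * γ)
  have iU : ∀ γ t z, (t, z) ∈ U → (t, π γ z) ∈ U := fun γ t z hz =>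
    (mU _).2 fun γ' => by simpa only [hπ] using (mU _).1 hz (γ' * γ)
  have hZ : ∀ y ∈ O, Φ y = 0 → ε y ∈ RR → y ∈ U := fun y hy h3 h4 => (mU y).2 fun γ => h1
    ⟨h.mem γ _ _ hy, by rw [h.eq γ _ _ hy, show Φ (y.1, y.2) = 0 from h3, map_zero],
      by rw [h.eqe γ _ _ hy]; exact mul_mem_RR _ h4⟩
  have hC : IsClosed (({0} : Set V) ×ˢ RR) := isClosed_singleton.prod isClosed_RR
  obtain ⟨m, hm, hm'⟩ := exists_margin (cK.diff oU) (f := fun y => (Φ y, ε y))
    ((h.cont.prodMk h.conte).mono fun y hy => hKO hy.1) hC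
    fun y hy h3 => hy.2 (hZ y (hKO hy.1) h3.1 h3.2)
  have k1 : H ≤ (prodRep (1 : G3 →* (ℝ →L[ℝ] ℝ)) π).ker := fun γ hγ =>
    ContinuousLinearMap.ext fun y => Prod.ext rfl (hH γ hγ y.2)
  have k2 : H ≤ (prodRep π (lab a b)).ker := fun γ hγ =>
    ContinuousLinearMap.ext fun y => Prod.ext (hH γ hγ y.1) (by
      show (om (γ.2.toAdd - chi a b γ) : ℂ) * y.2 = y.2
      rw [hχ γ hγ, sub_self, om_zero, one_mul])
  have hdim : dimH {p : (ℝ × V) × (V × ℂ) | p.2 = 0} < Module.finrank ℝ (V × ℂ) := by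
    have h3 : ContDiff ℝ 1 fun w : ℝ × V => ((w, 0) : (ℝ × V) × (V × ℂ)) :=
      contDiff_id.prodMk contDiff_const
    refine (le_trans (dimH_mono fun p hp => mem_range.2 ⟨p.1, Prod.ext rfl (Eq.symm hp)⟩)
      h3.dimH_range_le).trans_lt ?_
    rw [Module.finrank_prod, Module.finrank_prod, Module.finrank_self, Complex.finrank_real_complex]
    exact_mod_cast (by omega)
  obtain ⟨F, c1, c2, c3, c4⟩ := hG (G3 ⧸ H) (ℝ × V) (V × ℂ) _ _
    (isRep_hom (QuotientGroup.lift H _ k1)) (isRep_hom (QuotientGroup.lift H _ k2)) K cK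
    (fun g => QuotientGroup.induction_on g fun γ y hy => iK γ y.1 y.2 hy)
    (fun g => QuotientGroup.induction_on g fun γ y hy h3 => (QuotientGroup.eq_one_iff γ).2
      (hst y (hKO hy) γ (congrArg Prod.snd h3)))
    (fun y => (Φ y, 0)) ((h.cont.mono hKO).prodMk continuousOn_const)
    (fun g => QuotientGroup.induction_on g fun γ y hy =>
      Prod.ext (h.eq γ y.1 y.2 (hKO hy)) (mul_zero _).symm)
    {p | p.2 = 0} (isClosed_eq continuous_snd continuous_const)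
    (fun g p hp => by
      show QuotientGroup.lift H _ k2 g p.2 = 0
      rw [show p.2 = 0 from hp, map_zero]) hdim m hm
  have e1 : ∀ γ t z, F (t, π γ z) =
      (π γ (F (t, z)).1, om (γ.2.toAdd - chi a b γ) * (F (t, z)).2) :=
    fun γ t z => c2 (γ : G3 ⧸ H) (t, z)
  have hc : Continuous fun p : (I × ℝ) × V => (p.1.2, p.2) := by fun_prop
  have hΨ : ContinuousOn (fun p : (I × ℝ) × V => (1 - (p.1.1 : ℝ)) • Φ (p.1.2, p.2) +
      (p.1.1 : ℝ) • (F (p.1.2, p.2)).1) {p | (p.1.2, p.2) ∈ O} :=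
    ((show Continuous fun p : (I × ℝ) × V => 1 - (p.1.1 : ℝ) by fun_prop).continuousOn.smul
      (h.cont.comp hc.continuousOn fun _ hp => hp)).add
      ((show Continuous fun p : (I × ℝ) × V => (p.1.1 : ℝ) by fun_prop).smul
        (c1.continuous.comp hc).fst).continuousOn
  have hε : ContinuousOn (fun p : (I × ℝ) × V => ε (p.1.2, p.2)) {p | (p.1.2, p.2) ∈ O} :=
    h.conte.comp hc.continuousOn fun _ hp => hp
  have hQ : IsQ π {p : (I × ℝ) × V | (p.1.2, p.2) ∈ U} (fun p => (1 - (p.1.1 : ℝ)) •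
      Φ (p.1.2, p.2) + (p.1.1 : ℝ) • (F (p.1.2, p.2)).1) fun p => ε (p.1.2, p.2) := by
    refine ⟨oU.preimage hc, hΨ.mono fun p hp => hKO (hUK hp), hε.mono fun p hp => hKO (hUK hp),
      fun γ p z hz => iU γ p.2 z hz, fun γ p z hz => ?_,
      fun γ p z hz => h.eqe γ p.2 z (hKO (hUK hz)),
      fun p hp => h.free (p.1.2, p.2) (hKO (hUK hp)), ?_⟩
    · simp only [map_add, map_smul, e1, h.eq γ p.2 z (hKO (hUK hz))]
    · have h3 : IsCompact {p : (I × ℝ) × V | (p.1.2, p.2) ∈ K} :=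
        Wi.cpt_of ((isCompact_univ.prod cK).image
          (f := fun q : I × (ℝ × V) => ((q.1, q.2.1), q.2.2)) (by fun_prop)) fun p =>
          ⟨fun hp => ⟨(p.1.1, (p.1.2, p.2)), ⟨trivial, hp⟩, rfl⟩, by
            rintro ⟨q, hq, rfl⟩
            exact hq.2⟩
      refine Wi.cpt_cl h3 ((hΨ.prodMk hε).mono fun p hp => hKO hp) hC fun p =>
        ⟨fun hp => ⟨hUK hp.1, hp.2⟩, fun hp => ⟨by_contra fun hn => ?_, hp.2⟩⟩
      refine hm' (p.1.2, p.2) ⟨hp.1, hn⟩ _ ?_ hp.2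
      rw [Prod.mk_sub_mk, sub_self, Prod.norm_mk, norm_zero, max_eq_left (norm_nonneg _)]
      exact norm_seg_left ((norm_fst_le (F (p.1.2, p.2) - (Φ (p.1.2, p.2), 0))).trans_lt
        (c3 _ hp.1)) p.1.1.2
  have q0 := slice hQ 0
  have q1 := slice hQ 1
  simp only [atL, Set.Icc.coe_zero, Set.Icc.coe_one, sub_zero, sub_self, one_smul, zero_smul,
    add_zero, zero_add] at q0 q1
  refine ⟨U, fun y => (F y).1, fun y => (F y).2, q1, ⟨c1.continuous.snd.continuousOn,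
    fun γ t z _ => congrArg Prod.snd (e1 γ t z), fun y hy h3 h4 => c4 y (hUK hy)
      (Prod.ext h3 h4)⟩, hUK.trans hKO, fun D hD => ?_⟩
  have h3 := hD.hom _ _ _ hQ
  simp only [atL, Set.Icc.coe_zero, Set.Icc.coe_one, sub_zero, sub_self, one_smul, zero_smul,
    add_zero, zero_add] at h3
  exact (hD.exc O Φ ε U Φ ε h q0 (hUK.trans hKO) hZ fun _ _ => ⟨rfl, rfl⟩).symm.trans h3

end Vale.Agent.P220Z.Def
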