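import Vale.Agent.P220Z.Def.Glue
import Vale.Agent.P220Z.Def.Base
import Vale.Agent.P220Z.Def.Lab

/-!
# P220, the toolkit
-/

namespace Vale.Agent.P220Z.Def

theorem loc5 : Loc n5 w5 4 := loc5_of (stLab Deg.stGP) (stBase Deg.stLocal)

theorem stTool : StTool := stTool_of (stLab Deg.stGP) (stBase Deg.stLocal)

end Vale.Agent.P220Z.Def
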