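import Mathlib

/-!
# P220, cycles and the count modulo five: definitions and rules

`G` acts on a subset `B` of `EB` and on `Y`; the cyclic group of order five acts on `X5 Y` by the
shift. A cycle is an equivariant map `u`, defined on a relatively open subset `U` of
`ℝ × B × X5 Y` that misses the diagonal, with a compact set of zeros.
-/

open Set Topology
open scoped unitInterval

namespace Vale.Agent.P220Z.Def

/-- five copies of `Y` -/
abbrev X5 (Y : Type) : Type := ZMod 5 → Y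

section Ops

variable {G : Type} [Group G] {Y : Type} [NormedAddCommGroup Y] [NormedSpace ℝ Y]
  {Y₂ : Type} [NormedAddCommGroup Y₂] [NormedSpace ℝ Y₂]

/-- the shift -/
def sh {Y : Type} (x : X5 Y) : X5 Y := fun j => x (j - 1)

/-- the permutation `j ↦ 2 j`; `tw (sh (sh x)) = sh (tw x)` -/
def tw {Y : Type} (x : X5 Y) : X5 Y := fun j => x (2 * j)

/-- the diagonal action -/
def act (ρ : G →* (Y →L[ℝ] Y)) (g : G) (x : X5 Y) : X5 Y := fun j => ρ g (x j)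

/-- an isometric action as an action by continuous linear maps -/
def cl (ρ : G →* (Y ≃ₗᵢ[ℝ] Y)) : G →* (Y →L[ℝ] Y) where
  toFun g := (ρ g).toContinuousLinearEquiv
  map_one' := by
    ext y
    simp
  map_mul' g h := by
    ext y
    simp

/-- the sum of two actions -/
def prodRep (ρ : G →* (Y →L[ℝ] Y)) (ρ₂ : G →* (Y₂ →L[ℝ] Y₂)) : G →* (Y × Y₂ →L[ℝ] Y × Y₂) where
  toFun g := (ρ g).prodMap (ρ₂ g)
  map_one' := by
    ext y <;> simp
  map_mul' g h := by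
    ext y <;> simp

/-- first components -/
def fs {Y Y₂ : Type} (x : X5 (Y × Y₂)) : X5 Y := fun j => (x j).1

/-- second components -/
def sn {Y Y₂ : Type} (x : X5 (Y × Y₂)) : X5 Y₂ := fun j => (x j).2

/-- pairs -/
def pr {Y Y₂ : Type} (x : X5 Y) (y : X5 Y₂) : X5 (Y × Y₂) := fun j => (x j, y j)

end Ops

section Cyc

variable {G : Type} [Group G] {EB : Type} [NormedAddCommGroup EB] [InnerProductSpace ℝ EB]
  {Y : Type} [NormedAddCommGroup Y] [NormedSpace ℝ Y]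

/-- A family of cycles over the parameter space `P`. -/
structure IsFam {P : Type} [TopologicalSpace P] (β : G →* (EB ≃ₗᵢ[ℝ] EB)) (B : Set EB)
    (ρ : G →* (Y →L[ℝ] Y)) (U : Set (P × EB × X5 Y)) (u : P × EB × X5 Y → X5 Y) : Prop where
  sub : ∀ w ∈ U, w.2.1 ∈ B
  op : ∀ w ∈ U, U ∈ 𝓝[{v | v.2.1 ∈ B}] w
  cont : ContinuousOn u U
  memG : ∀ g p b x, (p, b, x) ∈ U → (p, β g b, act ρ g x) ∈ U
  eqG : ∀ g p b x, (p, b, x) ∈ U → u (p, β g b, act ρ g x) = act ρ g (u (p, b, x))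
  memS : ∀ p b x, (p, b, x) ∈ U → (p, b, sh x) ∈ U
  eqS : ∀ p b x, (p, b, x) ∈ U → u (p, b, sh x) = sh (u (p, b, x))
  free : ∀ w ∈ U, sh w.2.2 ≠ w.2.2
  cpt : IsCompact {w | w ∈ U ∧ u w = 0}

/-- A cycle: the parameter is the time. -/
abbrev IsCyc (β : G →* (EB ≃ₗᵢ[ℝ] EB)) (B : Set EB) (ρ : G →* (Y →L[ℝ] Y))
    (U : Set (ℝ × EB × X5 Y)) (u : ℝ × EB × X5 Y → X5 Y) : Prop :=
  IsFam β B ρ U u

/-- the point `(t, b, x)` at the parameter `s` of a homotopy -/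
def at1 (s : I) (w : ℝ × EB × X5 Y) : (I × ℝ) × EB × X5 Y := ((s, w.1), w.2)

end Cyc

/-- functions of cycles -/
abbrev Cnt (G : Type) [Group G] (EB : Type) : Type 1 :=
  ∀ (Y : Type) [NormedAddCommGroup Y] [NormedSpace ℝ Y] [FiniteDimensional ℝ Y],
    (G →* (Y →L[ℝ] Y)) → Set (ℝ × EB × X5 Y) → (ℝ × EB × X5 Y → X5 Y) → ZMod 5

/-- the sign of a real number in `ZMod 5` -/
noncomputable def sg5 (x : ℝ) : ZMod 5 := ((SignType.sign x : SignType) : ZMod 5)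

/-- The rules for the count. -/
structure IsCnt {G : Type} [Group G] {EB : Type} [NormedAddCommGroup EB] [InnerProductSpace ℝ EB]
    (β : G →* (EB ≃ₗᵢ[ℝ] EB)) (B : Set EB) (n : Cnt G EB) : Prop where
  /-- no zero -/
  empty : ∀ (Y : Type) [NormedAddCommGroup Y] [NormedSpace ℝ Y] [FiniteDimensional ℝ Y]
    (ρ : G →* (Y →L[ℝ] Y)) U u, IsCyc β B ρ U u → (∀ w ∈ U, u w ≠ 0) → n Y ρ U u = 0
  /-- excision and congruence -/
  exc : ∀ (Y : Type) [NormedAddCommGroup Y] [NormedSpace ℝ Y] [FiniteDimensional ℝ Y]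
    (ρ : G →* (Y →L[ℝ] Y)) U u U' u', IsCyc β B ρ U u → IsCyc β B ρ U' u' → U' ⊆ U →
    (∀ w ∈ U, u w = 0 → w ∈ U') → (∀ w ∈ U', u' w = u w) → n Y ρ U' u' = n Y ρ U u
  /-- disjoint unions -/
  add : ∀ (Y : Type) [NormedAddCommGroup Y] [NormedSpace ℝ Y] [FiniteDimensional ℝ Y]
    (ρ : G →* (Y →L[ℝ] Y)) U U' u, IsCyc β B ρ U u → IsCyc β B ρ U' u → Disjoint U U' →
    n Y ρ (U ∪ U') u = n Y ρ U u + n Y ρ U' u
  /-- homotopy, the domain may move -/
  hom : ∀ (Y : Type) [NormedAddCommGroup Y] [NormedSpace ℝ Y] [FiniteDimensional ℝ Y]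
    (ρ : G →* (Y →L[ℝ] Y)) (U : Set ((I × ℝ) × EB × X5 Y)) u, IsFam β B ρ U u →
    n Y ρ (at1 0 ⁻¹' U) (fun w => u (at1 0 w)) = n Y ρ (at1 1 ⁻¹' U) fun w => u (at1 1 w)
  /-- affine change of the time -/
  time : ∀ (Y : Type) [NormedAddCommGroup Y] [NormedSpace ℝ Y] [FiniteDimensional ℝ Y]
    (ρ : G →* (Y →L[ℝ] Y)) U u (c d : ℝ), c ≠ 0 → IsCyc β B ρ U u →
    n Y ρ {w | (c * w.1 + d, w.2) ∈ U} (fun w => u (c * w.1 + d, w.2)) = sg5 c * n Y ρ U u
  /-- an equivariant linear automorphism of the target -/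
  lin : ∀ (Y : Type) [NormedAddCommGroup Y] [NormedSpace ℝ Y] [FiniteDimensional ℝ Y]
    (ρ : G →* (Y →L[ℝ] Y)) U u (L : X5 Y ≃L[ℝ] X5 Y), (∀ g x, L (act ρ g x) = act ρ g (L x)) →
    (∀ x, L (sh x) = sh (L x)) → IsCyc β B ρ U u →
    n Y ρ U (fun w => L (u w)) = sg5 (L : X5 Y →L[ℝ] X5 Y).det * n Y ρ U u
  /-- conjugation by an equivariant linear isomorphism -/
  conj : ∀ (Y : Type) [NormedAddCommGroup Y] [NormedSpace ℝ Y] [FiniteDimensional ℝ Y]
    (Y' : Type) [NormedAddCommGroup Y'] [NormedSpace ℝ Y'] [FiniteDimensional ℝ Y']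
    (ρ : G →* (Y →L[ℝ] Y)) (ρ' : G →* (Y' →L[ℝ] Y')) U u (e : X5 Y' ≃L[ℝ] X5 Y),
    (∀ g x, e (act ρ' g x) = act ρ g (e x)) → (∀ x, e (sh x) = sh (e x)) → IsCyc β B ρ U u →
    n Y' ρ' {w | (w.1, w.2.1, e w.2.2) ∈ U} (fun w => e.symm (u (w.1, w.2.1, e w.2.2))) =
      n Y ρ U u
  /-- product with the identity -/
  susp : ∀ (Y : Type) [NormedAddCommGroup Y] [NormedSpace ℝ Y] [FiniteDimensional ℝ Y]
    (Y₂ : Type) [NormedAddCommGroup Y₂] [NormedSpace ℝ Y₂] [FiniteDimensional ℝ Y₂]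
    (ρ : G →* (Y →L[ℝ] Y)) (ρ₂ : G →* (Y₂ →L[ℝ] Y₂)) U u, IsCyc β B ρ U u →
    n (Y × Y₂) (prodRep ρ ρ₂) {w | (w.1, w.2.1, fs w.2.2) ∈ U}
      (fun w => pr (u (w.1, w.2.1, fs w.2.2)) (sn w.2.2)) = n Y ρ U u
  /-- conjugation by the permutation `tw` changes the sign; the inverse of `tw` is `tw³` -/
  twist : ∀ (Y : Type) [NormedAddCommGroup Y] [NormedSpace ℝ Y] [FiniteDimensional ℝ Y]
    (ρ : G →* (Y →L[ℝ] Y)) U u, IsCyc β B ρ U u →
    n Y ρ {w | (w.1, w.2.1, tw w.2.2) ∈ U} (fun w => tw (tw (tw (u (w.1, w.2.1, tw w.2.2))))) =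
      - n Y ρ U u

/-! ### the base `S³ × S¹⁷` -/

/-- the group -/
abbrev G5 : Type := Multiplicative (ZMod 5 × ZMod 5)

/-- the ambient space of the base -/
abbrev EB5 : Type := WithLp 2 (EuclideanSpace ℂ (Fin 2) × EuclideanSpace ℂ (Fin 9))

/-- the base -/
def B5 : Set EB5 := {b | ‖b.fst‖ = 1 ∧ ‖b.snd‖ = 1}

/-- the standard character of `ZMod 5` -/
noncomputable def om (k : ZMod 5) : Circle := ZMod.toCircle k

/-- multiplication by a complex number of norm one -/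
noncomputable def rot (m : ℕ) (c : Circle) :
    EuclideanSpace ℂ (Fin m) ≃ₗᵢ[ℝ] EuclideanSpace ℂ (Fin m) where
  toFun z := (c : ℂ) • z
  invFun z := ((c⁻¹ : Circle) : ℂ) • z
  map_add' := smul_add _
  map_smul' r z := smul_comm _ r z
  left_inv z := by simp [smul_smul]
  right_inv z := by simp [smul_smul]
  norm_map' z := by
    show ‖(c : ℂ) • z‖ = ‖z‖
    rw [norm_smul, Circle.norm_coe, one_mul]

@[simp] theorem rot_apply (m : ℕ) (c : Circle) (z : EuclideanSpace ℂ (Fin m)) :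
    rot m c z = (c : ℂ) • z := rfl

/-- the free action on the base -/
noncomputable def β5 : G5 →* (EB5 ≃ₗᵢ[ℝ] EB5) where
  toFun g := LinearIsometryEquiv.withLpProdCongr 2 (rot 2 (om g.toAdd.1)) (rot 9 (om g.toAdd.2))
  map_one' := by
    ext x : 1
    simp [om]
    rfl
  map_mul' g h := by
    ext x : 1
    simp [om, AddChar.map_add_eq_mul, smul_smul]

end Vale.Agent.P220Z.Def
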