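import Vale.Agent.P220Z.Def.Nw

/-!
# P220, a problem in product form has the count of its fixed part
-/

open Set Topology

namespace Vale.Agent.P220Z.Def

namespace Form

variable {V : Type} [NormedAddCommGroup V] [NormedSpace ℝ V]
  {V' : Type} [NormedAddCommGroup V'] [NormedSpace ℝ V']
  {π : G3 →* (V →L[ℝ] V)} {H : Subgroup G3} {P : V →L[ℝ] V}
  {O : Set (ℝ × V)} {Φ Φ' : ℝ × V → V} {ε : ℝ × V → ℂ}

theorem congr_q (h : IsQ π O Φ ε) (e : ∀ y ∈ O, Φ' y = Φ y) : IsQ π O Φ' ε where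
  op := h.op
  cont := h.cont.congr e
  conte := h.conte
  mem := h.mem
  eq γ p z hz := by rw [e _ (h.mem γ p z hz), e _ hz, h.eq γ p z hz]
  eqe := h.eqe
  free := h.free
  cpt := by
    have : {y | y ∈ O ∧ Φ' y = 0 ∧ ε y ∈ RR} = {y | y ∈ O ∧ Φ y = 0 ∧ ε y ∈ RR} :=
      Set.ext fun y => and_congr_right fun hy => by rw [e y hy]
    rw [this]
    exact h.cpt

theorem PP (hP : IsProjH π H P) (z : V) : P (P z) = P z := hP.id _ fun γ hγ => hP.fix γ hγ z

theorem P_phi (hP : IsProjH π H P) (h : IsQ π O Φ ε) {t : ℝ} {z : V} (hz : (t, z) ∈ O)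
    (hf : P z = z) : P (Φ (t, z)) = Φ (t, z) :=
  hP.id _ fun γ hγ => by rw [← h.eq γ t z hz, ← hf, hP.fix γ hγ]

/-- the problem in product form -/
theorem prod_q (hP : IsProjH π H P) (h : IsQ π O Φ ε) :
    IsQ π {y : ℝ × V | (y.1, P y.2) ∈ O} (fun y => y.2 - P y.2 + Φ (y.1, P y.2))
      fun y => ε (y.1, P y.2) := by
  have hj : Continuous fun y : ℝ × V => (y.1, P y.2) := by fun_prop
  refine ⟨h.op.preimage hj, ?_, h.conte.comp hj.continuousOn fun _ hy => hy, ?_, ?_, ?_, ?_, ?_⟩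
  · exact (Continuous.continuousOn (by fun_prop)).add
      (h.cont.comp hj.continuousOn fun _ hy => hy)
  · intro γ t z hz
    show (t, P (π γ z)) ∈ O
    rw [hP.comm]
    exact h.mem γ t _ hz
  · intro γ t z hz
    show π γ z - P (π γ z) + Φ (t, P (π γ z)) = π γ (z - P z + Φ (t, P z))
    rw [hP.comm, h.eq γ t _ hz, map_add, map_sub]
  · intro γ t z hz
    show ε (t, P (π γ z)) = _
    rw [hP.comm]
    exact h.eqe γ t _ hz
  · intro y hy e
    refine h.free _ hy ?_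
    show π sig (P y.2) = P y.2
    rw [← hP.comm, e]
  · have e : {y : ℝ × V | (y.1, P y.2) ∈ O ∧ y.2 - P y.2 + Φ (y.1, P y.2) = 0 ∧
        ε (y.1, P y.2) ∈ RR} = {y | y ∈ O ∧ Φ y = 0 ∧ ε y ∈ RR} ∩ {y | P y.2 = y.2} := by
      ext ⟨t, z⟩
      constructor
      · rintro ⟨h1, h2, h3⟩
        have h4 := congrArg P h2
        rw [map_add, map_sub, PP hP, sub_self, zero_add, map_zero, P_phi hP h h1 (PP hP z)] at h4
        rw [h4, add_zero, sub_eq_zero] at h2
        dsimp only at h1 h2 h3 h4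
        rw [← h2] at h1 h3 h4
        exact ⟨⟨h1, h4, h3⟩, h2.symm⟩
      · rintro ⟨⟨h1, h2, h3⟩, h4⟩
        have h5 : P z = z := h4
        show (t, P z) ∈ O ∧ z - P z + Φ (t, P z) = 0 ∧ ε (t, P z) ∈ RR
        rw [h5, h2, sub_self, add_zero]
        exact ⟨h1, rfl, h3⟩
    exact e ▸ h.cpt.inter_right (isClosed_eq (by fun_prop) (by fun_prop))

variable {ι : V' →L[ℝ] V} {p : V →L[ℝ] V'}

/-- the action on the fixed part -/
def rep1 (hP : IsProjH π H P) (hι : Function.Injective ι) (h1 : ∀ z, ι (p z) = P z)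
    (h2 : ∀ z, P (ι z) = ι z) : G3 →* (V' →L[ℝ] V') where
  toFun γ := p.comp ((π γ).comp ι)
  map_one' := by
    ext z
    refine hι ?_
    show ι (p (π 1 (ι z))) = ι z
    rw [h1, map_one]
    exact h2 z
  map_mul' γ δ := by
    ext z
    show p (π (γ * δ) (ι z)) = p (π γ (ι (p (π δ (ι z)))))
    rw [h1, hP.comm, h2, map_mul]
    rfl

/-- the action on the kernel of the projection -/
def rep2 (hP : IsProjH π H P) :
    G3 →* (LinearMap.ker (P : V →ₗ[ℝ] V) →L[ℝ] LinearMap.ker (P : V →ₗ[ℝ] V)) where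
  toFun γ := ((π γ).comp (LinearMap.ker (P : V →ₗ[ℝ] V)).subtypeL).codRestrict _ fun z => by
    have h : P z = 0 := z.2
    show P (π γ z) = 0
    rw [hP.comm, h, map_zero]
  map_one' := by
    ext z
    show π 1 z = z
    rw [map_one]
    rfl
  map_mul' γ δ := by
    ext z
    show π (γ * δ) z = π γ (π δ z)
    rw [map_mul]
    rfl

/-- the splitting -/
def split (hP : IsProjH π H P) (hι : Function.Injective ι) (h1 : ∀ z, ι (p z) = P z)
    (h2 : ∀ z, P (ι z) = ι z) : (V' × LinearMap.ker (P : V →ₗ[ℝ] V)) ≃L[ℝ] V where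
  toFun z := ι z.1 + z.2
  invFun v := (p v, ⟨v - P v, by
    show P (v - P v) = 0
    rw [map_sub, PP hP, sub_self]⟩)
  map_add' a b := by
    show ι (a.1 + b.1) + ((a.2 : V) + b.2) = _
    rw [map_add]
    abel
  map_smul' c a := by
    show ι (c • a.1) + c • (a.2 : V) = c • (ι a.1 + a.2)
    rw [map_smul, smul_add]
  left_inv z := by
    have h : P z.2 = 0 := z.2.2
    have e : P (ι z.1 + z.2) = ι z.1 := by rw [map_add, h2, h, add_zero]
    refine Prod.ext (hι ?_) (Subtype.ext ?_)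
    · exact (h1 _).trans e
    · show ι z.1 + z.2 - P (ι z.1 + z.2) = z.2
      rw [e, add_sub_cancel_left]
  right_inv v := by
    show ι (p v) + (v - P v) = v
    rw [h1, add_sub_cancel]
  continuous_toFun := by fun_prop
  continuous_invFun := by fun_prop

theorem fix_q (hP : IsProjH π H P) (hι : Function.Injective ι) (h1 : ∀ z, ι (p z) = P z)
    (h2 : ∀ z, P (ι z) = ι z) {π' : G3 →* (V' →L[ℝ] V')} (h3 : ∀ γ z, ι (π' γ z) = π γ (ι z))
    (h : IsQ π O Φ ε) :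
    IsQ π' {y : ℝ × V' | (y.1, ι y.2) ∈ O} (fun y => p (Φ (y.1, ι y.2)))
      fun y => ε (y.1, ι y.2) := by
  have hj : Continuous fun y : ℝ × V' => (y.1, ι y.2) := by fun_prop
  refine ⟨h.op.preimage hj, ?_, h.conte.comp hj.continuousOn fun _ hy => hy, ?_, ?_, ?_, ?_, ?_⟩
  · exact p.continuous.comp_continuousOn (h.cont.comp hj.continuousOn fun _ hy => hy)
  · intro γ t z hz
    show (t, ι (π' γ z)) ∈ O
    rw [h3]
    exact h.mem γ t _ hz
  · intro γ t z hz
    refine hι ?_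
    show ι (p (Φ (t, ι (π' γ z)))) = ι (π' γ (p (Φ (t, ι z))))
    rw [h3, h3, h1, h1, h.eq γ t _ hz, hP.comm]
  · intro γ t z hz
    show ε (t, ι (π' γ z)) = _
    rw [h3]
    exact h.eqe γ t _ hz
  · intro y hy e
    refine h.free _ hy ?_
    show π sig (ι y.2) = ι y.2
    rw [← h3, e]
  · have hc : IsClosedEmbedding fun y : ℝ × V' => (y.1, ι y.2) :=
      Function.LeftInverse.isClosedEmbedding (f := fun y : ℝ × V => (y.1, p y.2))
        (fun y => Prod.ext rfl (hι ((h1 _).trans (h2 _)))) (by fun_prop) hj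
    have e : {y : ℝ × V' | (y.1, ι y.2) ∈ O ∧ p (Φ (y.1, ι y.2)) = 0 ∧ ε (y.1, ι y.2) ∈ RR} =
        (fun y : ℝ × V' => (y.1, ι y.2)) ⁻¹' {y | y ∈ O ∧ Φ y = 0 ∧ ε y ∈ RR} := by
      refine Set.ext fun y => and_congr_right fun hy => and_congr_left fun _ => ?_
      constructor
      · intro h0
        rw [← P_phi hP h hy (h2 _), ← h1, h0, map_zero]
      · intro h0
        rw [h0, map_zero]
    exact e ▸ hc.isCompact_preimage h.cpt

end Form

open Form in
theorem stForm (h : StLift) : StForm := by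
  intro V _ _ _ V' _ _ _ π H P ι hP hι hr
  obtain ⟨g, hg⟩ := (ι : V' →ₗ[ℝ] V).exists_leftInverse_of_injective (LinearMap.ker_eq_bot.2 hι)
  have hg' : ∀ z, g (ι z) = z := fun z => LinearMap.congr_fun hg z
  set p : V →L[ℝ] V' := (LinearMap.toContinuousLinearMap g).comp P with hp
  have h1 : ∀ z, ι (p z) = P z := fun z => by
    obtain ⟨u, hu⟩ := (hr (P z)).2 fun γ hγ => hP.fix γ hγ z
    show ι (g (P z)) = P z
    rw [← hu, hg']
  have h2 : ∀ z, P (ι z) = ι z := fun z => hP.id _ ((hr _).1 ⟨z, rfl⟩)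
  have h3 : ∀ γ z, ι (rep1 hP hι h1 h2 γ z) = π γ (ι z) := fun γ z => by
    show ι (p (π γ (ι z))) = _
    rw [h1, hP.comm, h2]
  refine ⟨rep1 hP hι h1 h2, p, h3, h1, fun O Φ ε hQ => ⟨fix_q hP hι h1 h2 h3 hQ, fun n hn => ?_⟩⟩
  have hA := prod_q hP hQ
  have e0 : ∀ y ∈ {y : ℝ × V | (y.1, P y.2) ∈ O},
      y.2 - P y.2 + P (Φ (y.1, P y.2)) = y.2 - P y.2 + Φ (y.1, P y.2) := fun y hy => by
    rw [P_phi hP hQ hy (PP hP _)]
  have hA' := congr_q hA e0
  rw [← ((h V π).2 n hn).exc _ _ _ _ _ _ hA hA' subset_rfl (fun _ hy _ _ => hy)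
    fun y hy => ⟨e0 y hy, rfl⟩]
  have c1 := hn.conj V _ π (prodRep (rep1 hP hι h1 h2) (rep2 hP)) _ _ _ (split hP hι h1 h2)
    (fun γ z => by
      show ι (rep1 hP hι h1 h2 γ z.1) + π γ z.2 = π γ (ι z.1 + z.2)
      rw [h3, map_add]) (((h V π).1 ℝ _ _ _).2 hA')
  have c2 := hn.susp V' _ (rep1 hP hι h1 h2) (rep2 hP) _ _ _
    (((h V' _).1 ℝ _ _ _).2 (fix_q hP hι h1 h2 h3 hQ))
  have e1 : ∀ z, P (split hP hι h1 h2 z) = ι z.1 := fun z => by
    have h0 : P z.2 = 0 := z.2.2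
    show P (ι z.1 + z.2) = _
    rw [map_add, h2, h0, add_zero]
  have e2 : ∀ z (v : V), (split hP hι h1 h2).symm (split hP hι h1 h2 z - ι z.1 + P v) =
      (p v, z.2) := fun z v => by
    rw [ContinuousLinearEquiv.symm_apply_eq]
    show ι z.1 + z.2 - ι z.1 + P v = ι (p v) + z.2
    rw [h1]
    abel
  refine c1.symm.trans (Eq.trans ?_ c2)
  simp only [mem_ofPred_eq, e1, e2]

end Vale.Agent.P220Z.Def
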