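import Vale.Agent.P220Z.Def.Nw

/-!
# P220: lifts of problems that do not depend on the base point, vanishing, subgroups
-/

open Set Topology
open scoped unitInterval

namespace Vale.Agent.P220Z.Def

namespace LiftAux

theorem isCompact_B5 : IsCompact B5 := by
  have h : B5 = WithLp.toLp 2 '' (Metric.sphere (0 : EuclideanSpace ℂ (Fin 2)) 1 ×ˢ
      Metric.sphere (0 : EuclideanSpace ℂ (Fin 9)) 1) := by
    ext b
    constructor
    · rintro ⟨h1, h2⟩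
      exact ⟨(b.fst, b.snd), ⟨mem_sphere_zero_iff_norm.2 h1, mem_sphere_zero_iff_norm.2 h2⟩, rfl⟩
    · rintro ⟨⟨u, v⟩, ⟨h1, h2⟩, rfl⟩
      exact ⟨mem_sphere_zero_iff_norm.1 h1, mem_sphere_zero_iff_norm.1 h2⟩
  rw [h]
  exact ((isCompact_sphere _ _).prod (isCompact_sphere _ _)).image
    (WithLp.prod_continuous_toLp 2 _ _)

theorem B5_nonempty : B5.Nonempty :=
  ⟨WithLp.toLp 2 (EuclideanSpace.single 0 1, EuclideanSpace.single 0 1), by
    constructor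
    · change ‖(EuclideanSpace.single 0 1 : EuclideanSpace ℂ (Fin 2))‖ = 1
      simp
    · change ‖(EuclideanSpace.single 0 1 : EuclideanSpace ℂ (Fin 9))‖ = 1
      simp⟩

theorem beta_fst (g : G5) (b : EB5) : (β5 g b).fst = (om g.toAdd.1 : ℂ) • b.fst := rfl

theorem beta_snd (g : G5) (b : EB5) : (β5 g b).snd = (om g.toAdd.2 : ℂ) • b.snd := rfl

theorem beta_mem (g : G5) {b : EB5} (h : b ∈ B5) : β5 g b ∈ B5 := by
  constructor
  · rw [beta_fst, norm_smul, Circle.norm_coe, one_mul]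
    exact h.1
  · rw [beta_snd, norm_smul, Circle.norm_coe, one_mul]
    exact h.2

theorem om_pow_val (a x : ZMod 5) : (om x : ℂ) ^ a.val = om (a * x) := by
  rw [← Circle.coe_pow, om, om, ← AddChar.map_nsmul_eq_pow, nsmul_eq_mul, ZMod.natCast_zmod_val]

variable {V : Type} [NormedAddCommGroup V] [NormedSpace ℝ V] {π : G3 →* (V →L[ℝ] V)}

theorem lift_iff {P : Type} [TopologicalSpace P] (O : Set (P × V)) (Φ : P × V → V)
    (ε : P × V → ℂ) :
    IsPr π {y : P × EB5 × V | y.2.1 ∈ B5 ∧ (y.1, y.2.2) ∈ O} (fun y => Φ (y.1, y.2.2))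
      (fun y => ε (y.1, y.2.2)) ↔ IsQ π O Φ ε := by
  have hp : Continuous fun y : P × EB5 × V => (y.1, y.2.2) := by fun_prop
  obtain ⟨b₀, hb⟩ := B5_nonempty
  have hj : Continuous fun y : P × V => (y.1, b₀, y.2) := by fun_prop
  constructor
  · intro h
    refine ⟨isOpen_iff_mem_nhds.2 fun y hy => ?_, h.cont.comp hj.continuousOn fun y hy => ⟨hb, hy⟩,
      h.conte.comp hj.continuousOn fun y hy => ⟨hb, hy⟩,
      fun γ p z hz => (h.mem γ p b₀ z ⟨hb, hz⟩).2, fun γ p z hz => h.eq γ p b₀ z ⟨hb, hz⟩,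
      fun γ p z hz => h.eqe γ p b₀ z ⟨hb, hz⟩, fun y hy => h.free (y.1, b₀, y.2) ⟨hb, hy⟩, ?_⟩
    · obtain ⟨u, hu, hs⟩ := mem_nhdsWithin_iff_exists_mem_nhds_inter.1
        (h.op (y.1, b₀, y.2) ⟨hb, hy⟩)
      exact Filter.mem_of_superset (hj.continuousAt.preimage_mem_nhds hu) fun x hx =>
        (hs ⟨hx, hb⟩).2
    · have e : {y | y ∈ O ∧ Φ y = 0 ∧ ε y ∈ RR} = (fun y : P × EB5 × V => (y.1, y.2.2)) ''
          {w | w ∈ {y : P × EB5 × V | y.2.1 ∈ B5 ∧ (y.1, y.2.2) ∈ O} ∧ Φ (w.1, w.2.2) = 0 ∧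
            ε (w.1, w.2.2) ∈ RR} := by
        ext y
        constructor
        · exact fun hy => ⟨(y.1, b₀, y.2), ⟨⟨hb, hy.1⟩, hy.2⟩, rfl⟩
        · rintro ⟨w, hw, rfl⟩
          exact ⟨hw.1.2, hw.2⟩
      rw [e]
      exact h.cpt.image hp
  · intro h
    refine ⟨fun w hw => hw.1, fun w hw => inter_mem_nhdsWithin _
      (hp.continuousAt.preimage_mem_nhds (h.op.mem_nhds hw.2)),
      h.cont.comp hp.continuousOn fun y hy => hy.2, h.conte.comp hp.continuousOn fun y hy => hy.2,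
      fun γ p b z hz => ⟨beta_mem _ hz.1, h.mem γ p z hz.2⟩, fun γ p b z hz => h.eq γ p z hz.2,
      fun γ p b z hz => h.eqe γ p z hz.2, fun w hw => h.free _ hw.2, ?_⟩
    have e : {w | w ∈ {y : P × EB5 × V | y.2.1 ∈ B5 ∧ (y.1, y.2.2) ∈ O} ∧ Φ (w.1, w.2.2) = 0 ∧
        ε (w.1, w.2.2) ∈ RR} = (fun x : (P × V) × EB5 => (x.1.1, x.2, x.1.2)) ''
          ({y | y ∈ O ∧ Φ y = 0 ∧ ε y ∈ RR} ×ˢ B5) := by
      ext w
      constructor
      · exact fun hw => ⟨((w.1, w.2.2), w.2.1), ⟨⟨hw.1.2, hw.2⟩, hw.1.1⟩, rfl⟩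
      · rintro ⟨x, hx, rfl⟩
        exact ⟨⟨hx.2, hx.1.1⟩, hx.1.2⟩
    rw [e]
    exact (h.cpt.prod isCompact_B5).image (by fun_prop)

/-- membership in a subgroup, in coordinates -/
def Mem (H : Subgroup G3) (x y z : ZMod 5) : Prop :=
  ((Multiplicative.ofAdd (x, y), Multiplicative.ofAdd z) : G3) ∈ H

theorem Mem.comb {H : Subgroup G3} {x y z x' y' z' : ZMod 5} (h : Mem H x y z)
    (h' : Mem H x' y' z') (c c' : ZMod 5) {u v w : ZMod 5} (hu : u = c * x + c' * x')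
    (hv : v = c * y + c' * y') (hw : w = c * z + c' * z') : Mem H u v w := by
  have h1 := H.mul_mem (H.pow_mem h c.val) (H.pow_mem h' c'.val)
  rw [Prod.pow_mk, Prod.pow_mk, Prod.mk_mul_mk, ← ofAdd_nsmul, ← ofAdd_nsmul, ← ofAdd_nsmul,
    ← ofAdd_nsmul, ← ofAdd_add, ← ofAdd_add] at h1
  simp only [Prod.smul_mk, Prod.mk_add_mk, nsmul_eq_mul, ZMod.natCast_zmod_val] at h1
  rw [hu, hv, hw]
  exact h1

end LiftAux

open LiftAux

theorem stLift : StLift := by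
  intro V _ _ _ π
  refine ⟨fun P _ O Φ ε => lift_iff O Φ ε, fun n hn => ⟨?_, ?_, ?_⟩⟩
  · intro O Φ ε O' Φ' ε' h h' hs h0 he
    exact hn.exc V π _ _ _ _ _ _ ((lift_iff O Φ ε).2 h) ((lift_iff O' Φ' ε').2 h')
      (fun y hy => ⟨hy.1, hs hy.2⟩) (fun w hw h1 h2 => ⟨hw.1, h0 _ hw.2 h1 h2⟩)
      fun w hw => he _ hw.2
  · intro O O' Φ ε h h' hd
    have e : {y : ℝ × EB5 × V | y.2.1 ∈ B5 ∧ (y.1, y.2.2) ∈ O ∪ O'} =
        {y | y.2.1 ∈ B5 ∧ (y.1, y.2.2) ∈ O} ∪ {y | y.2.1 ∈ B5 ∧ (y.1, y.2.2) ∈ O'} := by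
      ext y
      exact and_or_left
    unfold nQ
    rw [e]
    exact hn.add V π _ _ _ _ ((lift_iff O Φ ε).2 h) ((lift_iff O' Φ ε).2 h')
      (disjoint_left.2 fun y h1 h2 => disjoint_left.1 hd h1.2 h2.2)
  · intro O Φ ε h
    exact hn.hom V π _ _ _ ((lift_iff O Φ ε).2 h)

theorem stVan (h : StLift) : StVan := by
  intro V _ _ _ π a b O Φ ε η n hn hQ hL hab
  have hP := ((h V π).1 ℝ O Φ ε).2 hQ
  have hη : ContinuousOn (fun w : ℝ × EB5 × V => η (w.1, w.2.2))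
      {y | y.2.1 ∈ B5 ∧ (y.1, y.2.2) ∈ O} :=
    hL.cont.comp (by fun_prop) fun y hy => hy.2
  rcases hab with rfl | rfl
  · refine hn.zero V π _ _ _ (fun w j => η (w.1, w.2.2) * w.2.1.snd j ^ b.val) hP
      (continuousOn_pi.2 fun j => hη.mul (by fun_prop)) (fun γ t m z hz => ?_)
      fun w hw h1 _ h0 => ?_
    · funext j
      simp only [Pi.smul_apply, smul_eq_mul]
      rw [hL.eq γ t z hz.2, beta_snd, PiLp.smul_apply, smul_eq_mul, mul_pow, om_pow_val,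
        mul_mul_mul_comm, ← om_add, chi, zero_mul, zero_add, sub_add_cancel]
    · have h2 : w.2.1.snd = 0 := PiLp.ext fun j =>
        pow_eq_zero_iff'.1 ((mul_eq_zero.1 (congrFun h0 j)).resolve_left (hL.ne _ hw.2 h1)) |>.1
      have h3 := hw.1.2
      rw [h2, norm_zero] at h3
      exact zero_ne_one h3
  · refine hn.zero V π _ _ _
      (fun w j => η (w.1, w.2.2) * w.2.1.fst (if j = 0 then 0 else 1) ^ a.val) hP
      (continuousOn_pi.2 fun j => hη.mul (by fun_prop)) (fun γ t m z hz => ?_)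
      fun w hw h1 _ h0 => ?_
    · funext j
      simp only [Pi.smul_apply, smul_eq_mul]
      rw [hL.eq γ t z hz.2, beta_fst, PiLp.smul_apply, smul_eq_mul, mul_pow, om_pow_val,
        mul_mul_mul_comm, ← om_add, chi, zero_mul, add_zero, sub_add_cancel]
    · have h4 : ∀ j : Fin 9, w.2.1.fst (if j = 0 then 0 else 1) = 0 := fun j =>
        pow_eq_zero_iff'.1 ((mul_eq_zero.1 (congrFun h0 j)).resolve_left (hL.ne _ hw.2 h1)) |>.1
      have h2 : w.2.1.fst = 0 := PiLp.ext fun i => by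
        fin_cases i
        · exact h4 0
        · exact h4 1
      have h3 := hw.1.1
      rw [h2, norm_zero] at h3
      exact zero_ne_one h3

theorem stGrp : StGrp := by
  intro H hs
  have : Fact (Nat.Prime 5) := ⟨by norm_num⟩
  have h0 : ∀ z, Mem H 0 0 z → z = 0 := fun z hz => by
    by_contra hne
    exact hs (hz.comb hz z⁻¹ 0 (u := 0) (v := 0) (w := 1) (by ring) (by ring)
      (by rw [inv_mul_cancel₀ hne]; ring))
  have hm : ∀ γ ∈ H, Mem H γ.1.toAdd.1 γ.1.toAdd.2 γ.2.toAdd := fun γ hγ => hγ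
  by_cases hA : ∃ x y z x' y' z', Mem H x y z ∧ Mem H x' y' z' ∧ x * y' - x' * y ≠ 0
  · obtain ⟨x, y, z, x', y', z', h1, h2, hd⟩ := hA
    have e1 := h1.comb h2 ((x * y' - x' * y)⁻¹ * y') (-(x * y' - x' * y)⁻¹ * y) (u := 1) (v := 0)
      (by field_simp; ring) (by ring) rfl
    have e2 := h1.comb h2 (-(x * y' - x' * y)⁻¹ * x') ((x * y' - x' * y)⁻¹ * x) (u := 0) (v := 1)
      (by ring) (by field_simp; ring) rfl
    generalize (x * y' - x' * y)⁻¹ * y' * z + -(x * y' - x' * y)⁻¹ * y * z' = a at e1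
    generalize -(x * y' - x' * y)⁻¹ * x' * z + (x * y' - x' * y)⁻¹ * x * z' = b at e2
    have e3 : ∀ u v, Mem H u v (a * u + b * v) := fun u v =>
      e1.comb e2 u v (by ring) (by ring) (by ring)
    refine ⟨a, b, fun γ hγ => sub_eq_zero.1 (h0 _ ?_), Or.inr (Or.inr fun g => e3 _ _)⟩
    exact (hm γ hγ).comb (e3 γ.1.toAdd.1 γ.1.toAdd.2) 1 (-1) (by ring) (by ring)
      (by rw [chi]; ring)
  have hB : ∀ x y z x' y' z', Mem H x y z → Mem H x' y' z' → x * y' = x' * y :=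
    fun x y z x' y' z' h1 h2 => by_contra fun hne =>
      hA ⟨x, y, z, x', y', z', h1, h2, sub_ne_zero.2 hne⟩
  by_cases hX : ∃ x y z, Mem H x y z ∧ x ≠ 0
  · obtain ⟨x, y, z, h1, hx⟩ := hX
    refine ⟨z / x, 0, fun γ hγ => sub_eq_zero.1 (h0 _ ?_), Or.inr (Or.inl rfl)⟩
    have h2 := hB _ _ _ _ _ _ h1 (hm γ hγ)
    refine (hm γ hγ).comb h1 1 (-(γ.1.toAdd.1 / x)) (by field_simp; ring) ?_
      (by rw [chi]; ring)
    field_simp
    linear_combination -h2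
  have hX' : ∀ x y z, Mem H x y z → x = 0 := fun x y z h1 =>
    by_contra fun hne => hX ⟨x, y, z, h1, hne⟩
  by_cases hY : ∃ x y z, Mem H x y z ∧ y ≠ 0
  · obtain ⟨x, y, z, h1, hy⟩ := hY
    refine ⟨0, z / y, fun γ hγ => sub_eq_zero.1 (h0 _ ?_), Or.inl rfl⟩
    refine (hm γ hγ).comb h1 1 (-(γ.1.toAdd.2 / y)) ?_ (by field_simp; ring)
      (by rw [chi]; ring)
    rw [hX' _ _ _ h1, hX' _ _ _ (hm γ hγ)]
    ring
  refine ⟨0, 0, fun γ hγ => ?_, Or.inl rfl⟩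
  have h1 := hm γ hγ
  have h2 : γ.1.toAdd.2 = 0 := by_contra fun hne => hY ⟨_, _, _, h1, hne⟩
  rw [hX' _ _ _ h1, h2] at h1
  rw [h0 _ h1, chi]
  ring

end Vale.Agent.P220Z.Def
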