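import Vale.Agent.P220Z.Def.Nw

/-!
# P220, the localisation formula from its steps
-/

open Set Topology
open scoped unitInterval

namespace Vale.Agent.P220Z.Def

namespace LocA

variable {V : Type} [NormedAddCommGroup V] [NormedSpace ℝ V]
  {V' : Type} [NormedAddCommGroup V'] [NormedSpace ℝ V'] {π : G3 →* (V →L[ℝ] V)}

theorem zero_mem : (0 : ℂ) ∈ RR := ⟨0, 0, le_rfl, by simp⟩

theorem om_ne {a : ZMod 5} (ha : a ≠ 0) : (om a : ℂ) ≠ 1 := fun h =>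
  ha (ZMod.injective_toCircle ((Circle.ext h).trans (AddChar.map_zero_eq_one _).symm))

section D

variable {D D' : Set (ℝ × V) → (ℝ × V → V) → (ℝ × V → ℂ) → ZMod 5}

theorem isD_sub (h : IsD π D) (h' : IsD π D') : IsD π fun O Φ ε => D O Φ ε - D' O Φ ε where
  exc O Φ ε O' Φ' ε' a b c d e := by
    rw [h.exc O Φ ε O' Φ' ε' a b c d e, h'.exc O Φ ε O' Φ' ε' a b c d e]
  add O O' Φ ε a b c := by rw [h.add O O' Φ ε a b c, h'.add O O' Φ ε a b c]; ring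
  hom O Φ ε a := by rw [h.hom O Φ ε a, h'.hom O Φ ε a]

theorem isD_mul (c : ZMod 5) (h : IsD π D) : IsD π fun O Φ ε => c * D O Φ ε where
  exc O Φ ε O' Φ' ε' a b c d e := by rw [h.exc O Φ ε O' Φ' ε' a b c d e]
  add O O' Φ ε a b c := by rw [h.add O O' Φ ε a b c, mul_add]
  hom O Φ ε a := by rw [h.hom O Φ ε a]

theorem isD_sum {ι : Type} [Fintype ι] (c : ι → Prop) [DecidablePred c]
    {D : ι → Set (ℝ × V) → (ℝ × V → V) → (ℝ × V → ℂ) → ZMod 5} (h : ∀ i, c i → IsD π (D i)) :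
    IsD π fun O Φ ε => ∑ i, if c i then D i O Φ ε else 0 where
  exc O Φ ε O' Φ' ε' a b c d e := Finset.sum_congr rfl fun i _ =>
    if_ctx_congr Iff.rfl (fun hi => (h i hi).exc O Φ ε O' Φ' ε' a b c d e) fun _ => rfl
  add O O' Φ ε a b d := by
    rw [← Finset.sum_add_distrib]
    refine Finset.sum_congr rfl fun i _ => ?_
    split_ifs with hi
    · exact (h i hi).add O O' Φ ε a b d
    · exact (add_zero _).symm
  hom O Φ ε a := Finset.sum_congr rfl fun i _ =>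
    if_ctx_congr Iff.rfl (fun hi => (h i hi).hom O Φ ε a) fun _ => rfl

theorem isD_none (h : IsD π D) {O : Set (ℝ × V)} {Φ : ℝ × V → V} {ε : ℝ × V → ℂ}
    (hq : IsQ π O Φ ε) (h0 : ∀ y ∈ O, Φ y ≠ 0) : D O Φ ε = 0 := by
  have he : IsQ π (∅ : Set (ℝ × V)) Φ ε :=
    ⟨isOpen_empty, continuousOn_empty _, continuousOn_empty _, fun _ _ _ h => h,
      fun _ _ _ h => h.elim, fun _ _ _ h => h.elim, fun _ h => h.elim, by simp⟩
  have h1 := h.add ∅ ∅ Φ ε he he (disjoint_empty _)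
  rw [union_empty] at h1
  rw [← h.exc O Φ ε ∅ Φ ε hq he (empty_subset _) (fun y hy h _ => h0 y hy h) fun _ h => h.elim]
  exact left_eq_add.1 h1

end D

theorem lp_congr {s : V →L[ℝ] V} {O : Set (ℝ × V)} {Φ Φ' : ℝ × V → V} (h : IsLp s O Φ)
    (e : ∀ y ∈ O, Φ' y = Φ y) : IsLp s O Φ' where
  ord := h.ord
  op := h.op
  cont := h.cont.congr e
  mem := h.mem
  eq p z hz := by rw [e _ (h.mem p z hz), e _ hz, h.eq p z hz]
  free := h.free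
  cpt := by
    convert h.cpt using 1
    ext y
    exact and_congr_right fun hy => by rw [e y hy]

theorem w_none [FiniteDimensional ℝ V] {w : WFun} (hw : IsW w) {s : V →L[ℝ] V} {O : Set (ℝ × V)}
    {Φ : ℝ × V → V} (h : IsLp s O Φ) (h0 : ∀ y ∈ O, Φ y ≠ 0) : w V s O Φ = 0 := by
  have he : IsLp s (∅ : Set (ℝ × V)) Φ :=
    ⟨h.ord, isOpen_empty, continuousOn_empty _, fun _ _ h => h, fun _ _ h => h.elim,
      fun _ h => h.elim, by simp⟩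
  have h1 := hw.add V s ∅ ∅ Φ he he (disjoint_empty _)
  rw [union_empty] at h1
  rw [← hw.exc V s O Φ ∅ Φ h he (empty_subset _) (fun y hy h => h0 y hy h) fun _ h => h.elim]
  exact left_eq_add.1 h1

theorem q_zero {O : Set (ℝ × V)} {Φ : ℝ × V → V} {ε : ℝ × V → ℂ} (h : IsQ π O Φ ε)
    (e : ∀ y ∈ O, ε y = 0) : IsQ π O Φ fun _ => 0 where
  op := h.op
  cont := h.cont
  conte := continuousOn_const
  mem := h.mem
  eq := h.eq
  eqe _ _ _ _ := (mul_zero _).symm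
  free := h.free
  cpt := by
    convert h.cpt using 1
    ext y
    exact and_congr_right fun hy => by rw [e y hy]

/-- `ι` identifies `V'` with the part fixed by a graph, and `p` is a left inverse. -/
structure Fx (π : G3 →* (V →L[ℝ] V)) (a b : ZMod 5) (ι : V' →L[ℝ] V) (s : V' →L[ℝ] V')
    (p : V →L[ℝ] V') : Prop where
  ne : a ≠ 0
  inv : ∀ z, p (ι z) = z
  fix : ∀ z, z ∈ range ι ↔ ∀ g, π (gr a b g) z = z
  comm : ∀ z, ι (s z) = π sig (ι z)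

namespace Fx

variable {a b : ZMod 5} {ι : V' →L[ℝ] V} {s : V' →L[ℝ] V'} {p : V →L[ℝ] V'}
  (f : Fx π a b ι s p) {P : Type} [TopologicalSpace P] {O : Set (P × V)} {Φ : P × V → V}
  {ε : P × V → ℂ}

include f

theorem inj : Function.Injective ι := Function.LeftInverse.injective f.inv

theorem val (hq : IsQ π O Φ ε) {t : P} {z : V'} (hz : (t, ι z) ∈ O) :
    ι (p (Φ (t, ι z))) = Φ (t, ι z) := by
  obtain ⟨v, hv⟩ := (f.fix (Φ (t, ι z))).2 fun g => by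
    rw [← hq.eq _ t _ hz, (f.fix _).1 ⟨z, rfl⟩ g]
  rw [← hv, f.inv]

theorem eps (hq : IsQ π O Φ ε) {t : P} {z : V'} (hz : (t, ι z) ∈ O) : ε (t, ι z) = 0 := by
  have h := hq.eqe (gr a b (Multiplicative.ofAdd (1, 0))) t _ hz
  rw [(f.fix _).1 ⟨z, rfl⟩] at h
  have e : (gr a b (Multiplicative.ofAdd (1, 0))).2.toAdd = a := by simp [gr]
  rw [e] at h
  by_contra h0
  exact om_ne f.ne (mul_right_cancel₀ h0 (h.symm.trans (one_mul _).symm))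

theorem zero (hq : IsQ π O Φ ε) {t : P} {z : V'} (hz : (t, ι z) ∈ O)
    (h0 : p (Φ (t, ι z)) = 0) : Φ (t, ι z) = 0 := by rw [← f.val hq hz, h0, map_zero]

theorem lp [T2Space P] (hq : IsQ π O Φ ε) :
    IsLp s {y : P × V' | (y.1, ι y.2) ∈ O} fun y => p (Φ (y.1, ι y.2)) := by
  have hc : Continuous fun y : P × V' => (y.1, ι y.2) := by fun_prop
  refine ⟨?_, hq.op.preimage hc, p.continuous.comp_continuousOn
    (hq.cont.comp hc.continuousOn fun _ h => h), fun t z hz => ?_, fun t z hz => ?_,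
    fun y hy h => hq.free _ hy (by rw [← f.comm, h]), ?_⟩
  · have h : ∀ (n : ℕ) z, ι ((s ^ n) z) = π (sig ^ n) (ι z) := fun n => by
      induction n with
      | zero => simp
      | succ n ih =>
        intro z
        rw [pow_succ, pow_succ, map_mul, mul_apply_eq_comp, mul_apply_eq_comp, ih, f.comm]
    ext z
    apply f.inj
    rw [h, show sig ^ 5 = 1 by decide, map_one]
    rfl
  · show (t, ι (s z)) ∈ O
    rw [f.comm]
    exact hq.mem _ t _ hz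
  · show p (Φ (t, ι (s z))) = s (p (Φ (t, ι z)))
    rw [f.comm, hq.eq _ t _ hz, ← f.val hq hz, ← f.comm, f.inv, f.inv]
  · have he : IsClosedEmbedding fun y : P × V' => (y.1, ι y.2) :=
      Function.LeftInverse.isClosedEmbedding (f := fun y : P × V => (y.1, p y.2))
        (fun y => by simp [f.inv]) (by fun_prop) hc
    convert he.isCompact_preimage hq.cpt using 1
    ext y
    refine and_congr_right fun hy => ⟨fun h => ⟨f.zero hq hy h, ?_⟩, fun h => ?_⟩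
    · exact (f.eps hq hy).symm ▸ zero_mem
    · show p (Φ (y.1, ι y.2)) = 0
      rw [h.1, map_zero]

variable [FiniteDimensional ℝ V'] {w : WFun} (hw : IsW w)

include hw

theorem isD : IsD π fun O Φ _ =>
    w V' s {y : ℝ × V' | (y.1, ι y.2) ∈ O} fun y => p (Φ (y.1, ι y.2)) where
  exc _ _ _ _ _ _ h h' hs hz e := hw.exc V' s _ _ _ _ (f.lp h) (f.lp h') (fun _ hy => hs hy)
    (fun _ hy h0 => hz _ hy (f.zero h hy h0) ((f.eps h hy).symm ▸ zero_mem))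
    fun _ hy => congrArg p (e _ hy).1
  add _ _ _ _ h h' hd := hw.add V' s _ _ _ (f.lp h) (f.lp h')
    (hd.preimage fun y : ℝ × V' => (y.1, ι y.2))
  hom _ _ _ h := hw.hom V' s _ _ (f.lp h)

theorem congr {O : Set (ℝ × V)} {Φ : ℝ × V → V} {ε : ℝ × V → ℂ} (hq : IsQ π O Φ ε)
    {Φ' : ℝ × V' → V'} (e : ∀ t z, (t, ι z) ∈ O → ι (Φ' (t, z)) = Φ (t, ι z)) :
    w V' s {y : ℝ × V' | (y.1, ι y.2) ∈ O} Φ' =
      w V' s {y : ℝ × V' | (y.1, ι y.2) ∈ O} fun y => p (Φ (y.1, ι y.2)) := by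
  have h : ∀ y ∈ {y : ℝ × V' | (y.1, ι y.2) ∈ O}, Φ' y = p (Φ (y.1, ι y.2)) := fun y hy => by
    rw [← e y.1 y.2 hy, f.inv]
  exact hw.exc V' s _ _ _ _ (f.lp hq) (lp_congr (f.lp hq) h) subset_rfl (fun _ h _ => h) h

/-- the fixed part of a problem in product form for another group has no zero -/
theorem far {H : Subgroup G3} {Q : V →L[ℝ] V} {O : Set (ℝ × V)} {Φ : ℝ × V → V} {ε : ℝ × V → ℂ}
    (hQ : IsProjH π H Q) (hq : IsQ π O Φ ε)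
    (hi : ∀ y ∈ O, Q y.2 = y.2 → ∀ γ, π γ y.2 = y.2 → γ ∈ H)
    (hq' : IsQ π {y : ℝ × V | (y.1, Q y.2) ∈ O} (fun y => y.2 - Q y.2 + Φ (y.1, Q y.2))
      fun y => ε (y.1, Q y.2)) (hn : ¬ ∀ g, gr a b g ∈ H) :
    (w V' s {y : ℝ × V' | (y.1, Q (ι y.2)) ∈ O}
      fun y => p (ι y.2 - Q (ι y.2) + Φ (y.1, Q (ι y.2)))) = 0 := by
  refine w_none hw (f.lp hq') fun y hy h0 => hn fun g => ?_
  have h1 : ι y.2 - Q (ι y.2) + Φ (y.1, Q (ι y.2)) = 0 := f.zero hq' hy h0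
  have h2 : Q (Φ (y.1, Q (ι y.2))) = Φ (y.1, Q (ι y.2)) :=
    hQ.id _ fun γ hγ => by rw [← hq.eq γ _ _ hy, hQ.fix γ hγ]
  have h3 : Q (Q (ι y.2)) = Q (ι y.2) := hQ.id _ fun γ hγ => hQ.fix γ hγ _
  have h4 := congrArg Q h1
  rw [map_add, map_sub, h2, h3, sub_self, zero_add, map_zero] at h4
  rw [h4, add_zero, sub_eq_zero] at h1
  exact hi _ hy h3 _ (by rw [← h1]; exact (f.fix _).1 ⟨_, rfl⟩ g)

end Fx

variable [FiniteDimensional ℝ V] [FiniteDimensional ℝ V']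

/-- reduction to a labelled problem on the fixed part -/
theorem red (h3 : StForm) (h5 : StLab) {H : Subgroup G3} {Q : V →L[ℝ] V} {ι : V' →L[ℝ] V}
    {a b : ZMod 5} {O : Set (ℝ × V)} {Φ : ℝ × V → V} {ε : ℝ × V → ℂ} (hQ : IsProjH π H Q)
    (hι : Function.Injective ι) (hr : ∀ z, z ∈ range ι ↔ ∀ γ ∈ H, π γ z = z)
    (hH : ∀ γ ∈ H, γ.2.toAdd = chi a b γ) (hq : IsQ π O Φ ε)
    (hi : ∀ y ∈ O, Q y.2 = y.2 → ∀ γ, π γ y.2 = y.2 → γ ∈ H) :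
    ∃ (π' : G3 →* (V' →L[ℝ] V')) (p : V →L[ℝ] V') (U : Set (ℝ × V')) (Φ' : ℝ × V' → V')
      (η : ℝ × V' → ℂ), (∀ γ z, ι (π' γ z) = π γ (ι z)) ∧ (∀ z, p (ι z) = z) ∧
      IsQ π' U Φ' (fun y => ε (y.1, ι y.2)) ∧ IsLab π' U Φ' a b η ∧
      (∀ D, IsD π' D → D {y | (y.1, ι y.2) ∈ O} (fun y => p (Φ (y.1, ι y.2)))
        (fun y => ε (y.1, ι y.2)) = D U Φ' fun y => ε (y.1, ι y.2)) ∧ ∀ n, IsN n →
      nQ n π {y | (y.1, Q y.2) ∈ O} (fun y => y.2 - Q y.2 + Φ (y.1, Q y.2))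
          (fun y => ε (y.1, Q y.2)) =
        nQ n π' {y | (y.1, ι y.2) ∈ O} (fun y => p (Φ (y.1, ι y.2))) fun y => ε (y.1, ι y.2) := by
  obtain ⟨π', p, e1, e2, h⟩ := h3 V V' π H Q ι hQ hι hr
  obtain ⟨q1, q2⟩ := h O Φ ε hq
  have hf : ∀ z, ∀ γ ∈ H, π γ (ι z) = ι z := fun z => (hr _).1 ⟨z, rfl⟩
  obtain ⟨U, Φ', η, u1, u2, -, u3⟩ := h5 V' π' H a b _ _ _
    (fun γ hγ z => hι (by rw [e1, hf z γ hγ])) hH q1
    fun y hy γ hγ => hi _ hy (hQ.id _ (hf _)) γ (by rw [← e1, hγ])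
  exact ⟨π', p, U, Φ', η, e1, fun z => hι (by rw [e2, hQ.id _ (hf z)]), u1, u2, u3, q2⟩

/-- the main case -/
theorem near (h1 : StLift) (h3 : StForm) (h5 : StLab) (h7 : StMain) (hn : IsN n5) (hw : IsW w5)
    {H : Subgroup G3} {Q : V →L[ℝ] V} {ι : V' →L[ℝ] V} {s : V' →L[ℝ] V'} {p : V →L[ℝ] V'}
    {a b : ZMod 5} {O : Set (ℝ × V)} {Φ : ℝ × V → V} {ε : ℝ × V → ℂ} (f : Fx π a b ι s p)
    (hb : b ≠ 0) (hQ : IsProjH π H Q) (hH : ∀ γ ∈ H, γ.2.toAdd = chi a b γ)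
    (hg : ∀ g, gr a b g ∈ H) (hq : IsQ π O Φ ε)
    (hi : ∀ y ∈ O, Q y.2 = y.2 → ∀ γ, π γ y.2 = y.2 → γ ∈ H) :
    nQ n5 π {y | (y.1, Q y.2) ∈ O} (fun y => y.2 - Q y.2 + Φ (y.1, Q y.2))
        (fun y => ε (y.1, Q y.2)) =
      4 * (a * w5 V' s {y : ℝ × V' | (y.1, Q (ι y.2)) ∈ O}
        fun y => p (ι y.2 - Q (ι y.2) + Φ (y.1, Q (ι y.2)))) := by
  have hr : ∀ z, z ∈ range ι ↔ ∀ γ ∈ H, π γ z = z := fun z => (f.fix z).trans
    ⟨fun h γ hγ => by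
      rw [show γ = gr a b γ.1 from Prod.ext rfl (congrArg Multiplicative.ofAdd (hH γ hγ))]
      exact h _, fun h g => h _ (hg g)⟩
  obtain ⟨π', p', U, Φ', η, e1, e2, u1, u2, u3, u4⟩ := red h3 h5 hQ f.inj hr hH hq hi
  have es : ∀ z, π' sig z = s z := fun z => f.inj (by rw [e1, f.comm])
  have f1 : Fx π' a b (ContinuousLinearMap.id ℝ V') s (ContinuousLinearMap.id ℝ V') :=
    ⟨f.ne, fun _ => rfl, fun z => ⟨fun _ g => f.inj (by rw [e1, (f.fix _).1 ⟨z, rfl⟩ g]),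
      fun _ => ⟨z, rfl⟩⟩, fun z => (es z).symm⟩
  have f2 : Fx π a b ι s p' := ⟨f.ne, e2, f.fix, f.comm⟩
  have hD := ((h1 V' π').2 n5 hn)
  have h0 : ∀ y ∈ U, ε (y.1, ι y.2) = 0 := fun y hy => f1.eps u1 (t := y.1) (z := y.2) hy
  have e3 : w5 V' s U Φ' = (Deg.pdeg (windDom U) (windMap Φ' η) : ℤ) :=
    hw.good V' s U Φ' η (f1.lp u1) u2.cont (fun t z hz => by
      rw [← es, u2.eq sig t z hz]
      simp [sig, chi]) u2.ne
  have e4 : w5 V' s {y : ℝ × V' | (y.1, ι y.2) ∈ O} (fun y => p' (Φ (y.1, ι y.2))) =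
      w5 V' s U Φ' := u3 _ (f1.isD hw)
  have e5 : ∀ z, Q (ι z) = ι z := fun z => hQ.id _ ((hr _).1 ⟨z, rfl⟩)
  simp only [e5, sub_self, zero_add]
  rw [u4 n5 hn, u3 _ hD, ← hD.exc U Φ' _ U Φ' _ u1 (q_zero u1 h0) subset_rfl (fun _ h _ _ => h)
    (fun y hy => ⟨rfl, (h0 y hy).symm⟩), h7 V' π' a b U Φ' η f.ne hb (q_zero u1 h0) u2, ← e3, ← e4,
    ← f2.congr hw hq (Φ' := fun y => p (Φ (y.1, ι y.2))) fun _ _ h => f.val hq h, mul_assoc]

end LocA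

open LocA in
theorem loc_of (h1 : StLift) (h2 : StRed) (h3 : StForm) (h4 : StGrp) (h5 : StLab) (h6 : StVan)
    (h7 : StMain) (hn : IsN n5) (hw : IsW w5) : Loc n5 w5 4 := by
  intro V _ _ _ π O Φ ε V' _ _ _ ι s Φ' hP hF
  have hq : IsQ π O Φ ε := ((h1 V π).1 ℝ O Φ ε).1 hP
  have hp : ∀ χ : ZMod 5 × ZMod 5, ∃ p : V →L[ℝ] V' χ, χ.1 ≠ 0 ∧ χ.2 ≠ 0 →
      Fx π χ.1 χ.2 (ι χ) (s χ) p := fun χ => by
    by_cases h : χ.1 ≠ 0 ∧ χ.2 ≠ 0
    · have f := hF χ h.1 h.2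
      obtain ⟨p, hp⟩ := (ι χ : V' χ →ₗ[ℝ] V).exists_leftInverse_of_injective
        (LinearMap.ker_eq_bot.2 f.inj)
      exact ⟨LinearMap.toContinuousLinearMap p, fun _ =>
        ⟨h.1, fun z => LinearMap.congr_fun hp z, f.fix, f.comm⟩⟩
    · exact ⟨0, fun h' => absurd h' h⟩
  choose p hp using hp
  have hN := (h1 V π).2 n5 hn
  have hD := isD_sub hN (isD_mul 4 (isD_sum (fun χ : ZMod 5 × ZMod 5 => χ.1 ≠ 0 ∧ χ.2 ≠ 0)
    fun χ h => isD_mul χ.1 ((hp χ h).isD hw)))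
  have key := h2 V π _ hD (fun H Q O Φ ε hQ hq hi hq' => ?_) O Φ ε hq
  · refine (sub_eq_zero.1 key).trans (congrArg _ (Finset.sum_congr rfl fun χ _ =>
      if_ctx_congr Iff.rfl (fun h => congrArg _ ?_) fun _ => rfl))
    exact ((hp χ h).congr hw hq (hF χ h.1 h.2).eq).symm
  by_cases hs : sig ∈ H
  · exact isD_none hD hq' fun y hy _ => hq.free _ hy (hQ.fix _ hs _)
  obtain ⟨a, b, hH, hab⟩ := h4 H hs
  have far : ∀ χ : ZMod 5 × ZMod 5, χ ≠ (a, b) → (if χ.1 ≠ 0 ∧ χ.2 ≠ 0 then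
      χ.1 * w5 (V' χ) (s χ) {y : ℝ × V' χ | (y.1, Q (ι χ y.2)) ∈ O}
        (fun y => p χ (ι χ y.2 - Q (ι χ y.2) + Φ (y.1, Q (ι χ y.2)))) else 0) = 0 := by
    intro χ hχ
    split_ifs with h
    · rw [(hp χ h).far hw hQ hq hi hq' fun hg => hχ (Prod.ext ?_ ?_), mul_zero]
      · simpa [gr, chi] using hH _ (hg (Multiplicative.ofAdd (1, 0)))
      · simpa [gr, chi] using hH _ (hg (Multiplicative.ofAdd (0, 1)))
    · rfl
  refine sub_eq_zero.2 (Eq.trans ?_ (congrArg _ (Fintype.sum_eq_single (a, b) far).symm))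
  by_cases h : a ≠ 0 ∧ b ≠ 0
  · rw [if_pos h]
    exact near h1 h3 h5 h7 hn hw (hp (a, b) h) h.2 hQ hH
      ((hab.resolve_left h.1).resolve_left h.2) hq hi
  · rw [if_neg h, mul_zero]
    obtain ⟨π', p', U, Φ', η, -, -, u1, u2, u3, u4⟩ := red h3 h5
      (ι := (LinearMap.range (Q : V →ₗ[ℝ] V)).subtypeL) hQ Subtype.val_injective
      (fun z => ⟨fun ⟨⟨_, x, rfl⟩, e⟩ γ hγ => e ▸ hQ.fix γ hγ x,
        fun h => ⟨⟨z, z, hQ.id z h⟩, rfl⟩⟩) hH hq hi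
    rw [u4 n5 hn, u3 _ ((h1 _ π').2 n5 hn)]
    exact h6 _ π' a b U Φ' _ η n5 hn u1 u2 (by tauto)

end Vale.Agent.P220Z.Def
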