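import Vale.Agent.P220Z.Def.Nw

/-!
P220, the count of a labelled problem.
-/

open Set Topology
open scoped unitInterval

namespace Vale.Agent.P220Z.Def

open Vale.Agent.P220Z.Deg

namespace Mn

theorem isClosed_RR : IsClosed RR := by
  have h : RR = ⋃ k : ZMod 5,
      (fun c : ℂ => c * (om k : ℂ)⁻¹) ⁻¹' {z : ℂ | z.im = 0 ∧ 0 ≤ z.re} := by
    ext c
    simp only [RR, mem_ofPred_eq, mem_iUnion, mem_preimage]
    refine exists_congr fun k => ?_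
    have h0 : (om k : ℂ) ≠ 0 := Circle.coe_ne_zero _
    constructor
    · rintro ⟨r, hr, rfl⟩
      rw [mul_inv_cancel_right₀ h0]
      exact ⟨Complex.ofReal_im r, hr⟩
    · rintro ⟨h1, h2⟩
      refine ⟨_, h2, ?_⟩
      have h3 : (((c * (om k : ℂ)⁻¹).re : ℝ) : ℂ) = c * (om k : ℂ)⁻¹ :=
        Complex.ext rfl (by rw [h1, Complex.ofReal_im])
      rw [h3, inv_mul_cancel_right₀ h0]
  rw [h]
  refine isClosed_iUnion_of_finite fun k => IsClosed.preimage (by fun_prop) ?_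
  exact (isClosed_eq Complex.continuous_im continuous_const).inter
    (isClosed_le continuous_const Complex.continuous_re)

theorem zero_mem_RR : (0 : ℂ) ∈ RR := ⟨0, 0, le_rfl, by simp⟩

theorem cpt_inter {X Y : Type} [TopologicalSpace X] [T2Space X] [TopologicalSpace Y] {K : Set X}
    (hK : IsCompact K) {f : X → Y} (hf : ContinuousOn f K) {C : Set Y} (hC : IsClosed C) :
    IsCompact (K ∩ f ⁻¹' C) :=
  hK.of_isClosed_subset (hf.preimage_isClosed_of_isClosed hK.isClosed hC) inter_subset_left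

theorem fst_β5 (g : G5) (m : EB5) (i : Fin 2) :
    (β5 g m).fst i = om g.toAdd.1 * m.fst i := rfl

theorem snd_β5 (g : G5) (m : EB5) (j : Fin 9) :
    (β5 g m).snd j = om g.toAdd.2 * m.snd j := rfl

theorem om_pow_val (a x : ZMod 5) : (om x : ℂ) ^ a.val = om (a * x) := by
  rw [← Circle.coe_pow, om, om, ← AddChar.map_nsmul_eq_pow, nsmul_eq_mul, ZMod.natCast_zmod_val]

theorem om_chi (a b : ZMod 5) (γ : G3) :
    (om (γ.2.toAdd - chi a b γ) : ℂ) * ((om γ.1.toAdd.1 : ℂ) ^ a.val * (om γ.1.toAdd.2 : ℂ) ^ b.val) =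
      om γ.2.toAdd := by
  rw [om_pow_val, om_pow_val, ← om_add, ← om_add, chi, sub_add_cancel]

theorem yy_β5 (g : G5) (m : EB5) (j : Fin 9) : yy (β5 g m) j = om g.toAdd.2 * yy m j := by
  unfold yy
  split_ifs
  · simp only [snd_β5]
    rw [← Finset.mul_sum]
    ring
  · rfl

theorem ee_β5 (A B : ℕ) (g : G5) (m : EB5) :
    ee A B (β5 g m) = ((om g.toAdd.1 : ℂ) ^ A * (om g.toAdd.2 : ℂ) ^ B) • ee A B m := by
  funext j
  have h1 : ∀ i : ℕ, (β5 g m).fst 1 - (5 * (j : ℕ) + i : ℕ) * (β5 g m).fst 0 =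
      om g.toAdd.1 * (m.fst 1 - (5 * (j : ℕ) + i : ℕ) * m.fst 0) := fun i => by
    rw [fst_β5, fst_β5]
    ring
  have h2 : ∀ i : ℕ, yy (β5 g m) j - (i : ℕ) * (β5 g m).snd 0 =
      om g.toAdd.2 * (yy m j - (i : ℕ) * m.snd 0) := fun i => by
    rw [yy_β5, snd_β5]
    ring
  simp only [ee, h1, h2, Finset.prod_mul_distrib, Finset.prod_const, Finset.card_range,
    Pi.smul_apply, smul_eq_mul]
  ring

@[fun_prop] theorem cont_fst (i : Fin 2) : Continuous fun m : EB5 => m.fst i := by fun_prop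

@[fun_prop] theorem cont_snd (j : Fin 9) : Continuous fun m : EB5 => m.snd j := by fun_prop

theorem cont_yy (j : Fin 9) : Continuous fun m : EB5 => yy m j := by
  unfold yy
  split_ifs <;> fun_prop

theorem cont_ee (A B : ℕ) : Continuous (ee A B) := by
  refine continuous_pi fun j => ?_
  have := cont_yy j
  unfold ee
  fun_prop

theorem cont_mkB : Continuous fun p : (Fin 2 → ℂ) × (Fin 9 → ℂ) => mkB p.1 p.2 := by
  unfold mkB
  fun_prop

theorem cont_nrm : ContinuousOn nrm {m : EB5 | m.fst ≠ 0 ∧ m.snd ≠ 0} := by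
  unfold nrm
  refine (WithLp.prod_continuous_toLp 2 _ _).comp_continuousOn (ContinuousOn.prodMk ?_ ?_)
  · exact ContinuousOn.smul (ContinuousOn.inv₀ (by fun_prop) fun m hm => norm_ne_zero_iff.2 hm.1)
      (by fun_prop)
  · exact ContinuousOn.smul (ContinuousOn.inv₀ (by fun_prop) fun m hm => norm_ne_zero_iff.2 hm.2)
      (by fun_prop)

theorem nrm_mem {m : EB5} (h1 : m.fst ≠ 0) (h2 : m.snd ≠ 0) : nrm m ∈ B5 :=
  ⟨norm_smul_inv_norm (𝕜 := ℝ) h1, norm_smul_inv_norm (𝕜 := ℝ) h2⟩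

theorem nrm_eq {m : EB5} (h1 : ‖m.fst‖ = 1) (h2 : ‖m.snd‖ = 1) : nrm m = m := by
  rw [nrm, h1, h2, inv_one, one_smul, one_smul]
  rfl

theorem mkB_eq_zero {u : Fin 2 → ℂ} {v : Fin 9 → ℂ} : mkB u v = 0 ↔ u 0 = 0 ∧ u 1 = 0 ∧ v = 0 := by
  constructor
  · intro h
    exact ⟨congrArg (fun m : EB5 => m.fst 0) h, congrArg (fun m : EB5 => m.fst 1) h,
      funext fun j => congrArg (fun m : EB5 => m.snd j) h⟩
  · rintro ⟨h1, h2, rfl⟩
    refine extB (fun i => ?_) fun j => rfl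
    fin_cases i
    · exact h1
    · exact h2

theorem base_zero {A B : ℕ} {x : (ℝ × ℝ) × EB5} : baseMap A B x = 0 ↔
    ‖x.2.fst‖ = 1 ∧ ‖x.2.snd‖ = 1 ∧ x.2.fst 0 = x.1.1 ∧ x.2.snd 0 = x.1.2 ∧ ee A B x.2 = 0 := by
  simp only [baseMap, Prod.mk_eq_zero, mkB_eq_zero, sub_eq_zero, Matrix.cons_val_zero,
    Matrix.cons_val_one, and_assoc]

variable {V : Type} [NormedAddCommGroup V] [NormedSpace ℝ V]

theorem relabel {P : Type} [TopologicalSpace P] [T2Space P] {π : G3 →* (V →L[ℝ] V)}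
    {O : Set (P × EB5 × V)} {Φ : P × EB5 × V → V} (h : IsPr π O Φ fun _ => 0)
    {ε : P × EB5 × V → ℂ} (hc : ContinuousOn ε O)
    (he : ∀ γ p b z, (p, b, z) ∈ O → ε (p, β5 γ.1 b, π γ z) = om γ.2.toAdd * ε (p, b, z)) :
    IsPr π O Φ ε := by
  refine ⟨h.sub, h.op, h.cont, hc, h.mem, h.eq, he, h.free, ?_⟩
  have h1 := cpt_inter h.cpt (hc.mono fun w hw => hw.1) isClosed_RR
  have h2 : {w | w ∈ O ∧ Φ w = 0 ∧ ε w ∈ RR} =
      {w | w ∈ O ∧ Φ w = 0 ∧ (0 : ℂ) ∈ RR} ∩ ε ⁻¹' RR := by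
    ext w
    exact ⟨fun hw => ⟨⟨hw.1, hw.2.1, zero_mem_RR⟩, hw.2.2⟩, fun hw => ⟨hw.1.1, hw.1.2.1, hw.2⟩⟩
  rwa [h2]

theorem isQ_prod {π : G3 →* (V →L[ℝ] V)} {O : Set (ℝ × V)} {Φ : ℝ × V → V}
    (h : IsQ π O Φ fun _ => 0) :
    IsQ π {y : (I × ℝ) × V | (y.1.2, y.2) ∈ O} (fun y => Φ (y.1.2, y.2)) fun _ => 0 := by
  have hc : Continuous fun y : (I × ℝ) × V => (y.1.2, y.2) := by fun_prop
  refine ⟨h.op.preimage hc, h.cont.comp hc.continuousOn fun _ hy => hy, continuousOn_const,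
    fun γ p z hz => h.mem γ _ z hz, fun γ p z hz => h.eq γ _ z hz, fun _ _ _ _ => by simp,
    fun y hy => h.free _ hy, ?_⟩
  have h1 := (isCompact_univ.prod h.cpt).image
    (f := fun q : I × ℝ × V => ((q.1, q.2.1), q.2.2)) (by fun_prop)
  have h2 : {y : (I × ℝ) × V | y ∈ {y : (I × ℝ) × V | (y.1.2, y.2) ∈ O} ∧ Φ (y.1.2, y.2) = 0 ∧
      (0 : ℂ) ∈ RR} = (fun q : I × ℝ × V => ((q.1, q.2.1), q.2.2)) ''
        univ ×ˢ {y | y ∈ O ∧ Φ y = 0 ∧ (0 : ℂ) ∈ RR} := by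
    ext y
    constructor
    · intro hy
      exact ⟨(y.1.1, y.1.2, y.2), ⟨mem_univ _, hy⟩, rfl⟩
    · rintro ⟨q, hq, rfl⟩
      exact hq.2
  rwa [h2]

omit [NormedSpace ℝ V] in
theorem wind_zero {Φ : ℝ × V → V} {η : ℝ × V → ℂ} {y : V × ℂ} :
    windMap Φ η y = 0 ↔ Φ (y.2.im, y.1) = 0 ∧ η (y.2.im, y.1) = y.2.re := by
  simp only [windMap, Prod.mk_eq_zero, sub_eq_zero]

omit [NormedSpace ℝ V] in
theorem germ_wind {O : Set (ℝ × V)} {Φ : ℝ × V → V} {η : ℝ × V → ℂ} (hO : IsOpen O)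
    (hΦ : ContinuousOn Φ O) (hη : ContinuousOn η O) (hK : IsCompact {y | y ∈ O ∧ Φ y = 0})
    (hne : ∀ y ∈ O, Φ y = 0 → η y ≠ 0) : Germ (windDom O) (windMap Φ η) := by
  have hc : Continuous fun y : V × ℂ => (y.2.im, y.1) := by fun_prop
  have ho : IsOpen {y : V × ℂ | 0 < y.2.re} := isOpen_lt continuous_const (by fun_prop)
  refine ⟨ho.inter (hO.preimage hc), ?_, ?_⟩
  · refine ContinuousOn.prodMk (hΦ.comp hc.continuousOn fun _ hy => hy.2)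
      ((hη.comp hc.continuousOn fun _ hy => hy.2).sub (Continuous.continuousOn ?_))
    fun_prop
  · have h0 : IsClosed {z : ℂ | z.im = 0 ∧ 0 ≤ z.re} :=
      (isClosed_eq Complex.continuous_im continuous_const).inter
        (isClosed_le continuous_const Complex.continuous_re)
    have h1 := cpt_inter hK (hη.mono fun _ hy => hy.1) h0
    have h2 : ContinuousOn (fun y : ℝ × V => (y.2, (((η y).re : ℝ) : ℂ) + (y.1 : ℝ) * Complex.I))
        ({y | y ∈ O ∧ Φ y = 0} ∩ η ⁻¹' {z : ℂ | z.im = 0 ∧ 0 ≤ z.re}) := by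
      refine continuous_snd.continuousOn.prodMk (ContinuousOn.add ?_ (Continuous.continuousOn ?_))
      · exact (Complex.continuous_ofReal.comp Complex.continuous_re).comp_continuousOn
          (hη.mono fun _ hy => hy.1.1)
      · fun_prop
    have h3 : {y | y ∈ windDom O ∧ windMap Φ η y = 0} =
        (fun y : ℝ × V => (y.2, (((η y).re : ℝ) : ℂ) + (y.1 : ℝ) * Complex.I)) ''
          ({y | y ∈ O ∧ Φ y = 0} ∩ η ⁻¹' {z : ℂ | z.im = 0 ∧ 0 ≤ z.re}) := by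
      ext y
      constructor
      · rintro ⟨⟨a1, a2⟩, a3⟩
        obtain ⟨a3, a4⟩ := wind_zero.1 a3
        refine ⟨(y.2.im, y.1), ⟨⟨a2, a3⟩, ?_⟩, Prod.ext rfl ?_⟩
        · rw [mem_preimage, a4]
          exact ⟨Complex.ofReal_im _, a1.le⟩
        · simp only [a4, Complex.ofReal_re, Complex.re_add_im]
      · rintro ⟨q, ⟨⟨a1, a2⟩, a3, a4⟩, rfl⟩
        have a5 : η q = ((η q).re : ℝ) := Complex.ext rfl (by rw [a3, Complex.ofReal_im])
        have a6 : 0 < (η q).re := lt_of_le_of_ne a4 fun h => hne q a1 a2 (by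
          rw [a5, ← h, Complex.ofReal_zero])
        refine ⟨⟨by simpa using a6, by simpa using a1⟩, wind_zero.2 ⟨by simpa using a2, ?_⟩⟩
        simpa using a5
    rw [h3]
    exact h1.image_of_continuousOn h2

/-- the monomial -/
noncomputable def kap (A B : ℕ) (m : EB5) : ℂ := m.fst 0 ^ A * m.snd 0 ^ B

theorem cont_kap (A B : ℕ) : Continuous (kap A B) := by
  unfold kap
  fun_prop

theorem kap_β5 (A B : ℕ) (g : G5) (m : EB5) :
    kap A B (β5 g m) = (om g.toAdd.1 : ℂ) ^ A * (om g.toAdd.2 : ℂ) ^ B * kap A B m := by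
  rw [kap, kap, fst_β5, snd_β5]
  ring

/-- the homotopy to the product map -/
noncomputable def GG (Φ : ℝ × V → V) (η : ℝ × V → ℂ) (A B : ℕ)
    (p : ℝ × (V × ℂ) × (ℝ × ℝ) × EB5) : (V × ℂ) × (ℝ × ℝ) × EB5 :=
  ((Φ (p.2.1.2.im, p.2.1.1), η (p.2.1.2.im, p.2.1.1) *
      (((1 - p.1 : ℝ) : ℂ) * kap A B (nrm p.2.2.2) + p.1) - p.2.1.2.re),
    ((‖p.2.2.2.fst‖ - 1, ‖p.2.2.2.snd‖ - 1),
      mkB ![p.2.2.2.fst 0 - p.2.2.1.1, p.2.2.2.snd 0 - p.2.2.1.2]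
        ((((1 - p.1 : ℝ) : ℂ) * η (p.2.1.2.im, p.2.1.1)) • ee A B (nrm p.2.2.2) +
          (p.1 : ℂ) • ee A B p.2.2.2)))

omit [NormedSpace ℝ V] [NormedAddCommGroup V] in
theorem GG_zero (Φ : ℝ × V → V) (η : ℝ × V → ℂ) (A B : ℕ) (y : (V × ℂ) × (ℝ × ℝ) × EB5) :
    GG Φ η A B (0, y) =
      ((Φ (y.1.2.im, y.1.1), η (y.1.2.im, y.1.1) * kap A B (nrm y.2.2) - y.1.2.re),
        ((‖y.2.2.fst‖ - 1, ‖y.2.2.snd‖ - 1), mkB ![y.2.2.fst 0 - y.2.1.1, y.2.2.snd 0 - y.2.1.2]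
          (η (y.1.2.im, y.1.1) • ee A B (nrm y.2.2)))) := by
  simp only [GG, sub_zero, Complex.ofReal_one, Complex.ofReal_zero, one_mul, add_zero, zero_smul]

omit [NormedSpace ℝ V] [NormedAddCommGroup V] in
theorem GG_one (Φ : ℝ × V → V) (η : ℝ × V → ℂ) (A B : ℕ) (y : (V × ℂ) × (ℝ × ℝ) × EB5) :
    GG Φ η A B (1, y) = (windMap Φ η y.1, baseMap A B y.2) := by
  simp only [GG, windMap, baseMap, sub_self, Complex.ofReal_one, Complex.ofReal_zero, zero_mul,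
    zero_add, mul_one, zero_smul, one_smul]

omit [NormedSpace ℝ V] in
theorem GG_eq_zero {Φ : ℝ × V → V} {η : ℝ × V → ℂ} {A B : ℕ}
    {p : ℝ × (V × ℂ) × (ℝ × ℝ) × EB5} : GG Φ η A B p = 0 ↔
      Φ (p.2.1.2.im, p.2.1.1) = 0 ∧ ‖p.2.2.2.fst‖ = 1 ∧ ‖p.2.2.2.snd‖ = 1 ∧
      p.2.2.2.fst 0 = p.2.2.1.1 ∧ p.2.2.2.snd 0 = p.2.2.1.2 ∧
      η (p.2.1.2.im, p.2.1.1) * ((1 - p.1) * (p.2.2.1.1 ^ A * p.2.2.1.2 ^ B) + p.1 : ℝ) =
        p.2.1.2.re ∧
      (((1 - p.1 : ℝ) : ℂ) * η (p.2.1.2.im, p.2.1.1) + p.1) • ee A B p.2.2.2 = 0 := by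
  simp only [GG, Prod.mk_eq_zero, mkB_eq_zero, sub_eq_zero, Matrix.cons_val_zero,
    Matrix.cons_val_one, and_assoc]
  refine and_congr_right fun _ => ?_
  constructor
  · rintro ⟨a1, a2, a3, a4, a5, a6⟩
    rw [nrm_eq a2 a3] at a1 a6
    refine ⟨a2, a3, a4, a5, ?_, by rw [add_smul, a6]⟩
    rw [← a1, kap, a4, a5]
    push_cast
    rfl
  · rintro ⟨a2, a3, a4, a5, a1, a6⟩
    rw [nrm_eq a2 a3]
    refine ⟨?_, a2, a3, a4, a5, by rw [← add_smul, a6]⟩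
    rw [← a1, kap, a4, a5]
    push_cast
    rfl

omit [NormedSpace ℝ V] in
theorem hgerm {O : Set (ℝ × V)} {Φ : ℝ × V → V} {η : ℝ × V → ℂ} {A B : ℕ}
    (hΦ : ContinuousOn Φ O) (hη : ContinuousOn η O) (h1 : Germ (windDom O) (windMap Φ η))
    (h2 : Germ baseDom (baseMap A B)) :
    HGerm {p : ℝ × (V × ℂ) × (ℝ × ℝ) × EB5 | p.2 ∈ windDom O ×ˢ baseDom} (GG Φ η A B) := by
  refine ⟨(h1.isOpen.prod h2.isOpen).preimage continuous_snd, ?_, ?_⟩
  · set D : Set (ℝ × (V × ℂ) × (ℝ × ℝ) × EB5) := {p | p ∈ {p : ℝ × (V × ℂ) × (ℝ × ℝ) × EB5 |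
      p.2 ∈ windDom O ×ˢ baseDom} ∧ p.1 ∈ Icc (0 : ℝ) 1}
    have hc : Continuous fun p : ℝ × (V × ℂ) × (ℝ × ℝ) × EB5 => (p.2.1.2.im, p.2.1.1) := by
      fun_prop
    have c1 : ContinuousOn (fun p : ℝ × (V × ℂ) × (ℝ × ℝ) × EB5 => Φ (p.2.1.2.im, p.2.1.1)) D :=
      hΦ.comp hc.continuousOn fun _ hp => hp.1.1.2
    have c2 : ContinuousOn (fun p : ℝ × (V × ℂ) × (ℝ × ℝ) × EB5 => η (p.2.1.2.im, p.2.1.1)) D :=
      hη.comp hc.continuousOn fun _ hp => hp.1.1.2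
    have c3 : ContinuousOn (fun p : ℝ × (V × ℂ) × (ℝ × ℝ) × EB5 => nrm p.2.2.2) D :=
      cont_nrm.comp (by fun_prop) fun _ hp => hp.1.2.2.2
    have c4 := (cont_kap A B).comp_continuousOn c3
    have c5 := (cont_ee A B).comp_continuousOn c3
    have c6 : Continuous fun p : ℝ × (V × ℂ) × (ℝ × ℝ) × EB5 => ee A B p.2.2.2 :=
      (cont_ee A B).comp (by fun_prop)
    have c7 : Continuous fun p : ℝ × (V × ℂ) × (ℝ × ℝ) × EB5 => ((1 - p.1 : ℝ) : ℂ) := by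
      fun_prop
    have c8 : Continuous fun p : ℝ × (V × ℂ) × (ℝ × ℝ) × EB5 => (p.1 : ℂ) := by fun_prop
    have c9 : Continuous fun p : ℝ × (V × ℂ) × (ℝ × ℝ) × EB5 => (p.2.1.2.re : ℂ) := by fun_prop
    have c10 : Continuous fun p : ℝ × (V × ℂ) × (ℝ × ℝ) × EB5 =>
        (‖p.2.2.2.fst‖ - 1, ‖p.2.2.2.snd‖ - 1) := by fun_prop
    have c11 : Continuous fun p : ℝ × (V × ℂ) × (ℝ × ℝ) × EB5 =>
        (![p.2.2.2.fst 0 - p.2.2.1.1, p.2.2.2.snd 0 - p.2.2.1.2] : Fin 2 → ℂ) := by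
      refine continuous_pi fun i => ?_
      fin_cases i
      · change Continuous fun p : ℝ × (V × ℂ) × (ℝ × ℝ) × EB5 => p.2.2.2.fst 0 - p.2.2.1.1
        fun_prop
      · change Continuous fun p : ℝ × (V × ℂ) × (ℝ × ℝ) × EB5 => p.2.2.2.snd 0 - p.2.2.1.2
        fun_prop
    exact (c1.prodMk ((c2.mul ((c7.continuousOn.mul c4).add c8.continuousOn)).sub
      c9.continuousOn)).prodMk (c10.continuousOn.prodMk (cont_mkB.comp_continuousOn
        (c11.continuousOn.prodMk (((c7.continuousOn.mul c2).smul c5).add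
          (c8.smul c6).continuousOn))))
  · have hm : Continuous fun q : ℝ × ℝ => (⟨q.1, q.2⟩ : ℂ) :=
      Complex.equivRealProdCLM.symm.continuous
    let j : ℝ × (V × ℂ) × (ℝ × ℝ) × EB5 → ℝ × (V × ℂ) × (ℝ × ℝ) × EB5 := fun q =>
      (q.1, (q.2.1.1, ⟨q.2.1.2.re * ((1 - q.1) * (q.2.2.1.1 ^ A * q.2.2.1.2 ^ B) + q.1),
        q.2.1.2.im⟩), q.2.2)
    have hj : Continuous j := by
      refine continuous_fst.prodMk (Continuous.prodMk (Continuous.prodMk (by fun_prop)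
        (hm.comp (f := fun q : ℝ × (V × ℂ) × (ℝ × ℝ) × EB5 =>
          (q.2.1.2.re * ((1 - q.1) * (q.2.2.1.1 ^ A * q.2.2.1.2 ^ B) + q.1), q.2.1.2.im)) ?_))
        (by fun_prop))
      fun_prop
    have hk : ∀ s ∈ Icc (0 : ℝ) 1, ∀ u : ℝ, 0 < u → 0 < (1 - s) * u + s := fun s hs u hu => by
      rcases hs.1.eq_or_lt with h | h
      · rw [← h]
        linarith
      · have := mul_nonneg (sub_nonneg.2 hs.2) hu.le
        linarith
    have h3 : {p : ℝ × (V × ℂ) × (ℝ × ℝ) × EB5 | p ∈ {p : ℝ × (V × ℂ) × (ℝ × ℝ) × EB5 |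
        p.2 ∈ windDom O ×ˢ baseDom} ∧ p.1 ∈ Icc (0 : ℝ) 1 ∧ GG Φ η A B p = 0} =
        j '' Icc (0 : ℝ) 1 ×ˢ {y | y ∈ windDom O ∧ windMap Φ η y = 0} ×ˢ
          {x | x ∈ baseDom ∧ baseMap A B x = 0} := by
      ext ⟨s, ⟨z, c⟩, x⟩
      constructor
      · rintro ⟨⟨⟨a1, a2⟩, a3⟩, hs, h0⟩
        obtain ⟨b1, b2, b3, b4, b5, b6, b7⟩ := GG_eq_zero.1 h0
        have k1 := hk s hs _ (mul_pos (pow_pos a3.1 A) (pow_pos a3.2.1 B))
        dsimp only at a1 a2 b1 b2 b3 b4 b5 b6 b7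
        set κ : ℝ := (1 - s) * (x.1.1 ^ A * x.1.2 ^ B) + s with hκ
        have k2 : η (c.im, z) = ((c.re / κ : ℝ) : ℂ) := by
          rw [Complex.ofReal_div, ← b6, mul_div_cancel_right₀ _ (Complex.ofReal_ne_zero.2 k1.ne')]
        have k3 : 0 < c.re / κ := div_pos a1 k1
        have k4 : ee A B x.2 = 0 := by
          refine (smul_eq_zero.1 b7).resolve_left ?_
          rw [k2, ← Complex.ofReal_mul, ← Complex.ofReal_add, Complex.ofReal_eq_zero]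
          exact (hk s hs _ k3).ne'
        refine ⟨(s, (z, ⟨c.re / κ, c.im⟩), x), ⟨hs, ⟨⟨k3, a2⟩, wind_zero.2 ⟨b1, k2⟩⟩, a3,
          base_zero.2 ⟨b2, b3, b4, b5, k4⟩⟩, ?_⟩
        refine Prod.ext rfl (Prod.ext (Prod.ext rfl (Complex.ext ?_ rfl)) rfl)
        exact div_mul_cancel₀ _ k1.ne'
      · rintro ⟨⟨s', ⟨z', c'⟩, x'⟩, ⟨hs, ⟨⟨a1, a2⟩, a3⟩, a4, a5⟩, e⟩
        rw [← e]
        obtain ⟨b1, b6⟩ := wind_zero.1 a3
        obtain ⟨b2, b3, b4, b5, b7⟩ := base_zero.1 a5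
        have k1 := hk s' hs _ (mul_pos (pow_pos a4.1 A) (pow_pos a4.2.1 B))
        refine ⟨⟨⟨mul_pos a1 k1, a2⟩, a4⟩, hs, GG_eq_zero.2 ⟨b1, b2, b3, b4, b5, ?_, ?_⟩⟩
        · exact (congrArg (· * _) b6).trans (Complex.ofReal_mul _ _).symm
        · exact (congrArg (_ • ·) b7).trans (smul_zero _)
    rw [h3]
    exact (isCompact_Icc.prod (h1.cpt.prod h2.cpt)).image hj

/-- the change of coordinates -/
noncomputable def BL (V : Type) [NormedAddCommGroup V] [NormedSpace ℝ V] :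
    ((V × ℂ) × (ℝ × ℝ) × EB5) ≃ₗ[ℝ] ((Fin 3 → ℝ) × W0 × V) where
  toFun y := (![y.2.1.1, y.2.1.2, y.1.2.re], (y.1.2.im, y.2.2), y.1.1)
  invFun x := ((x.2.2, ⟨x.1 2, x.2.1.1⟩), (x.1 0, x.1 1), x.2.1.2)
  map_add' y y' := by
    refine Prod.ext (funext fun i => ?_) rfl
    fin_cases i <;> rfl
  map_smul' r y := by
    refine Prod.ext (funext fun i => ?_) (Prod.ext (Prod.ext (by simp) rfl) rfl)
    fin_cases i <;> simp
  left_inv _ := rfl
  right_inv x := by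
    refine Prod.ext (funext fun i => ?_) rfl
    fin_cases i <;> rfl

end Mn

open Mn

theorem stMain (hC : Deg.StCnt) (hL : Deg.StLin) (hP : Deg.StProdDeg) (hE : StE) (hB : StBase)
    (hl : StLift) (hn : IsN n5) : StMain := by
  intro V _ _ _ π a b O Φ η ha hb hQ hη
  obtain ⟨hB1, hB2, hB3⟩ := hB a.val b.val (Nat.one_le_iff_ne_zero.2 (by simpa using ha))
    (Nat.lt_succ_iff.1 (ZMod.val_lt a)) (Nat.one_le_iff_ne_zero.2 (by simpa using hb))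
    (Nat.lt_succ_iff.1 (ZMod.val_lt b))
  set O3 : Set (ℝ × EB5 × V) := {y | y.2.1 ∈ B5 ∧ (y.1, y.2.2) ∈ O} with hO3
  set Φ3 : ℝ × EB5 × V → V := fun y => Φ (y.1, y.2.2) with hΦ3
  set ε : ℝ × EB5 × V → ℂ := fun y => η (y.1, y.2.2) * kap a.val b.val y.2.1 with hε
  set e : ℝ × EB5 × V → Fin 9 → ℂ := fun y => η (y.1, y.2.2) • ee a.val b.val y.2.1 with he
  have c1 : ContinuousOn (fun y : ℝ × EB5 × V => η (y.1, y.2.2)) O3 :=
    hη.cont.comp (by fun_prop) fun _ hy => hy.2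
  have cε : ContinuousOn ε O3 :=
    c1.mul ((cont_kap _ _).comp (f := fun y : ℝ × EB5 × V => y.2.1) (by fun_prop)).continuousOn
  have ce : ContinuousOn e O3 :=
    c1.smul ((cont_ee _ _).comp (f := fun y : ℝ × EB5 × V => y.2.1) (by fun_prop)).continuousOn
  have qε : ∀ (γ : G3) t m z, (t, z) ∈ O →
      ε (t, β5 γ.1 m, π γ z) = om γ.2.toAdd * ε (t, m, z) := fun γ t m z hz => by
    simp only [hε]
    rw [hη.eq γ t z hz, kap_β5, ← om_chi a b γ]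
    ring
  have qe : ∀ (γ : G3) t m z, (t, m, z) ∈ O3 →
      e (t, β5 γ.1 m, π γ z) = (om γ.2.toAdd : ℂ) • e (t, m, z) := fun γ t m z hz => by
    simp only [he]
    rw [hη.eq γ t z hz.2, ee_β5, ← om_chi a b γ, smul_smul, smul_smul]
    congr 1
    ring
  have p0 : IsPr π O3 Φ3 fun _ => 0 := ((hl V π).1 ℝ O Φ fun _ => 0).2 hQ
  have p1 : IsPr π O3 Φ3 ε := relabel p0 cε fun γ t m z hz => qε γ t m z hz.2
  -- the label
  have s1 : n5 V π O3 Φ3 (fun _ => 0) = n5 V π O3 Φ3 ε := by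
    have p2 := ((hl V π).1 (I × ℝ) _ _ _).2 (isQ_prod hQ)
    have p3 := relabel p2 (ε := fun w : (I × ℝ) × EB5 × V => ((w.1.1 : ℝ) : ℂ) * ε (w.1.2, w.2))
      (ContinuousOn.mul (Continuous.continuousOn (by fun_prop))
        (cε.comp (f := fun w : (I × ℝ) × EB5 × V => (w.1.2, w.2)) (by fun_prop) fun _ hw => hw))
      fun γ p m z hz => by
        dsimp only
        rw [qε γ p.2 m z hz.2]
        ring
    have h := hn.hom V π _ _ _ p3
    have e0 : (fun w : ℝ × EB5 × V => ((((atP 0 w).1.1 : I) : ℝ) : ℂ) *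
        ε ((atP 0 w).1.2, (atP 0 w).2)) = fun _ => 0 := funext fun w => by simp [atP]
    have e1 : (fun w : ℝ × EB5 × V => ((((atP 1 w).1.1 : I) : ℝ) : ℂ) *
        ε ((atP 1 w).1.2, (atP 1 w).2)) = ε := funext fun w => by simp [atP]
    rw [e0, e1] at h
    exact h
  -- the germ is generic
  obtain ⟨g1, s2⟩ := hE V π O3 Φ3 ε e p1 ce qe
  have s3 := (hC _ _ _ _ (S5 π)).gen _ _ g1 fun x hx hF => by
    obtain ⟨f1, -, i, f2⟩ := hF
    have a1 : ‖x.1.2.fst‖ = 1 := sub_eq_zero.1 (congrArg (fun y : T0 × V => y.1.1.1) f1)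
    have a2 : ‖x.1.2.snd‖ = 1 := sub_eq_zero.1 (congrArg (fun y : T0 × V => y.1.1.2) f1)
    have a3 : η (x.1.1, x.2) • ee a.val b.val (nrm x.1.2) = 0 :=
      congrArg (fun y : T0 × V => y.1.2) f1
    have a4 : η (x.1.1, x.2) ≠ 0 := hη.ne _ hx.2.2.2 (congrArg (fun y : T0 × V => y.2) f1)
    rw [nrm_eq a1 a2] at a3
    obtain ⟨a5, a6⟩ := hB1 _ hx.1 hx.2.1 ((smul_eq_zero.1 a3).resolve_left a4)
    fin_cases i
    · exact a5 f2
    · exact a6 f2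
    · have a7 : η (x.1.1, x.2) * kap a.val b.val (nrm x.1.2) = 0 := f2
      rw [nrm_eq a1 a2] at a7
      exact mul_ne_zero a4 (mul_ne_zero (pow_ne_zero _ a5) (pow_ne_zero _ a6)) a7
  -- the product
  have hZ : IsCompact {y | y ∈ O ∧ Φ y = 0} := by
    have h := hQ.cpt
    simpa only [zero_mem_RR, and_true] using h
  have gw := germ_wind hQ.op hQ.cont hη.cont hZ hη.ne
  have hG := hgerm hQ.cont hη.cont gw hB2
  have s4 : pdeg (windDom O ×ˢ baseDom) (fun y => GG Φ η a.val b.val (0, y)) =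
      pdeg (windDom O) (windMap Φ η) * (9 * a.val * b.val ^ 8) := by
    rw [← hB3, ← hP _ _ _ _ _ _ gw hB2, ← funext (GG_one Φ η a.val b.val)]
    exact pdeg_htpy hG
  let T := (BL V).toContinuousLinearEquiv
  have s5 := hL _ _ T T.symm (windDom O ×ˢ baseDom) (fun y => GG Φ η a.val b.val (0, y))
    (hG.slice ⟨le_rfl, zero_le_one⟩)
  have d1 : T.symm ⁻¹' (windDom O ×ˢ baseDom) = Orth (Fin 3) ×ˢ extO O3 := by
    ext x
    constructor
    · rintro ⟨⟨a1, a2⟩, a3, a4, a5, a6⟩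
      refine ⟨fun i => ?_, a5, a6, nrm_mem a5 a6, a2⟩
      fin_cases i
      · exact a3
      · exact a4
      · exact a1
    · rintro ⟨a1, a2, a3, -, a4⟩
      exact ⟨⟨a1 2, a4⟩, a1 0, a1 1, a2, a3⟩
  have d2 : (fun x => T (GG Φ η a.val b.val (0, T.symm x))) = (S5 π).Th (extF Φ3 ε e) := by
    funext x
    rw [GG_zero]
    rfl
  rw [d1, d2, ContinuousLinearEquiv.coe_symm_comp_coe, ContinuousLinearMap.det,
    ContinuousLinearMap.coe_id, LinearMap.det_id, P205.TI.Deg.sg_pos one_pos, one_mul, s4] at s5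
  have k : ∀ a b : ZMod 5, b ≠ 0 → 9 * a * b ^ 8 = 4 * a := by decide
  change n5 V π O3 Φ3 (fun _ => 0) = _
  rw [s1, s2, s3, Setup.num, s5]
  push_cast
  rw [ZMod.natCast_zmod_val, ZMod.natCast_zmod_val, k a b hb, mul_comm]

end Vale.Agent.P220Z.Def
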