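import Vale.Agent.P220Z.Def.Nw

/-!
# P220, the reduction to problems in product form with one isotropy group
-/

open Set Topology
open scoped unitInterval

namespace Vale.Agent.P220Z.Def

namespace Red

theorem isClosed_RR : IsClosed RR := by
  have e : RR = ⋃ k : ZMod 5, {c : ℂ | (c * om (-k)).im = 0 ∧ 0 ≤ (c * om (-k)).re} := by
    ext c
    simp only [RR, mem_ofPred_eq, mem_iUnion]
    refine exists_congr fun k => ⟨?_, fun h => ⟨(c * om (-k)).re, h.2, ?_⟩⟩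
    · rintro ⟨r, hr, rfl⟩
      rw [mul_assoc, ← om_add, add_neg_cancel, om_zero, mul_one]
      exact ⟨Complex.ofReal_im r, hr⟩
    · have e : (((c * om (-k)).re : ℝ) : ℂ) = c * om (-k) :=
        Complex.ext (Complex.ofReal_re _) ((Complex.ofReal_im _).trans h.1.symm)
      rw [e, mul_assoc, ← om_add, neg_add_cancel, om_zero, mul_one]
  rw [e]
  exact isClosed_iUnion_of_finite fun k =>
    (isClosed_eq (by fun_prop) continuous_const).inter
      (isClosed_le (g := fun c : ℂ => (c * om (-k)).re) continuous_const (by fun_prop))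

theorem om_mul_RR (a : ZMod 5) {c : ℂ} (h : c ∈ RR) : om a * c ∈ RR := by
  obtain ⟨k, r, hr, rfl⟩ := h
  exact ⟨a + k, r, hr, by rw [om_add]; ring⟩

variable {V : Type} [NormedAddCommGroup V] [NormedSpace ℝ V] {π : G3 →* (V →L[ℝ] V)}

theorem pi_mul (γ γ' : G3) (z : V) : π (γ * γ') z = π γ (π γ' z) := by
  rw [map_mul]
  rfl

theorem exists_proj (π : G3 →* (V →L[ℝ] V)) (H : Subgroup G3) : ∃ P, IsProjH π H P := by
  classical
  have hc : (Fintype.card H : ℝ) ≠ 0 := Nat.cast_ne_zero.2 Fintype.card_ne_zero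
  have e : ∀ z, (((Fintype.card H : ℝ)⁻¹ • ∑ h : H, π h) z) =
      (Fintype.card H : ℝ)⁻¹ • ∑ h : H, π h z := fun z => by
    simp
  refine ⟨(Fintype.card H : ℝ)⁻¹ • ∑ h : H, π h, fun γ hγ z => ?_, fun z hz => ?_, fun γ z => ?_⟩
  · rw [e, map_smul, map_sum, ← Equiv.sum_comp (Equiv.mulLeft (⟨γ, hγ⟩ : H)) fun h => π h z]
    congr 1
    exact Finset.sum_congr rfl fun h _ => (pi_mul γ h z).symm
  · rw [e, Finset.sum_congr rfl fun (h : H) _ => hz h h.2, Finset.sum_const, Finset.card_univ,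
      ← Nat.cast_smul_eq_nsmul ℝ, smul_smul, inv_mul_cancel₀ hc, one_smul]
  · rw [e, e, map_smul, map_sum]
    congr 1
    exact Finset.sum_congr rfl fun h _ => by rw [← pi_mul, ← pi_mul, mul_comm]

/-- an invariant norm -/
noncomputable def nn (π : G3 →* (V →L[ℝ] V)) (z : V) : ℝ := ∑ γ, ‖π γ z‖

theorem nn_pi (γ : G3) (z : V) : nn π (π γ z) = nn π z := by
  unfold nn
  rw [← Equiv.sum_comp (Equiv.mulRight γ) fun γ' => ‖π γ' z‖]
  exact Finset.sum_congr rfl fun γ' _ => by rw [← pi_mul]; rfl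

theorem le_nn (z : V) : ‖z‖ ≤ nn π z := by
  have := Finset.single_le_sum (f := fun γ => ‖π γ z‖) (fun _ _ => norm_nonneg _)
    (Finset.mem_univ (1 : G3))
  simpa [nn] using this

theorem nn_zero : nn π 0 = 0 := by simp [nn]

theorem cont_nn : Continuous (nn π) := by
  unfold nn
  fun_prop

section Q

variable {P : Type} [TopologicalSpace P] {O O' : Set (P × V)} {Φ : P × V → V} {ε : P × V → ℂ}

theorem isQ_sub (h : IsQ π O Φ ε) (h1 : O' ⊆ O) (h2 : IsOpen O')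
    (h3 : ∀ γ p z, (p, z) ∈ O' → (p, π γ z) ∈ O')
    (h4 : IsCompact {y | y ∈ O' ∧ Φ y = 0 ∧ ε y ∈ RR}) : IsQ π O' Φ ε :=
  ⟨h2, h.cont.mono h1, h.conte.mono h1, h3, fun γ p z k => h.eq γ p z (h1 k),
    fun γ p z k => h.eqe γ p z (h1 k), fun y k => h.free y (h1 k), h4⟩

theorem isQ_part (h : IsQ π O Φ ε) {A A' : Set (P × V)} (h1 : IsOpen A) (h2 : IsOpen A')
    (h3 : ∀ γ p z, (p, z) ∈ A → (p, π γ z) ∈ A) (h4 : Disjoint A A')
    (h5 : ∀ y ∈ O, Φ y = 0 → ε y ∈ RR → y ∈ A ∨ y ∈ A') : IsQ π (O ∩ A) Φ ε := by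
  refine isQ_sub h inter_subset_left (h.op.inter h1)
    (fun γ p z k => ⟨h.mem γ p z k.1, h3 γ p z k.2⟩) ?_
  have e : {y | y ∈ O ∩ A ∧ Φ y = 0 ∧ ε y ∈ RR} = {y | y ∈ O ∧ Φ y = 0 ∧ ε y ∈ RR} \ A' := by
    ext y
    exact ⟨fun k => ⟨⟨k.1.1, k.2⟩, disjoint_left.1 h4 k.1.2⟩,
      fun k => ⟨⟨k.1.1, (h5 y k.1.1 k.1.2.1 k.1.2.2).resolve_right k.2⟩, k.1.2⟩⟩
  rw [e]
  exact h.cpt.diff h2

end Q

theorem isQ_slice {O : Set ((I × ℝ) × V)} {Φ : (I × ℝ) × V → V} {ε : (I × ℝ) × V → ℂ}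
    (h : IsQ π O Φ ε) (s : I) :
    IsQ π (atL s ⁻¹' O) (fun y => Φ (atL s y)) fun y => ε (atL s y) := by
  have hc : Continuous (atL s : ℝ × V → _) := by
    unfold atL
    fun_prop
  have he : IsClosedEmbedding (atL s : ℝ × V → _) :=
    Function.LeftInverse.isClosedEmbedding (f := fun w : (I × ℝ) × V => (w.1.2, w.2))
      (fun _ => rfl) (by fun_prop) hc
  exact ⟨h.op.preimage hc, h.cont.comp hc.continuousOn fun _ k => k,
    h.conte.comp hc.continuousOn fun _ k => k, fun γ p z k => h.mem γ (s, p) z k,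
    fun γ p z k => h.eq γ (s, p) z k, fun γ p z k => h.eqe γ (s, p) z k,
    fun y k => h.free _ k, he.isCompact_preimage h.cpt⟩

variable {O : Set (ℝ × V)} {Φ : ℝ × V → V} {ε : ℝ × V → ℂ}

/-- an invariant neighbourhood of the zeros and a lower bound on its boundary -/
theorem exists_nbhd [FiniteDimensional ℝ V] (h : IsQ π O Φ ε) : ∃ (U L : Set (ℝ × V)) (d : ℝ),
    IsOpen U ∧ IsCompact L ∧ U ⊆ L ∧ L ⊆ O ∧ 0 < d ∧ (∀ γ p z, (p, z) ∈ U → (p, π γ z) ∈ U) ∧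
    (∀ y ∈ O, Φ y = 0 → ε y ∈ RR → y ∈ U) ∧ ∀ y ∈ L, ε y ∈ RR → ‖Φ y‖ ≤ d → y ∈ U := by
  obtain ⟨L, h1, h2, h3⟩ := exists_compact_between h.cpt h.op fun y k => k.1
  set U : Set (ℝ × V) := ⋂ γ, {y | (y.1, π γ y.2) ∈ interior L} with hU
  have u1 : IsOpen U := isOpen_iInter_of_finite fun γ =>
    isOpen_interior.preimage (f := fun y : ℝ × V => (y.1, π γ y.2)) (by fun_prop)
  have u2 : ∀ y ∈ O, Φ y = 0 → ε y ∈ RR → y ∈ U := fun y a1 a2 a3 => mem_iInter.2 fun γ =>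
    h2 ⟨h.mem γ _ _ a1, by rw [h.eq γ _ _ a1, a2, map_zero],
      by rw [h.eqe γ _ _ a1]; exact om_mul_RR _ a3⟩
  have hc : IsCompact ((L \ U) ∩ ε ⁻¹' RR) := (h1.diff u1).of_isClosed_subset
    ((h.conte.mono (sdiff_subset.trans h3)).preimage_isClosed_of_isClosed (h1.diff u1).isClosed
      isClosed_RR) inter_subset_left
  obtain ⟨m, m1, m2⟩ := hc.exists_forall_le' (f := fun y => ‖Φ y‖)
    (h.cont.mono fun y k => h3 k.1.1).norm (a := 0)
    fun y k => norm_pos_iff.2 fun c => k.1.2 (u2 y (h3 k.1.1) c k.2)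
  refine ⟨U, L, m / 2, u1, h1, fun y k => ?_, h3, half_pos m1, fun γ p z k => ?_, u2,
    fun y a1 a2 a3 => ?_⟩
  · simpa using interior_subset (mem_iInter.1 k 1)
  · refine mem_iInter.2 fun γ' => ?_
    have := mem_iInter.1 k (γ' * γ)
    rwa [mem_ofPred_eq, pi_mul] at this
  · by_contra c
    linarith [m2 y ⟨⟨a1, c⟩, a2⟩]

/-- the homotopy along a small equivariant move -/
theorem isQ_move [FiniteDimensional ℝ V] (h : IsQ π O Φ ε) {U L : Set (ℝ × V)} {d : ℝ}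
    (u1 : IsOpen U) (l1 : IsCompact L) (ul : U ⊆ L) (lo : L ⊆ O)
    (u2 : ∀ γ p z, (p, z) ∈ U → (p, π γ z) ∈ U)
    (u3 : ∀ y ∈ L, ε y ∈ RR → ‖Φ y‖ ≤ d → y ∈ U) {R : I → V → V}
    (r1 : Continuous fun w : I × V => R w.1 w.2) (r2 : ∀ s γ z, R s (π γ z) = π γ (R s z))
    (r3 : ∀ s z, ‖z - R s z‖ ≤ d) :
    IsQ π {w : (I × ℝ) × V | (w.1.2, R w.1.1 w.2) ∈ U}
      (fun w => w.2 - R w.1.1 w.2 + Φ (w.1.2, R w.1.1 w.2)) fun w => ε (w.1.2, R w.1.1 w.2) := by
  have c0 : Continuous fun w : (I × ℝ) × V => R w.1.1 w.2 :=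
    r1.comp (continuous_fst.fst.prodMk continuous_snd)
  have c1 : Continuous fun w : (I × ℝ) × V => (w.1.2, R w.1.1 w.2) := continuous_fst.snd.prodMk c0
  have c2 : ContinuousOn (fun w : (I × ℝ) × V => w.2 - R w.1.1 w.2 + Φ (w.1.2, R w.1.1 w.2))
      {w | (w.1.2, R w.1.1 w.2) ∈ L} :=
    (continuous_snd.sub c0).continuousOn.add (h.cont.comp c1.continuousOn fun w k => lo k)
  have c3 : ContinuousOn (fun w : (I × ℝ) × V => ε (w.1.2, R w.1.1 w.2))
      {w | (w.1.2, R w.1.1 w.2) ∈ L} := h.conte.comp c1.continuousOn fun w k => lo k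
  refine ⟨u1.preimage c1, c2.mono fun w k => ul k, c3.mono fun w k => ul k, fun γ p z k => ?_,
    fun γ p z k => ?_, fun γ p z k => ?_, fun w k c => ?_, ?_⟩
  · simp only [mem_ofPred_eq, r2]
    exact u2 γ _ _ k
  · simp only [r2, h.eq γ _ _ (lo (ul k)), map_add, map_sub]
  · simp only [r2, h.eqe γ _ _ (lo (ul k))]
  · exact h.free _ (lo (ul k)) (by simp only [← r2, c])
  · obtain ⟨r, hr⟩ := l1.isBounded.subset_closedBall 0
    have cl := l1.isClosed.preimage c1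
    have e : {w : (I × ℝ) × V | w ∈ {w : (I × ℝ) × V | (w.1.2, R w.1.1 w.2) ∈ U} ∧
        w.2 - R w.1.1 w.2 + Φ (w.1.2, R w.1.1 w.2) = 0 ∧ ε (w.1.2, R w.1.1 w.2) ∈ RR} =
        ({w | (w.1.2, R w.1.1 w.2) ∈ L} ∩
          (fun w => w.2 - R w.1.1 w.2 + Φ (w.1.2, R w.1.1 w.2)) ⁻¹' {0}) ∩
        ({w | (w.1.2, R w.1.1 w.2) ∈ L} ∩ (fun w => ε (w.1.2, R w.1.1 w.2)) ⁻¹' RR) := by
      ext w
      refine ⟨fun k => ⟨⟨ul k.1, k.2.1⟩, ul k.1, k.2.2⟩, fun k => ⟨u3 _ k.1.1 k.2.2 ?_, k.1.2, k.2.2⟩⟩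
      rw [eq_neg_of_add_eq_zero_right k.1.2, norm_neg]
      exact r3 _ _
    rw [e]
    refine ((isCompact_univ.prod (isCompact_closedBall (0 : ℝ) r)).prod
      (isCompact_closedBall (0 : V) (r + d))).of_isClosed_subset
      ((c2.preimage_isClosed_of_isClosed cl isClosed_singleton).inter
        (c3.preimage_isClosed_of_isClosed cl isClosed_RR)) fun w k => ?_
    have b := mem_closedBall_zero_iff.1 (hr k.1.1)
    refine ⟨⟨mem_univ _, mem_closedBall_zero_iff.2 ((norm_fst_le _).trans b)⟩,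
      mem_closedBall_zero_iff.2 ?_⟩
    have b1 : ‖R w.1.1 w.2‖ ≤ r := (norm_snd_le (w.1.2, R w.1.1 w.2)).trans b
    have b2 := norm_sub_norm_le w.2 (R w.1.1 w.2)
    linarith [r3 w.1.1 w.2]

variable {H : Subgroup G3} {P : V →L[ℝ] V}

theorem zero_prod (h : IsQ π O Φ ε) (hP : IsProjH π H P) {y : ℝ × V} (hy : (y.1, P y.2) ∈ O)
    (h0 : y.2 - P y.2 + Φ (y.1, P y.2) = 0) : P y.2 = y.2 ∧ Φ y = 0 := by
  have a1 : P (Φ (y.1, P y.2)) = Φ (y.1, P y.2) :=
    hP.id _ fun γ hγ => by rw [← h.eq γ _ _ hy, hP.fix γ hγ]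
  have a2 : P (P y.2) = P y.2 := hP.id _ fun γ hγ => hP.fix γ hγ _
  have a3 := congrArg P h0
  rw [map_add, map_sub, a1, a2, sub_self, zero_add, map_zero] at a3
  rw [a3, add_zero, sub_eq_zero] at h0
  rw [← h0] at a3
  exact ⟨h0.symm, a3⟩

theorem isQ_prod (h : IsQ π O Φ ε) (hP : IsProjH π H P) :
    IsQ π {y : ℝ × V | (y.1, P y.2) ∈ O} (fun y => y.2 - P y.2 + Φ (y.1, P y.2))
      fun y => ε (y.1, P y.2) := by
  have c1 : Continuous fun y : ℝ × V => (y.1, P y.2) := by fun_prop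
  refine ⟨h.op.preimage c1, (by fun_prop : Continuous fun y : ℝ × V => y.2 - P y.2).continuousOn.add
    (h.cont.comp c1.continuousOn fun _ k => k), h.conte.comp c1.continuousOn fun _ k => k,
    fun γ p z k => ?_, fun γ p z k => ?_, fun γ p z k => ?_, fun w k c => ?_, ?_⟩
  · simp only [mem_ofPred_eq, hP.comm]
    exact h.mem γ _ _ k
  · simp only [hP.comm, h.eq γ _ _ k, map_add, map_sub]
  · simp only [hP.comm, h.eqe γ _ _ k]
  · exact h.free _ k (by simp only [← hP.comm, c])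
  · have e : {y : ℝ × V | y ∈ {y : ℝ × V | (y.1, P y.2) ∈ O} ∧
        y.2 - P y.2 + Φ (y.1, P y.2) = 0 ∧ ε (y.1, P y.2) ∈ RR} =
        {y | y ∈ O ∧ Φ y = 0 ∧ ε y ∈ RR} ∩ {y | P y.2 = y.2} := by
      ext y
      constructor
      · rintro ⟨a1, a2, a3⟩
        obtain ⟨b1, b2⟩ := zero_prod h hP a1 a2
        rw [mem_ofPred_eq, b1] at a1
        rw [b1] at a3
        exact ⟨⟨a1, b2, a3⟩, b1⟩
      · rintro ⟨⟨a1, a2, a3⟩, (a4 : P y.2 = y.2)⟩
        simp only [mem_ofPred_eq, a4, sub_self, zero_add]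
        exact ⟨a1, a2, a3⟩
    rw [e]
    exact h.cpt.inter_right (isClosed_eq (by fun_prop) continuous_snd)

/-- the move towards the fixed space -/
theorem exists_move (hP : IsProjH π H P) {d : ℝ} (hd : 0 < d) : ∃ R : I → V → V,
    (Continuous fun w : I × V => R w.1 w.2) ∧ (∀ s γ z, R s (π γ z) = π γ (R s z)) ∧
    (∀ s z, ‖z - R s z‖ ≤ d) ∧ (∀ z, R 0 z = z) ∧ ∀ z, nn π (z - P z) ≤ d → R 1 z = P z := by
  have hm : ∀ z, 0 < max (nn π (z - P z)) d := fun z => lt_max_of_lt_right hd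
  refine ⟨fun s z => z - ((s : ℝ) * (d / max (nn π (z - P z)) d)) • (z - P z), ?_,
    fun s γ z => ?_, fun s z => ?_, fun z => by simp, fun z hz => ?_⟩
  · have c : Continuous fun w : I × V => w.2 - P w.2 := by fun_prop
    exact continuous_snd.sub (((continuous_subtype_val.comp continuous_fst).mul
      (continuous_const.div ((cont_nn.comp c).max continuous_const) fun w => (hm _).ne')).smul c)
  · simp only [hP.comm, ← map_sub, nn_pi, ← map_smul]
  · have a1 : 0 ≤ d / max (nn π (z - P z)) d := (div_pos hd (hm z)).le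
    have a2 : d / max (nn π (z - P z)) d * ‖z - P z‖ ≤ d := by
      rw [div_mul_eq_mul_div, div_le_iff₀ (hm z)]
      exact mul_le_mul_of_nonneg_left ((le_nn _).trans (le_max_left _ _)) hd.le
    rw [sub_sub_cancel, norm_smul, Real.norm_eq_abs, abs_of_nonneg (mul_nonneg s.2.1 a1), mul_assoc]
    exact (mul_le_of_le_one_left (mul_nonneg a1 (norm_nonneg _)) s.2.2).trans a2
  · simp only [max_eq_right hz, div_self hd.ne', Icc.coe_one, mul_one, one_smul, sub_sub_cancel]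

end Red

open Red in
theorem stRed : StRed := by
  classical
  intro V _ _ _ π D hD hF
  suffices key : ∀ (FF : Finset (Subgroup G3)) O Φ ε, IsQ π O Φ ε →
      (∀ K : Subgroup G3, (∃ y ∈ O, ∀ γ ∈ K, π γ y.2 = y.2) → K ∈ FF) → D O Φ ε = 0 from
    fun O Φ ε h => key (Set.toFinite univ).toFinset O Φ ε h fun K _ => by simp
  intro FF
  induction FF using Finset.strongInduction with
  | H FF ih =>
  intro O Φ ε h hFF
  rcases O.eq_empty_or_nonempty with rfl | ⟨y₀, hy₀⟩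
  · have := hD.add ∅ ∅ Φ ε h h disjoint_bot_left
    rw [union_self] at this
    exact left_eq_add.1 this
  obtain ⟨H, hH⟩ := (Set.toFinite {K : Subgroup G3 | ∃ y ∈ O, ∀ γ ∈ K, π γ y.2 = y.2}).exists_maximal
    ⟨⊥, y₀, hy₀, fun γ hγ => by rw [Subgroup.mem_bot.1 hγ, map_one]; rfl⟩
  obtain ⟨P, hP⟩ := exists_proj π H
  obtain ⟨U, L, d, u1, l1, ul, lo, hd, u2, u3, u4⟩ := exists_nbhd h
  obtain ⟨R, r1, r2, r3, r4, r5⟩ := exists_move hP hd
  have hq := isQ_move h u1 l1 ul lo u2 u4 r1 r2 r3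
  have e0 := hD.exc _ _ _ _ _ _ h (isQ_slice hq 0)
    (fun y k => by simpa only [atL, r4] using lo (ul k))
    (fun y a1 a2 a3 => by simpa only [mem_preimage, mem_ofPred_eq, atL, r4] using u3 y a1 a2 a3)
    (fun y _ => by simp only [atL, r4, sub_self, zero_add, and_self])
  have q1 := isQ_slice hq 1
  rw [← e0, hD.hom _ _ _ hq]
  set O₁ := atL 1 ⁻¹' {w : (I × ℝ) × V | (w.1.2, R w.1.1 w.2) ∈ U} with hO₁
  have m1 : ∀ y, y ∈ O₁ ↔ (y.1, R 1 y.2) ∈ U := fun y => Iff.rfl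
  set A : Set (ℝ × V) := {y | nn π (y.2 - P y.2) < d} with hA
  set A' : Set (ℝ × V) := {y | d < nn π (y.2 - P y.2)} with hA'
  have cn : Continuous fun y : ℝ × V => nn π (y.2 - P y.2) := cont_nn.comp (by fun_prop)
  have oA : IsOpen A := isOpen_lt cn continuous_const
  have oA' : IsOpen A' := isOpen_lt continuous_const cn
  have inv : ∀ γ z, nn π (π γ z - P (π γ z)) = nn π (z - P z) := fun γ z => by
    rw [hP.comm, ← map_sub, nn_pi]
  have dis : Disjoint A A' := disjoint_left.2 fun y a b =>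
    lt_asymm (show nn π (y.2 - P y.2) < d from a) b
  have cov : ∀ y ∈ O₁, y.2 - R 1 y.2 + Φ (y.1, R 1 y.2) = 0 → y ∈ A ∨ y ∈ A' := by
    intro y a1 a2
    refine (le_or_gt (nn π (y.2 - P y.2)) d).imp (fun c => ?_) id
    rw [m1, r5 _ c] at a1
    rw [r5 _ c] at a2
    show nn π (y.2 - P y.2) < d
    rwa [(zero_prod h hP (lo (ul a1)) a2).1, sub_self, nn_zero]
  have qA := isQ_part q1 oA oA' (fun γ p z k => (inv γ z).trans_lt k) dis fun y a b _ => cov y a b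
  have qA' := isQ_part q1 oA' oA (fun γ p z k => lt_of_lt_of_eq k (inv γ z).symm) dis.symm
    fun y a b _ => (cov y a b).symm
  have qU := isQ_part q1 (oA.union oA') isOpen_empty
    (fun γ p z k => k.imp (fun c => (inv γ z).trans_lt c) fun c => lt_of_lt_of_eq c (inv γ z).symm)
    disjoint_bot_right fun y a b _ => Or.inl (cov y a b)
  rw [← hD.exc _ _ _ _ _ _ q1 qU inter_subset_left (fun y a b _ => ⟨a, cov y a b⟩)
    fun y _ => ⟨rfl, rfl⟩, inter_union_distrib_left,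
    hD.add _ _ _ _ qA qA' (dis.mono inter_subset_right inter_subset_right)]
  have qP := isQ_prod h hP
  rw [hD.exc _ _ _ _ _ _ qP qA (fun y k => ?_) (fun y a1 a2 a3 => ?_) (fun y k => ?_),
    hF H P O Φ ε hP h (fun y a1 a2 γ a3 => ?_) qP, zero_add]
  · refine ih (FF.erase H) (Finset.erase_ssubset (hFF H hH.1)) _ _ _ qA' ?_
    rintro K ⟨y, ⟨a1, a2⟩, a3⟩
    refine Finset.mem_erase.2 ⟨?_, hFF K ⟨_, lo (ul ((m1 y).1 a1)), fun γ hγ => ?_⟩⟩
    · rintro rfl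
      have : d < nn π (y.2 - P y.2) := a2
      rw [hP.id _ a3, sub_self, nn_zero] at this
      exact lt_asymm hd this
    · simp only [← r2, a3 γ hγ]
  · let K : Subgroup G3 :=
      { carrier := {γ | π γ y.2 = y.2}
        one_mem' := by simp
        mul_mem' := fun {a b} (ha : π a y.2 = y.2) (hb : π b y.2 = y.2) =>
          show π (a * b) y.2 = y.2 by rw [pi_mul, hb, ha]
        inv_mem' := fun {a} (ha : π a y.2 = y.2) => show π a⁻¹ y.2 = y.2 by
          nth_rewrite 1 [← ha]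
          rw [← pi_mul, inv_mul_cancel, map_one]
          rfl }
    refine hH.2 (y := K) ⟨y, a1, fun _ k => k⟩ (fun g hg => ?_) a3
    show π g y.2 = y.2
    rw [← a2, hP.fix g hg]
  · have := (m1 y).1 k.1
    rw [r5 _ (le_of_lt k.2)] at this
    exact lo (ul this)
  · obtain ⟨b1, b2⟩ := zero_prod h hP a1 a2
    have b3 : nn π (y.2 - P y.2) < d := by rwa [b1, sub_self, nn_zero]
    refine ⟨(m1 y).2 ?_, b3⟩
    rw [r5 _ b3.le]
    exact u3 _ a1 (by rw [b1]; exact b2) a3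
  · simp only [atL, r5 _ (le_of_lt k.2), and_self]

end Vale.Agent.P220Z.Def
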