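import Vale.Agent.P220Z.Def.Nw
import Vale.Agent.P220Z.Deg.Basic

/-!
# P220, the rules for the winding number `w5`
-/

open Set Topology
open scoped unitInterval

namespace Vale.Agent.P220Z.Def

open Vale.Agent.P220Z.Deg

namespace Wi

theorem cpt_of {X : Type} [TopologicalSpace X] {A B : Set X} (h : IsCompact A)
    (e : ∀ x, x ∈ B ↔ x ∈ A) : IsCompact B := (Set.ext e : B = A) ▸ h

theorem cpt_cl {X Y : Type} [TopologicalSpace X] [T2Space X] [TopologicalSpace Y] {K B : Set X}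
    (h : IsCompact K) {f : X → Y} (hf : ContinuousOn f K) {C : Set Y} (hC : IsClosed C)
    (e : ∀ x, x ∈ B ↔ x ∈ K ∧ f x ∈ C) : IsCompact B :=
  cpt_of (h.of_isClosed_subset (hf.preimage_isClosed_of_isClosed h.isClosed hC)
    inter_subset_left) e

variable {V : Type} [NormedAddCommGroup V] [NormedSpace ℝ V] {P : Type} [TopologicalSpace P]
  {s : V →L[ℝ] V} {O : Set (P × V)} {Φ : P × V → V}

theorem pow_mem (h : IsLp s O Φ) (k : ℕ) {p : P} {z : V} (hz : (p, z) ∈ O) :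
    (p, (s ^ k) z) ∈ O ∧ Φ (p, (s ^ k) z) = (s ^ k) (Φ (p, z)) := by
  induction k with
  | zero => exact ⟨hz, rfl⟩
  | succ k ih =>
    rw [pow_succ']
    exact ⟨h.mem _ _ ih.1, (h.eq _ _ ih.1).trans (congrArg s ih.2)⟩

theorem pow_lab (h : IsLp s O Φ) {ε : P × V → ℂ}
    (he : ∀ t z, (t, z) ∈ O → ε (t, s z) = om 1 * ε (t, z)) (k : ℕ) {p : P} {z : V}
    (hz : (p, z) ∈ O) : ε (p, (s ^ k) z) = om k * ε (p, z) := by
  induction k with
  | zero => simp [om_zero]
  | succ k ih =>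
    rw [pow_succ', Nat.cast_succ, add_comm, om_add, mul_assoc, ← ih]
    exact he _ _ (pow_mem h k hz).1

theorem cyc_free (h : IsLp s O Φ) (g : C5) {y : P × V} (hy : y ∈ O)
    (hg : cyc s h.ord g y.2 = y.2) : g = 1 := by
  by_contra hne
  have key : ∀ g : C5, g ≠ 1 → ∃ m : Fin 5, g ^ m.val = Multiplicative.ofAdd 1 := by decide
  obtain ⟨m, hm⟩ := key g hne
  have h1 : ∀ k : ℕ, cyc s h.ord (g ^ k) y.2 = y.2 := fun k => by
    induction k with
    | zero => simp
    | succ k ih => rw [pow_succ, map_mul, mul_apply_eq_comp, hg, ih]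
  have h2 := h1 m
  rw [hm] at h2
  exact h.free y hy ((congrArg (fun f : V →L[ℝ] V => f y.2) (pow_one s).symm).trans h2)

variable [FiniteDimensional ℝ V]

theorem zero_mem_rays : (0 : ℂ) ∈ Rays := ⟨0, le_rfl, by simp⟩

theorem eg {O : Set (ℝ × V)} {Φ : ℝ × V → V} (h : IsLp s O Φ) {ε : ℝ × V → ℂ}
    (hc : ContinuousOn ε O) (he : ∀ t z, (t, z) ∈ O → ε (t, s z) = om 1 * ε (t, z)) :
    EG (S1 s h.ord) O fun y => (Φ y, fun _ => ε y) := by
  have h0 : ContinuousOn (fun y => ((Φ y, fun _ => ε y) : V × (Unit → ℂ))) O :=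
    h.cont.prodMk (continuousOn_pi.2 fun _ => hc)
  refine ⟨h.op, h0, ?_, fun g x hx => (pow_mem h _ hx).1, fun g x hx => Prod.ext
    (pow_mem h _ hx).2 (funext fun _ => ?_), fun g x hx hg => cyc_free h g hx (congrArg Prod.snd hg)⟩
  · exact cpt_cl h.cpt (h0.mono fun x hx => hx.1) isClosed_star fun x =>
      ⟨fun hx => ⟨⟨hx.1, hx.2.1⟩, hx.2⟩, fun hx => ⟨hx.1.1, hx.2⟩⟩
  · have h1 := pow_lab h he g.toAdd.val (p := x.1) (z := x.2) hx
    rw [ZMod.natCast_zmod_val] at h1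
    exact h1

theorem eg0 {O : Set (ℝ × V)} {Φ : ℝ × V → V} (h : IsLp s O Φ) :
    EG (S1 s h.ord) O fun y => (Φ y, fun _ => 0) :=
  eg h (ε := fun _ => 0) continuousOn_const fun _ _ _ => (mul_zero _).symm

theorem w5_eq (h : s ^ 5 = 1) (O : Set (ℝ × V)) (Φ : ℝ × V → V) :
    w5 V s O Φ = (S1 s h).cnt O fun y => (Φ y, fun _ => 0) := dif_pos h

/-- the coordinates of the map `windMap` -/
noncomputable def cB (V : Type) [NormedAddCommGroup V] [NormedSpace ℝ V] :
    (V × ℂ) ≃ₗ[ℝ] ((Unit → ℝ) × (ℝ × V)) where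
  toFun y := (fun _ => y.2.re, (y.2.im, y.1))
  invFun x := (x.2.2, ⟨x.1 (), x.2.1⟩)
  map_add' y y' := Prod.ext (funext fun _ => by simp) (Prod.ext (by simp) rfl)
  map_smul' r y := Prod.ext (funext fun _ => by simp) (Prod.ext (by simp) rfl)
  left_inv _ := rfl
  right_inv _ := rfl

end Wi

open Wi in
/-- The rules for the winding number hold. -/
theorem isW_w5 (hC : Deg.StCnt) (hL : Deg.StLin) : IsW w5 := by
  refine ⟨fun V _ _ _ s O Φ ε h hc he hne => ?_, fun V _ _ _ s O Φ O' Φ' h h' hs hz he => ?_,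
    fun V _ _ _ s O O' Φ h h' hd => ?_, fun V _ _ _ s O Φ h => ?_⟩
  · have hA := hC _ _ _ _ (S1 s h.ord)
    have hE := eg h hc he
    have hg : ∀ x ∈ O, ((Φ x, fun _ => ε x) : V × (Unit → ℂ)) ∉ Face Unit V :=
      fun x hx hf => hne x hx hf.1 (by obtain ⟨_, h0⟩ := hf.2.2; exact h0)
    have h0 : ContinuousOn (fun p : ℝ × (ℝ × V) =>
        ((Φ p.2, fun _ => p.1 * ε p.2) : V × (Unit → ℂ))) {p | p.2 ∈ O} :=
      (h.cont.comp continuousOn_snd fun _ hp => hp).prodMk (continuousOn_pi.2 fun _ =>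
        (Complex.continuous_ofReal.comp continuous_fst).continuousOn.mul
          (hc.comp continuousOn_snd fun _ hp => hp))
    have h1 := hA.htpy {p | p.2 ∈ O} (fun p => (Φ p.2, fun _ => p.1 * ε p.2))
      ⟨h.op.preimage continuous_snd, h0.mono fun p hp => hp.1, ?_,
        fun g _ _ x hx => hE.inv g x hx, fun g r _ x hx => ?_, fun g _ _ x hx => hE.free g x hx⟩
    · simp only [Complex.ofReal_zero, zero_mul, Complex.ofReal_one, one_mul] at h1
      rw [w5_eq h.ord]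
      refine (h1.trans (hA.gen O _ hE hg)).trans (congrArg _ ?_)
      have h2 := hL _ _ (cB V).toContinuousLinearEquiv.symm (cB V).toContinuousLinearEquiv _ _
        ((S1 s h.ord).germ_Th h.op hE.cont hE.cpt hg)
      rw [ContinuousLinearEquiv.coe_comp_coe_symm] at h2
      have h3 : (ContinuousLinearMap.id ℝ ((Unit → ℝ) × (ℝ × V))).det = 1 := LinearMap.det_id
      rw [h3, P205.TI.Deg.sg_pos one_pos, one_mul] at h2
      refine h2.symm.trans (congrArg₂ pdeg (Set.ext fun y => ?_) rfl)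
      exact ⟨fun hy => ⟨hy.1 (), hy.2⟩, fun hy => ⟨fun _ => hy.1, hy.2⟩⟩
    · exact cpt_cl ((isCompact_Icc (a := (0 : ℝ)) (b := 1)).prod h.cpt)
        (h0.mono fun x hx => hx.2.1) isClosed_star fun x =>
        ⟨fun hx => ⟨⟨hx.2.1, hx.1, hx.2.2.1⟩, hx.2.2⟩, fun hx => ⟨hx.1.2.1, hx.1.1, hx.2⟩⟩
    · have h2 := hE.equi g x hx
      refine Prod.ext (congrArg Prod.fst h2 :) (funext fun i => ?_)
      have h3 : ε ((S1 s h.ord).ac g x) = (S1 s h.ord).χ i g * ε x :=
        congrFun (congrArg Prod.snd h2) i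
      show (r : ℂ) * ε ((S1 s h.ord).ac g x) = (S1 s h.ord).χ i g * (r * ε x)
      rw [h3, mul_left_comm]
  · have hA := hC _ _ _ _ (S1 s h.ord)
    rw [w5_eq h.ord, w5_eq h.ord, ← hA.mono O O' _ (eg0 h) h'.op hs (eg0 h').inv
      fun x hx h0 => hz x hx h0.1]
    exact (hA.congr O' _ _ (eg0 h') fun x hx => by rw [he x hx]).symm
  · have hA := hC _ _ _ _ (S1 s h.ord)
    have hU : IsLp s (O ∪ O') Φ := ⟨h.ord, h.op.union h'.op,
      h.cont.union_of_isOpen h'.cont h.op h'.op,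
      fun p z hz => hz.imp (h.mem p z) (h'.mem p z),
      fun p z hz => hz.elim (h.eq p z) (h'.eq p z), fun y hy => hy.elim (h.free y) (h'.free y),
      cpt_of (h.cpt.union h'.cpt) fun _ => or_and_right⟩
    rw [w5_eq h.ord, w5_eq h.ord, w5_eq h.ord]
    exact hA.add _ O O' _ (eg0 hU) h.op h'.op subset_union_left subset_union_right (eg0 h).inv
      (eg0 h').inv hd fun x hx _ => hx
  · have hA := hC _ _ _ _ (S1 s h.ord)
    have hc : Continuous fun p : ℝ × (ℝ × V) =>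
        (((projIcc 0 1 zero_le_one p.1 : I), p.2.1), p.2.2) :=
      ((continuous_projIcc.comp continuous_fst).prodMk (by fun_prop)).prodMk (by fun_prop)
    have h1 := hA.htpy {p | ((projIcc 0 1 zero_le_one p.1, p.2.1), p.2.2) ∈ O}
      (fun p => (Φ ((projIcc 0 1 zero_le_one p.1, p.2.1), p.2.2), fun _ => 0))
      ⟨h.op.preimage hc, (h.cont.comp hc.continuousOn fun _ hp => hp.1).prodMk continuousOn_const,
        ?_, fun g _ _ x hx => (pow_mem h _ hx).1, fun g r _ x hx => Prod.ext (pow_mem h _ hx).2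
          (funext fun _ => (mul_zero _).symm),
        fun g _ _ x hx hg => cyc_free h g hx (congrArg Prod.snd hg)⟩
    · simp only [mem_ofPred_eq, projIcc_left, projIcc_right] at h1
      rw [w5_eq h.ord, w5_eq h.ord]
      exact h1
    · have h2 := h.cpt.image (f := fun y : (I × ℝ) × V => ((y.1.1 : ℝ), (y.1.2, y.2)))
        (by fun_prop)
      refine cpt_of h2 fun p => ⟨fun hp => ?_, ?_⟩
      · refine ⟨_, ⟨hp.1, hp.2.2.1⟩, Prod.ext ?_ rfl⟩
        exact congrArg Subtype.val (projIcc_of_mem zero_le_one hp.2.1)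
      · rintro ⟨y, hy, rfl⟩
        simp only [mem_ofPred_eq, projIcc_val]
        exact ⟨hy.1, y.1.1.2, hy.2, fun _ => zero_mem_rays⟩

end Vale.Agent.P220Z.Def
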