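import Vale.Agent.P220Z.Def.IsN3
import Vale.Agent.P220Z.Def.Lift
import Vale.Agent.P220Z.Def.Red
import Vale.Agent.P220Z.Def.Form
import Vale.Agent.P220Z.Def.Main
import Vale.Agent.P220Z.Def.Loc
import Vale.Agent.P220Z.Def.Wind
import Vale.Agent.P220Z.Deg.All

/-!
# P220, the toolkit from the two remaining steps
-/

namespace Vale.Agent.P220Z.Def

theorem isN5 : IsN n5 := isN_n5 Deg.stCnt Deg.symm5 Deg.susp5

theorem isW5 : IsW w5 := isW_w5 Deg.stCnt Deg.stLin

theorem loc5_of (h5 : StLab) (hB : StBase) : Loc n5 w5 4 :=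
  loc_of stLift stRed (stForm stLift) stGrp h5 (stVan stLift)
    (stMain Deg.stCnt Deg.stLin Deg.stProdDeg (stE Deg.stCnt) hB stLift isN5) isN5 isW5

theorem stTool_of (h5 : StLab) (hB : StBase) : StTool :=
  ⟨n5, w5, 4, by decide, isN5, isW5, loc5_of h5 hB⟩

end Vale.Agent.P220Z.Def
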