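import Vale.Agent.P220Z.Def.Nw

/-!
# P220, the germ of a problem
-/

open Set Topology
open scoped unitInterval

namespace Vale.Agent.P220Z.Def

open Vale.Agent.P220Z.Deg

theorem om_val (k : ZMod 5) : (om k : ℂ) = Complex.exp (2 * Real.pi * Complex.I / (5 : ℕ)) ^ k.val := by
  rw [om, ZMod.toCircle_apply, ← Complex.exp_nat_mul]
  congr 1
  ring

theorem rays_eq : Rays = RR := by
  ext z
  constructor
  · rintro ⟨r, hr, h⟩
    by_cases h0 : z = 0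
    · exact ⟨0, 0, le_rfl, by simp [h0]⟩
    have hn : (‖z‖ : ℂ) ≠ 0 := by simpa using h0
    have h1 : (r : ℂ) = (‖z‖ : ℂ) ^ 5 := by
      have := congrArg norm h
      rw [norm_pow, Complex.norm_real, Real.norm_of_nonneg hr] at this
      exact_mod_cast this.symm
    have h2 : (z / ‖z‖) ^ 5 = 1 := by rw [div_pow, h, h1, div_self (pow_ne_zero _ hn)]
    obtain ⟨i, hi, h3⟩ := (Complex.isPrimitiveRoot_exp 5 (by norm_num)).eq_pow_of_pow_eq_one h2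
    refine ⟨i, ‖z‖, norm_nonneg _, ?_⟩
    rw [om_val, ZMod.val_natCast_of_lt hi, h3, mul_div_cancel₀ _ hn]
  · rintro ⟨k, r, hr, rfl⟩
    exact ⟨r ^ 5, pow_nonneg hr _, by rw [mul_pow, om_pow]; simp⟩

theorem isClosed_RR : IsClosed RR := by
  rw [← rays_eq]
  have : Rays = (fun z : ℂ => z ^ 5) ⁻¹' (Complex.ofReal '' Ici 0) := by
    ext z
    exact ⟨fun ⟨r, hr, h⟩ => ⟨r, hr, h.symm⟩, fun ⟨r, hr, h⟩ => ⟨r, hr, h.symm⟩⟩
  rw [this]
  exact (Complex.isometry_ofReal.isClosedEmbedding.isClosedMap _ isClosed_Ici).preimage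
    (by fun_prop)

theorem zero_mem_RR : (0 : ℂ) ∈ RR := ⟨0, 0, le_rfl, by simp⟩

theorem om_eq_one {k : ZMod 5} (h : (om k : ℂ) = 1) : k = 0 := by
  have h1 : om k = om 0 := Circle.ext (by rw [h, om_zero])
  exact ZMod.injective_toCircle h1

theorem β5_fst (g : G5) (b : EB5) : (β5 g b).fst = (om g.toAdd.1 : ℂ) • b.fst := rfl

theorem β5_snd (g : G5) (b : EB5) : (β5 g b).snd = (om g.toAdd.2 : ℂ) • b.snd := rfl

theorem nrm_fst (b : EB5) : (nrm b).fst = ‖b.fst‖⁻¹ • b.fst := rfl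

theorem nrm_snd (b : EB5) : (nrm b).snd = ‖b.snd‖⁻¹ • b.snd := rfl

theorem extB' {b b' : EB5} (h1 : b.fst = b'.fst) (h2 : b.snd = b'.snd) : b = b' :=
  extB (fun _ => by rw [h1]) fun _ => by rw [h2]

theorem nrm_mem {b : EB5} (h1 : b.fst ≠ 0) (h2 : b.snd ≠ 0) : nrm b ∈ B5 :=
  ⟨norm_smul_inv_norm (𝕜 := ℝ) h1, norm_smul_inv_norm (𝕜 := ℝ) h2⟩

theorem nrm_of_mem {b : EB5} (h : b ∈ B5) : nrm b = b :=
  extB' (by rw [nrm_fst, h.1, inv_one, one_smul]) (by rw [nrm_snd, h.2, inv_one, one_smul])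

theorem norm_β5_fst (g : G5) (b : EB5) : ‖(β5 g b).fst‖ = ‖b.fst‖ := by
  rw [β5_fst, norm_smul, Circle.norm_coe, one_mul]

theorem norm_β5_snd (g : G5) (b : EB5) : ‖(β5 g b).snd‖ = ‖b.snd‖ := by
  rw [β5_snd, norm_smul, Circle.norm_coe, one_mul]

theorem nrm_β5 (g : G5) (b : EB5) : nrm (β5 g b) = β5 g (nrm b) :=
  extB' (by rw [nrm_fst, norm_β5_fst, β5_fst, β5_fst, nrm_fst, smul_comm])
    (by rw [nrm_snd, norm_β5_snd, β5_snd, β5_snd, nrm_snd, smul_comm])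

theorem B5_ne {b : EB5} (h : b ∈ B5) : b.fst ≠ 0 ∧ b.snd ≠ 0 :=
  ⟨norm_ne_zero_iff.1 (by rw [h.1]; exact one_ne_zero),
    norm_ne_zero_iff.1 (by rw [h.2]; exact one_ne_zero)⟩

theorem β5_free {g : G5} {b : EB5} (h1 : b.fst ≠ 0) (h2 : b.snd ≠ 0) (h : β5 g b = b) : g = 1 := by
  have a1 : (om g.toAdd.1 : ℂ) • b.fst = (1 : ℂ) • b.fst := by rw [one_smul, ← β5_fst, h]
  have a2 : (om g.toAdd.2 : ℂ) • b.snd = (1 : ℂ) • b.snd := by rw [one_smul, ← β5_snd, h]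
  exact Prod.ext (om_eq_one (smul_left_injective ℂ h1 a1)) (om_eq_one (smul_left_injective ℂ h2 a2))

theorem contOn_nrm : ContinuousOn nrm {b | b.fst ≠ 0 ∧ b.snd ≠ 0} := by
  have c1 : Continuous fun b : EB5 => b.fst := by fun_prop
  have c2 : Continuous fun b : EB5 => b.snd := by fun_prop
  refine (WithLp.prod_continuous_toLp 2 _ _).comp_continuousOn (ContinuousOn.prodMk ?_ ?_)
  · exact (c1.norm.continuousOn.inv₀ fun b hb => norm_ne_zero_iff.2 hb.1).smul c1.continuousOn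
  · exact (c2.norm.continuousOn.inv₀ fun b hb => norm_ne_zero_iff.2 hb.2).smul c2.continuousOn

theorem isOpen_ne : IsOpen {b : EB5 | b.fst ≠ 0 ∧ b.snd ≠ 0} :=
  (isOpen_ne_fun (by fun_prop) continuous_const).inter
    (isOpen_ne_fun (by fun_prop) continuous_const)

theorem cpt_of_iff {X : Type} [TopologicalSpace X] {s t : Set X} (hs : IsCompact s)
    (h : ∀ x, x ∈ t ↔ x ∈ s) : IsCompact t := (Set.ext h : t = s) ▸ hs

variable {V : Type} [NormedAddCommGroup V] [NormedSpace ℝ V] {π : G3 →* (V →L[ℝ] V)}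

theorem sig_free {z : V} (h : π sig z ≠ z) {γ : G3} (h1 : γ.1 = 1) (h2 : π γ z = z) : γ = 1 := by
  by_contra hne
  have h3 : ∀ n : ℕ, π (γ ^ n) z = z := fun n => by
    induction n with
    | zero => simp
    | succ n ih => rw [pow_succ, map_mul, mul_apply_eq_comp, h2, ih]
  obtain ⟨g, k⟩ := γ
  obtain rfl : g = 1 := h1
  have h4 : ∀ k : C5, ((1 : G5), k) ≠ 1 → ∃ n : Fin 5, ((1 : G5), k) ^ (n : ℕ) = sig := by decide
  obtain ⟨n, hn⟩ := h4 k hne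
  exact h (hn ▸ h3 n)

/-- nine equivariant functions on a family of problems -/
structure IsE {P : Type} [TopologicalSpace P] (π : G3 →* (V →L[ℝ] V)) (O : Set (P × EB5 × V))
    (e : P × EB5 × V → Fin 9 → ℂ) : Prop where
  cont : ContinuousOn e O
  eq : ∀ γ p b z, (p, b, z) ∈ O → e (p, β5 γ.1 b, π γ z) = (om γ.2.toAdd : ℂ) • e (p, b, z)

theorem isE_zero {P : Type} [TopologicalSpace P] (O : Set (P × EB5 × V)) : IsE π O 0 :=
  ⟨continuousOn_const, fun _ _ _ _ _ => by simp⟩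

section General

variable {P : Type} [TopologicalSpace P] {O : Set (P × EB5 × V)} {Φ : P × EB5 × V → V}
  {ε : P × EB5 × V → ℂ} {e : P × EB5 × V → Fin 9 → ℂ} {Y : Type} [TopologicalSpace Y]
  {q : Y → P} {b : Y → EB5} {z : Y → V}

omit [NormedSpace ℝ V] in
theorem contOn_dn (hq : Continuous q) (hb : Continuous b) (hz : Continuous z) :
    ContinuousOn (fun y => (q y, nrm (b y), z y)) {y | (b y).fst ≠ 0 ∧ (b y).snd ≠ 0} :=
  hq.continuousOn.prodMk ((contOn_nrm.comp hb.continuousOn fun _ hy => hy).prodMk hz.continuousOn)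

theorem IsPr.isOpen_ext (h : IsPr π O Φ ε) (hq : Continuous q) (hb : Continuous b)
    (hz : Continuous z) :
    IsOpen {y | (b y).fst ≠ 0 ∧ (b y).snd ≠ 0 ∧ (q y, nrm (b y), z y) ∈ O} := by
  refine isOpen_iff_mem_nhds.2 fun y hy => ?_
  have h1 : {y | (b y).fst ≠ 0 ∧ (b y).snd ≠ 0} ∈ 𝓝 y :=
    (isOpen_ne.preimage hb).mem_nhds ⟨hy.1, hy.2.1⟩
  have h2 := (contOn_dn hq hb hz y ⟨hy.1, hy.2.1⟩).tendsto_nhdsWithin
    (t := {v : P × EB5 × V | v.2.1 ∈ B5}) fun y hy => nrm_mem hy.1 hy.2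
  have h3 := h2 (h.op _ hy.2.2)
  rw [nhdsWithin_eq_nhds.2 h1] at h3
  filter_upwards [h1, h3] with x a1 a2
  exact ⟨a1.1, a1.2, a2⟩

theorem IsPr.cont_ext (h : IsPr π O Φ ε) (he : IsE π O e) (hq : Continuous q)
    (hb : Continuous b) (hz : Continuous z) :
    ContinuousOn (fun y => (((((‖(b y).fst‖ - 1, ‖(b y).snd‖ - 1), e (q y, nrm (b y), z y)),
      Φ (q y, nrm (b y), z y)), ![(b y).fst 0, (b y).snd 0, ε (q y, nrm (b y), z y)]) :
        (T0 × V) × (Fin 3 → ℂ)))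
      {y | (b y).fst ≠ 0 ∧ (b y).snd ≠ 0 ∧ (q y, nrm (b y), z y) ∈ O} := by
  have h1 : ContinuousOn (fun y => (q y, nrm (b y), z y))
      {y | (b y).fst ≠ 0 ∧ (b y).snd ≠ 0 ∧ (q y, nrm (b y), z y) ∈ O} :=
    (contOn_dn hq hb hz).mono fun y hy => ⟨hy.1, hy.2.1⟩
  refine ContinuousOn.prodMk (ContinuousOn.prodMk (ContinuousOn.prodMk (by fun_prop)
    (he.cont.comp h1 fun y hy => hy.2.2)) (h.cont.comp h1 fun y hy => hy.2.2))
    (continuousOn_pi.2 fun i => ?_)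
  fin_cases i
  · exact (by fun_prop : Continuous fun y => (b y).fst 0).continuousOn
  · exact (by fun_prop : Continuous fun y => (b y).snd 0).continuousOn
  · exact h.conte.comp h1 fun y hy => hy.2.2

theorem IsPr.cptE [T2Space P] (h : IsPr π O Φ ε) (he : IsE π O e) :
    IsCompact {w | (w ∈ O ∧ Φ w = 0 ∧ ε w ∈ RR) ∧ e w = 0 ∧ w.2.1.fst 0 ∈ RR ∧
      w.2.1.snd 0 ∈ RR} := by
  have h1 := (he.cont.mono (t := {w | w ∈ O ∧ Φ w = 0 ∧ ε w ∈ RR})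
    fun w hw => hw.1).preimage_isClosed_of_isClosed h.cpt.isClosed (isClosed_singleton (x := 0))
  have h2 : IsClosed {w : P × EB5 × V | w.2.1.fst 0 ∈ RR} := isClosed_RR.preimage (by fun_prop)
  have h3 : IsClosed {w : P × EB5 × V | w.2.1.snd 0 ∈ RR} := isClosed_RR.preimage (by fun_prop)
  refine h.cpt.of_isClosed_subset ?_ fun w hw => hw.1
  convert h1.inter (h2.inter h3) using 1
  ext w
  simp only [mem_ofPred_eq, mem_inter_iff, mem_preimage, mem_singleton_iff, and_assoc]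

end General

section Alg

variable {O : Set (ℝ × EB5 × V)} {Φ : ℝ × EB5 × V → V} {ε : ℝ × EB5 × V → ℂ}
  {e : ℝ × EB5 × V → Fin 9 → ℂ}

omit [NormedSpace ℝ V] in
theorem extF_star (x : W0 × V) : extF Φ ε e x ∈ Deg.Star (Fin 3) (T0 × V) ↔ x.1.2 ∈ B5 ∧
    Φ (dn x) = 0 ∧ ε (dn x) ∈ RR ∧ e (dn x) = 0 ∧ x.1.2.fst 0 ∈ RR ∧ x.1.2.snd 0 ∈ RR := by
  simp only [Deg.Star, extF, mem_ofPred_eq, Prod.mk_eq_zero, sub_eq_zero, Fin.forall_fin_succ, rays_eq,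
    B5]
  simp
  tauto

theorem dn_ac (γ : G3) (x : W0 × V) :
    dn ((S5 π).ac γ x) = (x.1.1, β5 γ.1 (nrm x.1.2), π γ x.2) :=
  Prod.ext rfl (Prod.ext (nrm_β5 γ.1 x.1.2) rfl)

theorem ext_inv (hm : ∀ γ p b z, (p, b, z) ∈ O → (p, β5 γ.1 b, π γ z) ∈ O) (γ : G3) (x : W0 × V)
    (hx : x ∈ extO O) : (S5 π).ac γ x ∈ extO O := by
  refine ⟨norm_ne_zero_iff.1 ?_, norm_ne_zero_iff.1 ?_, ?_⟩
  · exact (norm_β5_fst γ.1 x.1.2).trans_ne (norm_ne_zero_iff.2 hx.1)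
  · exact (norm_β5_snd γ.1 x.1.2).trans_ne (norm_ne_zero_iff.2 hx.2.1)
  · rw [dn_ac]
    exact hm γ _ _ _ hx.2.2

theorem ext_equi (γ : G3) (x : W0 × V)
    (h1 : Φ (x.1.1, β5 γ.1 (nrm x.1.2), π γ x.2) = π γ (Φ (dn x)))
    (h2 : ε (x.1.1, β5 γ.1 (nrm x.1.2), π γ x.2) = om γ.2.toAdd * ε (dn x))
    (h3 : e (x.1.1, β5 γ.1 (nrm x.1.2), π γ x.2) = (om γ.2.toAdd : ℂ) • e (dn x)) :
    extF Φ ε e ((S5 π).ac γ x) = (S5 π).act γ (extF Φ ε e x) := by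
  rw [extF, dn_ac, h1, h2, h3]
  refine Prod.ext (Prod.ext (Prod.ext (Prod.ext ?_ ?_) rfl) rfl) (funext fun i => ?_)
  · exact congrArg (· - 1) (norm_β5_fst γ.1 x.1.2)
  · exact congrArg (· - 1) (norm_β5_snd γ.1 x.1.2)
  · fin_cases i <;> rfl

theorem ext_free (hf : ∀ w ∈ O, π sig w.2.2 ≠ w.2.2) (γ : G3) (x : W0 × V) (hx : x ∈ extO O)
    (h : (S5 π).ac γ x = x) : γ = 1 :=
  sig_free (hf _ hx.2.2) (β5_free hx.1 hx.2.1 (congrArg (fun y : W0 × V => y.1.2) h))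
    (congrArg (fun y : W0 × V => y.2) h)

/-- the germ of a problem -/
theorem IsPr.eg (h : IsPr π O Φ ε) (he : IsE π O e) : EG (S5 π) (extO O) (extF Φ ε e) := by
  refine ⟨h.isOpen_ext (q := fun x : W0 × V => x.1.1) (b := fun x => x.1.2) (z := fun x => x.2)
      (by fun_prop) (by fun_prop) (by fun_prop),
    h.cont_ext he (q := fun x : W0 × V => x.1.1) (b := fun x => x.1.2) (z := fun x => x.2)
      (by fun_prop) (by fun_prop) (by fun_prop), ?_, ext_inv h.mem,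
    fun γ x hx => ext_equi γ x (h.eq γ _ _ _ hx.2.2) (h.eqe γ _ _ _ hx.2.2) (he.eq γ _ _ _ hx.2.2),
    ext_free h.free⟩
  refine cpt_of_iff ((h.cptE he).image (f := fun w => (((w.1, w.2.1), w.2.2) : W0 × V))
    (by fun_prop)) fun x => ?_
  rw [mem_ofPred_eq, extF_star]
  constructor
  · rintro ⟨⟨-, -, a1⟩, a2, a3, a4, a5, a6, a7⟩
    have h1 : dn x = (x.1.1, x.1.2, x.2) := by rw [dn, nrm_of_mem a2]
    rw [h1] at a1 a3 a4 a5
    exact ⟨(x.1.1, x.1.2, x.2), ⟨⟨a1, a3, a4⟩, a5, a6, a7⟩, rfl⟩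
  · rintro ⟨w, ⟨⟨a1, a3, a4⟩, a5, a6, a7⟩, rfl⟩
    have a2 := h.sub w a1
    have h1 : dn (((w.1, w.2.1), w.2.2) : W0 × V) = w := by rw [dn, nrm_of_mem a2]
    rw [← h1] at a1 a3 a4 a5
    exact ⟨⟨(B5_ne a2).1, (B5_ne a2).2, a1⟩, a2, a3, a4, a5, a6, a7⟩

end Alg

/-- the homotopy of germs of a homotopy of problems -/
theorem IsPr.heg {O : Set ((I × ℝ) × EB5 × V)} {Φ : (I × ℝ) × EB5 × V → V}
    {ε : (I × ℝ) × EB5 × V → ℂ} {e : (I × ℝ) × EB5 × V → Fin 9 → ℂ} (h : IsPr π O Φ ε)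
    (he : IsE π O e) :
    HEG (S5 π) {p | p.2 ∈ extO (atP (projIcc 0 1 zero_le_one p.1) ⁻¹' O)} fun p =>
      extF (fun w => Φ (atP (projIcc 0 1 zero_le_one p.1) w))
        (fun w => ε (atP (projIcc 0 1 zero_le_one p.1) w))
        (fun w => e (atP (projIcc 0 1 zero_le_one p.1) w)) p.2 := by
  have hq : Continuous fun p : ℝ × W0 × V => (projIcc (0 : ℝ) 1 zero_le_one p.1, p.2.1.1) :=
    (continuous_projIcc.comp continuous_fst).prodMk (by fun_prop)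
  have hb : Continuous fun p : ℝ × W0 × V => p.2.1.2 := by fun_prop
  have hz : Continuous fun p : ℝ × W0 × V => p.2.2 := by fun_prop
  refine ⟨h.isOpen_ext hq hb hz, (h.cont_ext he hq hb hz).mono fun p hp => hp.1, ?_,
    fun γ s _ x hx => ext_inv (fun γ p b z hw => h.mem γ _ b z hw) γ x hx,
    fun γ s _ x hx => ext_equi γ x (h.eq γ _ _ _ hx.2.2) (h.eqe γ _ _ _ hx.2.2)
      (he.eq γ _ _ _ hx.2.2),
    fun γ s _ x hx => ext_free (fun w hw => h.free _ hw) γ x hx⟩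
  refine cpt_of_iff ((h.cptE he).image
    (f := fun w => (((w.1.1 : ℝ), ((w.1.2, w.2.1), w.2.2)) : ℝ × W0 × V)) (by fun_prop)) fun p => ?_
  rw [mem_ofPred_eq, extF_star]
  constructor
  · rintro ⟨⟨-, -, a1⟩, hs, a2, a3, a4, a5, a6, a7⟩
    have h1 : atP (projIcc 0 1 zero_le_one p.1) (dn p.2) =
        ((⟨p.1, hs⟩, p.2.1.1), p.2.1.2, p.2.2) := by
      rw [dn, nrm_of_mem a2, projIcc_of_mem _ hs]
      rfl
    rw [mem_preimage] at a1
    rw [h1] at a1 a3 a4 a5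
    exact ⟨_, ⟨⟨a1, a3, a4⟩, a5, a6, a7⟩, rfl⟩
  · rintro ⟨w, ⟨⟨a1, a3, a4⟩, a5, a6, a7⟩, rfl⟩
    have a2 := h.sub w a1
    have h1 : atP (projIcc 0 1 zero_le_one (w.1.1 : ℝ))
        (dn (((w.1.2, w.2.1), w.2.2) : W0 × V)) = w := by
      rw [dn, nrm_of_mem a2, projIcc_val]
      rfl
    rw [← h1] at a1 a3 a4 a5
    exact ⟨⟨(B5_ne a2).1, (B5_ne a2).2, a1⟩, w.1.1.2, a2, a3, a4, a5, a6, a7⟩

end Vale.Agent.P220Z.Def
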