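import Vale.Agent.P220Z.Def.IsN1

/-!
# P220, the rules zero, excision, additivity, homotopy for `n5`
-/

open Set Topology
open scoped unitInterval

namespace Vale.Agent.P220Z.Def

open Vale.Agent.P220Z.Deg

variable {V : Type} [NormedAddCommGroup V] [NormedSpace ℝ V] {π : G3 →* (V →L[ℝ] V)}

/-- pull back of a family along a proper map of the parameter spaces -/
theorem IsPr.comap {P P' : Type} [TopologicalSpace P] [TopologicalSpace P']
    {O : Set (P × EB5 × V)} {Φ : P × EB5 × V → V} {ε : P × EB5 × V → ℂ} (h : IsPr π O Φ ε)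
    {q : P' → P} (hq : IsProperMap q) :
    IsPr π {w : P' × EB5 × V | (q w.1, w.2) ∈ O} (fun w => Φ (q w.1, w.2))
      fun w => ε (q w.1, w.2) := by
  have hp : IsProperMap (Prod.map q (id : EB5 × V → EB5 × V)) := hq.prodMap isProperMap_id
  have hc : Continuous fun w : P' × EB5 × V => (q w.1, w.2) := hp.continuous
  exact ⟨fun w hw => h.sub (q w.1, w.2) hw,
    fun w hw => (hc.continuousWithinAt (s := {v : P' × EB5 × V | v.2.1 ∈ B5})
      (x := w)).tendsto_nhdsWithin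
      (t := {v : P × EB5 × V | v.2.1 ∈ B5}) (fun _ hv => hv) (h.op (q w.1, w.2) hw),
    h.cont.comp hc.continuousOn fun _ hw => hw, h.conte.comp hc.continuousOn fun _ hw => hw,
    fun γ p b z hw => h.mem γ _ b z hw, fun γ p b z hw => h.eq γ _ b z hw,
    fun γ p b z hw => h.eqe γ _ b z hw, fun w hw => h.free (q w.1, w.2) hw,
    hp.isCompact_preimage h.cpt⟩

theorem proper_slice (s : I) : IsProperMap fun t : ℝ => (s, t) :=
  (Topology.IsClosedEmbedding.of_continuous_injective_isClosedMap (by fun_prop)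
    (Prod.mk_right_injective s) (isClosedMap_prodMk_left s)).isProperMap

/-- a slice of a homotopy -/
theorem IsPr.slice {O : Set ((I × ℝ) × EB5 × V)} {Φ : (I × ℝ) × EB5 × V → V}
    {ε : (I × ℝ) × EB5 × V → ℂ} (h : IsPr π O Φ ε) (s : I) :
    IsPr π (atP s ⁻¹' O) (fun w => Φ (atP s w)) fun w => ε (atP s w) :=
  h.comap (proper_slice s)

variable [FiniteDimensional ℝ V]

theorem cnt_hom (hC : StCnt) {O : Set ((I × ℝ) × EB5 × V)} {Φ : (I × ℝ) × EB5 × V → V}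
    {ε : (I × ℝ) × EB5 × V → ℂ} {e : (I × ℝ) × EB5 × V → Fin 9 → ℂ} (h : IsPr π O Φ ε)
    (he : IsE π O e) :
    (S5 π).cnt (extO (atP 0 ⁻¹' O))
        (extF (fun w => Φ (atP 0 w)) (fun w => ε (atP 0 w)) fun w => e (atP 0 w)) =
      (S5 π).cnt (extO (atP 1 ⁻¹' O))
        (extF (fun w => Φ (atP 1 w)) (fun w => ε (atP 1 w)) fun w => e (atP 1 w)) := by
  have h1 := (hC _ _ _ _ (S5 π)).htpy _ _ (h.heg he)
  have h2 : projIcc (0 : ℝ) 1 zero_le_one 0 = (0 : I) := projIcc_left _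
  have h3 : projIcc (0 : ℝ) 1 zero_le_one 1 = (1 : I) := projIcc_right _
  simp only [mem_ofPred_eq, h2, h3] at h1
  exact h1

theorem stE (hC : StCnt) : StE := by
  intro V _ _ _ π O Φ ε e h h1 h2
  refine ⟨h.eg ⟨h1, h2⟩, ?_⟩
  have h3 := h.comap (q := (Prod.snd : I × ℝ → ℝ)) isProperMap_snd_of_compactSpace
  have h4 : IsE π {w : (I × ℝ) × EB5 × V | (w.1.2, w.2) ∈ O}
      fun w => (w.1.1 : ℝ) • e (w.1.2, w.2) :=
    ⟨ContinuousOn.smul (f := fun w : (I × ℝ) × EB5 × V => (w.1.1 : ℝ)) (by fun_prop)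
      (h1.comp (f := fun w : (I × ℝ) × EB5 × V => (w.1.2, w.2)) (by fun_prop) fun _ hw => hw),
      fun γ p b z hw => by rw [h2 γ _ _ _ hw, smul_comm]⟩
  have h5 := cnt_hom hC h3 h4
  simp only [atP, Icc.coe_zero, Icc.coe_one, zero_smul, one_smul] at h5
  exact h5

variable {O O' : Set (ℝ × EB5 × V)} {Φ Φ' : ℝ × EB5 × V → V} {ε ε' : ℝ × EB5 × V → ℂ}

theorem n5_zero (hC : StCnt) {e : ℝ × EB5 × V → Fin 9 → ℂ} (h : IsPr π O Φ ε) (he : IsE π O e)
    (hne : ∀ w ∈ O, Φ w = 0 → ε w ∈ RR → e w ≠ 0) : n5 V π O Φ ε = 0 := by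
  obtain ⟨h1, h2⟩ := stE hC V π O Φ ε e h he.cont he.eq
  rw [h2]
  refine (hC _ _ _ _ (S5 π)).empty _ _ h1 fun x hx hs => ?_
  rw [extF_star] at hs
  exact hne _ hx.2.2 hs.2.1 hs.2.2.1 hs.2.2.2.1

theorem n5_exc (hC : StCnt) (h : IsPr π O Φ ε) (h' : IsPr π O' Φ' ε') (hs : O' ⊆ O)
    (hz : ∀ w ∈ O, Φ w = 0 → ε w ∈ RR → w ∈ O') (he : ∀ w ∈ O', Φ' w = Φ w ∧ ε' w = ε w) :
    n5 V π O' Φ' ε' = n5 V π O Φ ε := by
  have h1 := h.eg (isE_zero O)
  have h2 := h'.eg (isE_zero O')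
  have h3 := (hC _ _ _ _ (S5 π)).mono _ (extO O') _ h1 h2.isOpen
    (fun x hx => ⟨hx.1, hx.2.1, hs hx.2.2⟩) h2.inv fun x hx h0 => by
      rw [extF_star] at h0
      exact ⟨hx.1, hx.2.1, hz _ hx.2.2 h0.2.1 h0.2.2.1⟩
  have h4 := (hC _ _ _ _ (S5 π)).congr _ _ (extF Φ ε 0) h2 fun x hx => by
    rw [extF, extF, (he _ hx.2.2).1, (he _ hx.2.2).2]
  exact h4.symm.trans h3

theorem n5_add (hC : StCnt) (h : IsPr π O Φ ε) (h' : IsPr π O' Φ ε) (hd : Disjoint O O') :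
    n5 V π (O ∪ O') Φ ε = n5 V π O Φ ε + n5 V π O' Φ ε := by
  have h1 := h.eg (isE_zero O)
  have h2 := h'.eg (isE_zero O')
  have h3 : extO (O ∪ O') = extO O ∪ extO O' := by
    ext x
    simp only [extO, mem_ofPred_eq, mem_union]
    tauto
  have h4 : EG (S5 π) (extO O ∪ extO O') (extF Φ ε 0) :=
    ⟨h1.isOpen.union h2.isOpen, h1.cont.union_of_isOpen h2.cont h1.isOpen h2.isOpen,
      cpt_of_iff (h1.cpt.union h2.cpt) fun x => by
        simp only [mem_ofPred_eq, mem_union, or_and_right],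
      fun g x hx => hx.imp (h1.inv g x) (h2.inv g x),
      fun g x hx => hx.elim (h1.equi g x) (h2.equi g x),
      fun g x hx => hx.elim (h1.free g x) (h2.free g x)⟩
  show (S5 π).cnt (extO (O ∪ O')) _ = _
  rw [h3]
  exact (hC _ _ _ _ (S5 π)).add _ _ _ _ h4 h1.isOpen h2.isOpen subset_union_left
    subset_union_right h1.inv h2.inv
    (disjoint_left.2 fun x a b => disjoint_left.1 hd a.2.2 b.2.2) fun x hx _ => hx

theorem n5_hom (hC : StCnt) {O : Set ((I × ℝ) × EB5 × V)} {Φ : (I × ℝ) × EB5 × V → V}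
    {ε : (I × ℝ) × EB5 × V → ℂ} (h : IsPr π O Φ ε) :
    n5 V π (atP 0 ⁻¹' O) (fun w => Φ (atP 0 w)) (fun w => ε (atP 0 w)) =
      n5 V π (atP 1 ⁻¹' O) (fun w => Φ (atP 1 w)) fun w => ε (atP 1 w) :=
  cnt_hom hC h (isE_zero O)

end Vale.Agent.P220Z.Def
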