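import Vale.Agent.P220Z.Def.IsN2

/-!
# P220, the symmetry rules for `n5`
-/

open Set Topology
open scoped unitInterval

namespace Vale.Agent.P220Z.Def

open Vale.Agent.P220Z.Deg Vale.Agent.P205.TI.Deg

theorem sg_cast (x : ℝ) : ((sg x : ℤ) : ZMod 5) = sg5 x := by
  rw [sg, sg5]
  cases SignType.sign x <;> simp

theorem sg5_one : sg5 1 = 1 := by simp [sg5]

section Det

variable {R W T C V V' : Type} [NormedAddCommGroup R] [NormedSpace ℝ R] [FiniteDimensional ℝ R]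
  [NormedAddCommGroup W] [NormedSpace ℝ W] [FiniteDimensional ℝ W]
  [NormedAddCommGroup T] [NormedSpace ℝ T] [FiniteDimensional ℝ T]
  [NormedAddCommGroup C] [NormedSpace ℝ C] [FiniteDimensional ℝ C]
  [NormedAddCommGroup V] [NormedSpace ℝ V] [FiniteDimensional ℝ V]

theorem det_block (e : (T × C) ≃L[ℝ] (R × W)) (B : W →L[ℝ] W) (L : T →L[ℝ] T) (K : C →L[ℝ] C)
    (N : V →L[ℝ] V) (M : R × (W × V) →L[ℝ] R × (W × V))
    (h : ∀ r w z, M (r, (w, z)) = ((e (L (e.symm (r, w)).1, K (e.symm (r, w)).2)).1,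
      (B (e (L (e.symm (r, w)).1, K (e.symm (r, w)).2)).2, N z))) :
    M.det = B.det * (L.det * K.det) * N.det := by
  have h1 : (M : R × (W × V) →ₗ[ℝ] R × (W × V)) =
      (LinearEquiv.prodAssoc ℝ R W V : (R × W) × V →ₗ[ℝ] R × (W × V)) ∘ₗ
        ((((LinearMap.id : R →ₗ[ℝ] R).prodMap (B : W →ₗ[ℝ] W)) ∘ₗ
          ((e.toLinearEquiv : T × C →ₗ[ℝ] R × W) ∘ₗ ((L : T →ₗ[ℝ] T).prodMap (K : C →ₗ[ℝ] C)) ∘ₗ
            (e.toLinearEquiv.symm : R × W →ₗ[ℝ] T × C))).prodMap (N : V →ₗ[ℝ] V)) ∘ₗ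
        ((LinearEquiv.prodAssoc ℝ R W V).symm : R × (W × V) →ₗ[ℝ] (R × W) × V) :=
    LinearMap.ext fun x => h x.1 x.2.1 x.2.2
  rw [ContinuousLinearMap.det, h1, LinearMap.det_conj, LinearMap.det_prodMap, LinearMap.det_comp,
    LinearMap.det_conj, LinearMap.det_prodMap, LinearMap.det_prodMap, LinearMap.det_id, one_mul]

end Det

variable {V : Type} [NormedAddCommGroup V] [NormedSpace ℝ V] [FiniteDimensional ℝ V]
  {V' : Type} [NormedAddCommGroup V'] [NormedSpace ℝ V'] [FiniteDimensional ℝ V']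
  {π : G3 →* (V →L[ℝ] V)} {π' : G3 →* (V' →L[ℝ] V')}

theorem cnt_sym (hS : StSym) (φ : G3 → G3) (B0 : W0 ≃L[ℝ] W0) (Bv : V' ≃L[ℝ] V)
    (L0 : T0 ≃L[ℝ] T0) (Lv : V ≃L[ℝ] V') (Lc : (Fin 3 → ℂ) ≃L[ℝ] (Fin 3 → ℂ))
    (hφ : ∀ γ, φ γ = 1 → γ = 1) (hB0 : ∀ γ x, B0 (S0.ac γ x) = S0.ac (φ γ) (B0 x))
    (hBv : ∀ γ z, Bv (π' γ z) = π (φ γ) (Bv z)) (hL0 : ∀ γ t, L0 (S0.τ (φ γ) t) = S0.τ γ (L0 t))
    (hLv : ∀ γ z, Lv (π (φ γ) z) = π' γ (Lv z))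
    (hLc : ∀ γ c, Lc (fun i => S0.χ i (φ γ) * c i) = fun i => S0.χ i γ * Lc c i)
    (hr : ∀ r : Fin 3 → ℝ, Lc (fun i => (r i : ℂ)) = fun i => (r i : ℂ))
    (hR : ∀ c i, Lc c i ∈ Rays ↔ c i ∈ Rays) {O : Set (W0 × V)}
    {F : W0 × V → (T0 × V) × (Fin 3 → ℂ)} (h : EG (S5 π) O F) :
    (S5 π').cnt {x | (B0 x.1, Bv x.2) ∈ O} (fun x => ((L0 (F (B0 x.1, Bv x.2)).1.1,
        Lv (F (B0 x.1, Bv x.2)).1.2), Lc (F (B0 x.1, Bv x.2)).2)) =
      sg5 ((B0 : W0 →L[ℝ] W0).det * ((L0 : T0 →L[ℝ] T0).det *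
        (Lc : (Fin 3 → ℂ) →L[ℝ] (Fin 3 → ℂ)).det) *
          ((Bv : V' →L[ℝ] V).comp (Lv : V →L[ℝ] V')).det) * (S5 π).cnt O F := by
  have h1 := (hS (Fin 3) G3 (W0 × V) (T0 × V) G3 (W0 × V') (T0 × V') (S5 π) (S5 π') φ
    (B0.prodCongr Bv) ((L0.prodCongr Lv).prodCongr Lc) hφ
    (fun γ x => Prod.ext (hB0 γ x.1) (hBv γ x.2))
    (fun γ y => Prod.ext (Prod.ext (hL0 γ y.1.1) (hLv γ y.1.2)) (hLc γ y.2))
    (fun r => Prod.ext (map_zero (L0.prodCongr Lv)) (hr r))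
    (fun y => and_congr (map_eq_zero_iff (L0.prodCongr Lv) (L0.prodCongr Lv).injective)
      (forall_congr' fun i => hR y.2 i)) O F h).2
  rw [sg_cast, det_block e0 (B0 : W0 →L[ℝ] W0) (L0 : T0 →L[ℝ] T0)
    (Lc : (Fin 3 → ℂ) →L[ℝ] (Fin 3 → ℂ)) ((Bv : V' →L[ℝ] V).comp (Lv : V →L[ℝ] V')) _
    fun r w z => rfl] at h1
  exact h1

theorem det_prodCongr (A : V ≃L[ℝ] V) (B : V' ≃L[ℝ] V') :
    ((A.prodCongr B : (V × V') ≃L[ℝ] (V × V')) : V × V' →L[ℝ] V × V').det =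
      (A : V →L[ℝ] V).det * (B : V' →L[ℝ] V').det :=
  LinearMap.det_prodMap ((A : V →L[ℝ] V) : V →ₗ[ℝ] V) ((B : V' →L[ℝ] V') : V' →ₗ[ℝ] V')

theorem det_refl (X : Type) [NormedAddCommGroup X] [NormedSpace ℝ X] :
    ((ContinuousLinearEquiv.refl ℝ X : X ≃L[ℝ] X) : X →L[ℝ] X).det = 1 := LinearMap.det_id

omit [FiniteDimensional ℝ V] [FiniteDimensional ℝ V'] in
theorem det_symm (T : V' ≃L[ℝ] V) :
    ((T : V' →L[ℝ] V).comp (T.symm : V →L[ℝ] V')).det = 1 := by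
  rw [ContinuousLinearEquiv.coe_comp_coe_symm]
  exact LinearMap.det_id

variable {O : Set (ℝ × EB5 × V)} {Φ : ℝ × EB5 × V → V} {ε : ℝ × EB5 × V → ℂ}

theorem n5_lin (hS : StSym) (L : V ≃L[ℝ] V) (hL : ∀ γ z, L (π γ z) = π γ (L z))
    (h : IsPr π O Φ ε) :
    n5 V π O (fun w => L (Φ w)) ε = sg5 (L : V →L[ℝ] V).det * n5 V π O Φ ε := by
  have h1 := cnt_sym (π' := π) hS id (.refl ℝ W0) (.refl ℝ V) (.refl ℝ T0) L (.refl ℝ _)
    (fun _ h => h) (fun _ _ => rfl) (fun _ _ => rfl) (fun _ _ => rfl) hL (fun _ _ => rfl)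
    (fun _ => rfl) (fun _ _ => Iff.rfl) (h.eg (isE_zero O))
  rw [det_refl, det_refl, det_refl, one_mul, one_mul, one_mul] at h1
  exact h1

theorem n5_conj (hS : StSym) (T : V' ≃L[ℝ] V) (hT : ∀ γ z, T (π' γ z) = π γ (T z))
    (h : IsPr π O Φ ε) :
    n5 V' π' {w | (w.1, w.2.1, T w.2.2) ∈ O} (fun w => T.symm (Φ (w.1, w.2.1, T w.2.2)))
      (fun w => ε (w.1, w.2.1, T w.2.2)) = n5 V π O Φ ε := by
  have h1 := cnt_sym (π' := π') hS id (.refl ℝ W0) T (.refl ℝ T0) T.symm (.refl ℝ _)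
    (fun _ h => h) (fun _ _ => rfl) hT (fun _ _ => rfl)
    (fun γ z => T.injective (by rw [hT, T.apply_symm_apply, T.apply_symm_apply]; rfl))
    (fun _ _ => rfl) (fun _ => rfl) (fun _ _ => Iff.rfl) (h.eg (isE_zero O))
  rw [det_refl, det_refl, det_refl, det_symm, one_mul, one_mul, one_mul, sg5_one, one_mul] at h1
  exact h1

/-- conjugation in the third coordinate -/
noncomputable def cj3 : Fin 3 → (ℂ ≃L[ℝ] ℂ) := ![.refl ℝ ℂ, .refl ℝ ℂ, Complex.conjCLE]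

theorem det_piC {m : ℕ} (f : Fin m → (ℂ ≃L[ℝ] ℂ)) :
    ((ContinuousLinearEquiv.piCongrRight f : (Fin m → ℂ) ≃L[ℝ] (Fin m → ℂ)) :
      (Fin m → ℂ) →L[ℝ] (Fin m → ℂ)).det = ∏ i, (f i : ℂ →L[ℝ] ℂ).det :=
  ContinuousLinearMap.det_pi fun i => (f i : ℂ →L[ℝ] ℂ)

theorem det_cj : ((Complex.conjCLE : ℂ ≃L[ℝ] ℂ) : ℂ →L[ℝ] ℂ).det = -1 := Complex.det_conjAe

theorem conj_om (k : ZMod 5) : (starRingEnd ℂ) (om (-k) : ℂ) = om k := by
  rw [← Circle.coe_inv_eq_conj, om, om, AddChar.map_neg_eq_inv, inv_inv]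

theorem conj_rays (c : ℂ) : (starRingEnd ℂ) c ∈ Rays ↔ c ∈ Rays := by
  refine exists_congr fun r => and_congr_right fun _ => ?_
  rw [← map_pow]
  exact ⟨fun h => by simpa using congrArg (starRingEnd ℂ) h, fun h => by simp [h]⟩

theorem n5_refl (hS : StSym) (T : V' ≃L[ℝ] V)
    (hT : ∀ (γ : G3) z, T (π' γ z) = π (γ.1, γ.2⁻¹) (T z)) (h : IsPr π O Φ ε) :
    n5 V' π' {w | (w.1, w.2.1, T w.2.2) ∈ O} (fun w => T.symm (Φ (w.1, w.2.1, T w.2.2)))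
      (fun w => (starRingEnd ℂ) (ε (w.1, w.2.1, T w.2.2))) = n5 V π O Φ ε := by
  have h1 := cnt_sym (π' := π') hS (fun γ => (γ.1, γ.2⁻¹)) (.refl ℝ W0) T
    ((ContinuousLinearEquiv.refl ℝ (ℝ × ℝ)).prodCongr
      (ContinuousLinearEquiv.piCongrRight fun _ : Fin 9 => Complex.conjCLE)) T.symm
    (ContinuousLinearEquiv.piCongrRight cj3)
    (fun γ h => Prod.ext (Prod.ext_iff.1 h).1 (inv_eq_one.1 (Prod.ext_iff.1 h).2))
    (fun _ _ => rfl) hT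
    (fun γ t => Prod.ext rfl (funext fun j => by
      show (starRingEnd ℂ) ((om (-γ.2.toAdd) : ℂ) * t.2 j) = om γ.2.toAdd * (starRingEnd ℂ) (t.2 j)
      rw [map_mul, conj_om]))
    (fun γ z => T.injective (by rw [hT, T.apply_symm_apply, T.apply_symm_apply]))
    (fun γ c => funext fun i => by
      fin_cases i
      · rfl
      · rfl
      · show (starRingEnd ℂ) ((om (-γ.2.toAdd) : ℂ) * c 2) = om γ.2.toAdd * (starRingEnd ℂ) (c 2)
        rw [map_mul, conj_om])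
    (fun r => funext fun i => by
      fin_cases i
      · rfl
      · rfl
      · exact Complex.conj_ofReal _)
    (fun c i => by
      fin_cases i
      · exact Iff.rfl
      · exact Iff.rfl
      · exact conj_rays _) (h.eg (isE_zero O))
  have h2 : (((ContinuousLinearEquiv.refl ℝ (ℝ × ℝ)).prodCongr
      (ContinuousLinearEquiv.piCongrRight fun _ : Fin 9 => Complex.conjCLE) : T0 ≃L[ℝ] T0) :
        T0 →L[ℝ] T0).det = -1 := by
    rw [det_prodCongr, det_refl, one_mul, det_piC]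
    simp only [det_cj]
    norm_num
  have h3 : ∏ i, (cj3 i : ℂ →L[ℝ] ℂ).det = -1 := by
    rw [Fin.prod_univ_three]
    show ((ContinuousLinearEquiv.refl ℝ ℂ : ℂ ≃L[ℝ] ℂ) : ℂ →L[ℝ] ℂ).det *
      ((ContinuousLinearEquiv.refl ℝ ℂ : ℂ ≃L[ℝ] ℂ) : ℂ →L[ℝ] ℂ).det *
      ((Complex.conjCLE : ℂ ≃L[ℝ] ℂ) : ℂ →L[ℝ] ℂ).det = -1
    rw [det_refl, det_cj, one_mul, one_mul]
  rw [det_refl, h2, det_piC, h3, det_symm, one_mul, mul_one, neg_mul_neg, one_mul, sg5_one,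
    one_mul] at h1
  refine Eq.trans ?_ h1
  refine congrArg ((S5 π').cnt _) (funext fun x => ?_)
  refine Prod.ext (Prod.ext (Prod.ext rfl (funext fun j => ?_)) rfl) (funext fun i => ?_)
  · exact (map_zero (starRingEnd ℂ)).symm
  · fin_cases i <;> rfl

theorem n5_scale (hS : StSym) {c : ℝ} (hc : c ≠ 0) (h : IsPr π O Φ ε) :
    n5 V π {w | (c * w.1, w.2) ∈ O} (fun w => Φ (c * w.1, w.2)) (fun w => ε (c * w.1, w.2)) =
      sg5 c * n5 V π O Φ ε := by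
  have h1 := cnt_sym (π' := π) hS id
    ((ContinuousLinearEquiv.unitsEquivAut ℝ (Units.mk0 c hc)).prodCongr (.refl ℝ EB5))
    (.refl ℝ V) (.refl ℝ T0) (.refl ℝ V) (.refl ℝ _)
    (fun _ h => h) (fun _ _ => rfl) (fun _ _ => rfl) (fun _ _ => rfl) (fun _ _ => rfl)
    (fun _ _ => rfl) (fun _ => rfl) (fun _ _ => Iff.rfl) (h.eg (isE_zero O))
  have h2 : (((ContinuousLinearEquiv.unitsEquivAut ℝ (Units.mk0 c hc)).prodCongr (.refl ℝ EB5) :
      W0 ≃L[ℝ] W0) : W0 →L[ℝ] W0).det = c := by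
    rw [det_prodCongr, det_refl, mul_one, ContinuousLinearMap.det, LinearMap.det_ring]
    exact one_mul c
  have h3 := det_symm (ContinuousLinearEquiv.refl ℝ V)
  rw [ContinuousLinearEquiv.refl_symm] at h3
  rw [h2, det_refl, det_refl, h3, one_mul, mul_one, mul_one] at h1
  simp only [mul_comm c]
  exact h1

theorem proper_shift (d : ℝ) : IsProperMap fun p : I × ℝ => p.2 + p.1 * d := by
  let f : I × ℝ ≃ₜ I × ℝ :=
    { toFun := fun p => (p.1, p.2 + p.1 * d)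
      invFun := fun p => (p.1, p.2 - p.1 * d)
      left_inv := fun p => by simp
      right_inv := fun p => by simp }
  exact (isProperMap_snd_of_compactSpace (X := I) (Y := ℝ)).comp f.isProperMap

theorem n5_time (hC : StCnt) (hS : StSym) (c d : ℝ) (hc : c ≠ 0) (h : IsPr π O Φ ε) :
    n5 V π {w | (c * w.1 + d, w.2) ∈ O} (fun w => Φ (c * w.1 + d, w.2))
      (fun w => ε (c * w.1 + d, w.2)) = sg5 c * n5 V π O Φ ε := by
  have h1 := n5_hom hC (h.comap (proper_shift d))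
  have h2 := n5_scale hS hc (h.comap (q := fun t : ℝ => t + d) (Homeomorph.addRight d).isProperMap)
  simp only [preimage_ofPred_eq, atP, Icc.coe_zero, Icc.coe_one, zero_mul, one_mul, add_zero] at h1
  refine h2.trans ?_
  rw [← h1]
  rfl

theorem n5_susp (hS : StSym) (hU : StSusp) (π₂ : G3 →* (V' →L[ℝ] V')) (h : IsPr π O Φ ε) :
    n5 (V × V') (prodRep π π₂) {w | (w.1, w.2.1, w.2.2.1) ∈ O}
      (fun w => (Φ (w.1, w.2.1, w.2.2.1), w.2.2.2)) (fun w => ε (w.1, w.2.1, w.2.2.1)) =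
      n5 V π O Φ ε := by
  obtain ⟨h1, h2⟩ := hU (Fin 3) G3 (W0 × V) (T0 × V) V' (S5 π) _ _ (isRep_hom π₂) (isRep_hom π₂)
    (.refl ℝ V') (fun _ _ => rfl) _ _ (h.eg (isE_zero O))
  have h3 := (hS (Fin 3) G3 ((W0 × V) × V') ((T0 × V) × V') G3 (W0 × (V × V')) (T0 × (V × V'))
    ((S5 π).susp (isRep_hom π₂) (isRep_hom π₂)) (S5 (prodRep π π₂)) id
    (ContinuousLinearEquiv.prodAssoc ℝ W0 V V').symm
    ((ContinuousLinearEquiv.prodAssoc ℝ T0 V V').prodCongr (.refl ℝ _)) (fun _ h => h)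
    (fun _ _ => rfl) (fun _ _ => rfl) (fun _ => rfl)
    (fun y => and_congr (map_eq_zero_iff (ContinuousLinearEquiv.prodAssoc ℝ T0 V V')
      (ContinuousLinearEquiv.prodAssoc ℝ T0 V V').injective) Iff.rfl) _ _ h1).2
  have h4 : (((ContinuousLinearMap.id ℝ (Fin 3 → ℝ)).prodMap
      ((ContinuousLinearEquiv.prodAssoc ℝ W0 V V').symm : W0 × (V × V') →L[ℝ] (W0 × V) × V')).comp
        ((S5 (prodRep π π₂)).e.toContinuousLinearMap.comp
          (((ContinuousLinearEquiv.prodAssoc ℝ T0 V V').prodCongr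
            (.refl ℝ (Fin 3 → ℂ))).toContinuousLinearMap.comp
          ((S5 π).susp (isRep_hom π₂) (isRep_hom π₂)).e.symm.toContinuousLinearMap))) =
      ContinuousLinearMap.id ℝ _ := by
    refine ContinuousLinearMap.ext fun x => ?_
    have h5 := e0.apply_symm_apply (x.1, x.2.1.1)
    exact Prod.ext (Prod.ext_iff.1 h5).1 (Prod.ext (Prod.ext (Prod.ext_iff.1 h5).2 rfl) rfl)
  rw [h4, h2, det_refl, show (ContinuousLinearMap.id ℝ _).det = 1 from LinearMap.det_id, sg_cast,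
    sg5_one, one_mul, one_mul] at h3
  refine Eq.trans ?_ h3
  refine congrArg₂ (S5 (prodRep π π₂)).cnt (Set.ext fun x => ?_) rfl
  exact ⟨fun hx => ⟨hx, trivial⟩, fun hx => hx.1⟩

/-- the rules for `n5` -/
theorem isN_n5 (hC : StCnt) (hS : StSym) (hU : StSusp) : IsN n5 where
  zero _ _ _ _ _ _ _ _ _ h h1 h2 h3 := n5_zero hC h ⟨h1, h2⟩ h3
  exc _ _ _ _ _ _ _ _ _ _ _ h h' h1 h2 h3 := n5_exc hC h h' h1 h2 h3
  add _ _ _ _ _ _ _ _ _ h h' hd := n5_add hC h h' hd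
  hom _ _ _ _ _ _ _ _ h := n5_hom hC h
  time _ _ _ _ _ _ _ _ c d hc h := n5_time hC hS c d hc h
  lin _ _ _ _ _ _ _ _ L hL h := n5_lin hS L hL h
  conj _ _ _ _ _ _ _ _ _ _ _ _ _ T hT h := n5_conj hS T hT h
  refl _ _ _ _ _ _ _ _ _ _ _ _ _ T hT h := n5_refl hS T hT h
  susp _ _ _ _ _ _ _ _ _ π₂ _ _ _ h := n5_susp hS hU π₂ h

end Vale.Agent.P220Z.Def
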