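import Vale.Agent.P220Z.Def.Tool
import Vale.Agent.P220Z.Deg.Api

/-!
# P220, the concrete count `n5`, the winding number `w5`, and the steps of the localisation
-/

open Set Topology
open scoped unitInterval

namespace Vale.Agent.P220Z.Def

open Vale.Agent.P220Z.Deg

/-- the target for the base -/
abbrev T0 : Type := (ℝ × ℝ) × (Fin 9 → ℂ)

/-- time and base -/
abbrev W0 : Type := ℝ × EB5

/-- a point of `EB5` from its coordinates -/
noncomputable def mkB (u : Fin 2 → ℂ) (v : Fin 9 → ℂ) : EB5 :=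
  WithLp.toLp 2 (WithLp.toLp 2 u, WithLp.toLp 2 v)

@[simp] theorem mkB_fst (u : Fin 2 → ℂ) (v : Fin 9 → ℂ) (i : Fin 2) : (mkB u v).fst i = u i := rfl

@[simp] theorem mkB_snd (u : Fin 2 → ℂ) (v : Fin 9 → ℂ) (j : Fin 9) : (mkB u v).snd j = v j := rfl

theorem extB {b b' : EB5} (h1 : ∀ i, b.fst i = b'.fst i) (h2 : ∀ j, b.snd j = b'.snd j) :
    b = b' := by
  apply (WithLp.equiv 2 _).injective
  exact Prod.ext (PiLp.ext h1) (PiLp.ext h2)

/-- the orientation, as a linear equivalence -/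
noncomputable def e0L : (T0 × (Fin 3 → ℂ)) ≃ₗ[ℝ] ((Fin 3 → ℝ) × W0) where
  toFun y := (![y.1.1.1, y.1.1.2, (y.2 2).re], ((y.2 2).im, mkB ![y.2 0, y.2 1] y.1.2))
  invFun x := (((x.1 0, x.1 1), fun j => x.2.2.snd j),
    ![x.2.2.fst 0, x.2.2.fst 1, ⟨x.1 2, x.2.1⟩])
  map_add' y y' := by
    refine Prod.ext (funext fun i => ?_) (Prod.ext (by simp) (extB (fun i => ?_) fun j => ?_))
    · fin_cases i <;> simp
    · fin_cases i <;> simp
    · simp
  map_smul' r y := by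
    refine Prod.ext (funext fun i => ?_) (Prod.ext (by simp) (extB (fun i => ?_) fun j => ?_))
    · fin_cases i <;> simp
    · fin_cases i <;> simp
    · simp
  left_inv y := by
    refine Prod.ext (Prod.ext (Prod.ext rfl rfl) rfl) (funext fun i => ?_)
    fin_cases i <;> rfl
  right_inv x := by
    refine Prod.ext (funext fun i => ?_) (Prod.ext rfl (extB (fun i => ?_) fun j => rfl))
    · fin_cases i <;> rfl
    · fin_cases i <;> rfl

/-- the orientation -/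
noncomputable def e0 : (T0 × (Fin 3 → ℂ)) ≃L[ℝ] ((Fin 3 → ℝ) × W0) := e0L.toContinuousLinearEquiv

theorem e0_apply (y : T0 × (Fin 3 → ℂ)) : e0 y =
    (![y.1.1.1, y.1.1.2, (y.2 2).re], ((y.2 2).im, mkB ![y.2 0, y.2 1] y.1.2)) := rfl

theorem om_add (a b : ZMod 5) : (om (a + b) : ℂ) = om a * om b := by
  simp [om, AddChar.map_add_eq_mul]

theorem om_zero : (om 0 : ℂ) = 1 := by simp [om]

theorem om_pow (a : ZMod 5) : (om a : ℂ) ^ 5 = 1 := by
  have h : om a ^ 5 = 1 := by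
    rw [om, ← AddChar.map_nsmul_eq_pow]
    have : (5 : ℕ) • a = 0 := by
      rw [nsmul_eq_mul]
      exact mul_eq_zero_of_left (by decide) a
    rw [this, AddChar.map_zero_eq_one]
  rw [← Circle.coe_pow, h, Circle.coe_one]

theorem isRep_hom {A V : Type} [Group A] [NormedAddCommGroup V] [NormedSpace ℝ V]
    (π : A →* (V →L[ℝ] V)) : IsRep fun g => π g :=
  ⟨fun x => by simp, fun g h x => by simp⟩

/-- the setup for the base -/
noncomputable def S0 : Setup (Fin 3) G3 W0 T0 where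
  ac γ := (ContinuousLinearMap.id ℝ ℝ).prodMap (cl β5 γ.1)
  τ γ := (ContinuousLinearMap.id ℝ (ℝ × ℝ)).prodMap
    (((om γ.2.toAdd : ℂ) • ContinuousLinearMap.id ℂ (Fin 9 → ℂ)).restrictScalars ℝ)
  χ := ![fun γ => om γ.1.toAdd.1, fun γ => om γ.1.toAdd.2, fun γ => om γ.2.toAdd]
  a := ![(Multiplicative.ofAdd (1, 0), 1), (Multiplicative.ofAdd (0, 1), 1), sig]
  e := e0
  hac := ⟨fun x => by simp, fun g h x => Prod.ext rfl (by simp)⟩
  hτ := ⟨fun x => by simp [om_zero], fun g h x => Prod.ext rfl (by simp [om_add, mul_smul])⟩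
  χ_mul i g h := by fin_cases i <;> simp [om_add]
  χ_pow i g := by fin_cases i <;> simp [om_pow]
  a_pow i := by fin_cases i <;> decide
  a_ne i := by fin_cases i <;> decide
  χ_a i j h := by fin_cases i <;> fin_cases j <;> simp_all [om_zero, sig]

section N

variable {V : Type} [NormedAddCommGroup V] [NormedSpace ℝ V]

/-- the setup of a problem -/
noncomputable def S5 (π : G3 →* (V →L[ℝ] V)) : Setup (Fin 3) G3 (W0 × V) (T0 × V) :=
  S0.susp (isRep_hom π) (isRep_hom π)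

/-- the radial projection to the base -/
noncomputable def nrm (b : EB5) : EB5 := WithLp.toLp 2 (‖b.fst‖⁻¹ • b.fst, ‖b.snd‖⁻¹ • b.snd)

/-- the point of the problem below a point of `W0 × V` -/
noncomputable def dn (x : W0 × V) : ℝ × EB5 × V := (x.1.1, nrm x.1.2, x.2)

/-- the radial extension of the domain -/
def extO (O : Set (ℝ × EB5 × V)) : Set (W0 × V) :=
  {x | x.1.2.fst ≠ 0 ∧ x.1.2.snd ≠ 0 ∧ dn x ∈ O}

/-- the germ of a problem with nine extra functions `e` -/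
noncomputable def extF (Φ : ℝ × EB5 × V → V) (ε : ℝ × EB5 × V → ℂ)
    (e : ℝ × EB5 × V → Fin 9 → ℂ) (x : W0 × V) : (T0 × V) × (Fin 3 → ℂ) :=
  ((((‖x.1.2.fst‖ - 1, ‖x.1.2.snd‖ - 1), e (dn x)), Φ (dn x)),
    ![x.1.2.fst 0, x.1.2.snd 0, ε (dn x)])

end N

/-- the count -/
noncomputable def n5 : NFun := fun _ _ _ _ π O Φ ε => (S5 π).cnt (extO O) (extF Φ ε 0)

/-- The count can be computed with any nine equivariant functions. -/
def StE : Prop :=
  ∀ (V : Type) [NormedAddCommGroup V] [NormedSpace ℝ V] [FiniteDimensional ℝ V]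
    (π : G3 →* (V →L[ℝ] V)) O Φ ε (e : ℝ × EB5 × V → Fin 9 → ℂ), IsPr π O Φ ε →
    ContinuousOn e O →
    (∀ γ t b z, (t, b, z) ∈ O → e (t, β5 γ.1 b, π γ z) = (om γ.2.toAdd : ℂ) • e (t, b, z)) →
    EG (S5 π) (extO O) (extF Φ ε e) ∧ n5 V π O Φ ε = (S5 π).cnt (extO O) (extF Φ ε e)

section W

variable {V : Type} [NormedAddCommGroup V] [NormedSpace ℝ V]

/-- the orientation for loops, as a linear equivalence -/
noncomputable def e1L (V : Type) [NormedAddCommGroup V] [NormedSpace ℝ V] :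
    (V × (Unit → ℂ)) ≃ₗ[ℝ] ((Unit → ℝ) × (ℝ × V)) where
  toFun y := (fun _ => (y.2 ()).re, ((y.2 ()).im, y.1))
  invFun x := (x.2.2, fun _ => ⟨x.1 (), x.2.1⟩)
  map_add' y y' := Prod.ext (funext fun _ => by simp) (Prod.ext (by simp) rfl)
  map_smul' r y := Prod.ext (funext fun _ => by simp) (Prod.ext (by simp) rfl)
  left_inv _ := rfl
  right_inv _ := rfl

/-- the action of `C5` generated by `s` -/
noncomputable def cyc (s : V →L[ℝ] V) (h : s ^ 5 = 1) : C5 →* (V →L[ℝ] V) where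
  toFun g := s ^ g.toAdd.val
  map_one' := by simp
  map_mul' g k := by rw [toAdd_mul, ZMod.val_add, ← pow_add, ← pow_eq_pow_mod _ h]

/-- the setup of a loop -/
noncomputable def S1 [FiniteDimensional ℝ V] (s : V →L[ℝ] V) (h : s ^ 5 = 1) :
    Setup Unit C5 (ℝ × V) V where
  ac g := (ContinuousLinearMap.id ℝ ℝ).prodMap (cyc s h g)
  τ g := cyc s h g
  χ _ g := om g.toAdd
  a _ := Multiplicative.ofAdd 1
  e := (e1L V).toContinuousLinearEquiv
  hac := ⟨fun x => by simp, fun g h x => Prod.ext rfl (by simp)⟩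
  hτ := isRep_hom _
  χ_mul _ g h := by simp [om_add]
  χ_pow _ g := om_pow _
  a_pow _ := by decide
  a_ne _ := by decide
  χ_a _ _ h := absurd rfl h

end W

open Classical in
/-- the winding number -/
noncomputable def w5 : WFun := fun _ _ _ _ s O Φ =>
  if h : s ^ 5 = 1 then (S1 s h).cnt O fun y => (Φ y, fun _ => 0) else 0

/-! ### problems that do not depend on the base point -/

section Q

variable {V : Type} [NormedAddCommGroup V] [NormedSpace ℝ V]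

/-- A family over `P` of problems that do not depend on the base point. -/
structure IsQ {P : Type} [TopologicalSpace P] (π : G3 →* (V →L[ℝ] V)) (O : Set (P × V))
    (Φ : P × V → V) (ε : P × V → ℂ) : Prop where
  op : IsOpen O
  cont : ContinuousOn Φ O
  conte : ContinuousOn ε O
  mem : ∀ γ p z, (p, z) ∈ O → (p, π γ z) ∈ O
  eq : ∀ γ p z, (p, z) ∈ O → Φ (p, π γ z) = π γ (Φ (p, z))
  eqe : ∀ γ p z, (p, z) ∈ O → ε (p, π γ z) = om γ.2.toAdd * ε (p, z)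
  free : ∀ y ∈ O, π sig y.2 ≠ y.2
  cpt : IsCompact {y | y ∈ O ∧ Φ y = 0 ∧ ε y ∈ RR}

/-- the value of `n` on a problem that does not depend on the base point -/
def nQ [FiniteDimensional ℝ V] (n : NFun) (π : G3 →* (V →L[ℝ] V)) (O : Set (ℝ × V))
    (Φ : ℝ × V → V) (ε : ℝ × V → ℂ) : ZMod 5 :=
  n V π {y | y.2.1 ∈ B5 ∧ (y.1, y.2.2) ∈ O} (fun y => Φ (y.1, y.2.2)) fun y => ε (y.1, y.2.2)

/-- excision, additivity and homotopy invariance -/
structure IsD (π : G3 →* (V →L[ℝ] V))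
    (D : Set (ℝ × V) → (ℝ × V → V) → (ℝ × V → ℂ) → ZMod 5) : Prop where
  exc : ∀ O Φ ε O' Φ' ε', IsQ π O Φ ε → IsQ π O' Φ' ε' → O' ⊆ O →
    (∀ y ∈ O, Φ y = 0 → ε y ∈ RR → y ∈ O') → (∀ y ∈ O', Φ' y = Φ y ∧ ε' y = ε y) →
    D O' Φ' ε' = D O Φ ε
  add : ∀ O O' Φ ε, IsQ π O Φ ε → IsQ π O' Φ ε → Disjoint O O' →
    D (O ∪ O') Φ ε = D O Φ ε + D O' Φ ε
  hom : ∀ (O : Set ((I × ℝ) × V)) Φ ε, IsQ π O Φ ε →
    D (atL 0 ⁻¹' O) (fun y => Φ (atL 0 y)) (fun y => ε (atL 0 y)) =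
      D (atL 1 ⁻¹' O) (fun y => Φ (atL 1 y)) fun y => ε (atL 1 y)

/-- `P` is an equivariant projection onto the vectors fixed by `H`. -/
structure IsProjH (π : G3 →* (V →L[ℝ] V)) (H : Subgroup G3) (P : V →L[ℝ] V) : Prop where
  fix : ∀ γ ∈ H, ∀ z, π γ (P z) = P z
  id : ∀ z, (∀ γ ∈ H, π γ z = z) → P z = z
  comm : ∀ γ z, P (π γ z) = π γ (P z)

/-- the value of the character `a X + b Y` -/
def chi (a b : ZMod 5) (γ : G3) : ZMod 5 := a * γ.1.toAdd.1 + b * γ.1.toAdd.2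

/-- a label of character `x - a X - b Y` without zero on the zeros of `Φ` -/
structure IsLab (π : G3 →* (V →L[ℝ] V)) (O : Set (ℝ × V)) (Φ : ℝ × V → V) (a b : ZMod 5)
    (η : ℝ × V → ℂ) : Prop where
  cont : ContinuousOn η O
  eq : ∀ γ t z, (t, z) ∈ O → η (t, π γ z) = om (γ.2.toAdd - chi a b γ) * η (t, z)
  ne : ∀ y ∈ O, Φ y = 0 → η y ≠ 0

end Q

/-- The lift of such a problem; `nQ n π` has the three rules. -/
def StLift : Prop :=
  ∀ (V : Type) [NormedAddCommGroup V] [NormedSpace ℝ V] [FiniteDimensional ℝ V]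
    (π : G3 →* (V →L[ℝ] V)),
    (∀ (P : Type) [TopologicalSpace P] (O : Set (P × V)) (Φ : P × V → V) (ε : P × V → ℂ),
      IsPr π {y : P × EB5 × V | y.2.1 ∈ B5 ∧ (y.1, y.2.2) ∈ O} (fun y => Φ (y.1, y.2.2))
        (fun y => ε (y.1, y.2.2)) ↔ IsQ π O Φ ε) ∧ ∀ n, IsN n → IsD π (nQ n π)

/-- Reduction to problems in product form with one isotropy group. -/
def StRed : Prop :=
  ∀ (V : Type) [NormedAddCommGroup V] [NormedSpace ℝ V] [FiniteDimensional ℝ V]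
    (π : G3 →* (V →L[ℝ] V)) (D : Set (ℝ × V) → (ℝ × V → V) → (ℝ × V → ℂ) → ZMod 5), IsD π D →
    (∀ (H : Subgroup G3) (P : V →L[ℝ] V) O Φ ε, IsProjH π H P → IsQ π O Φ ε →
      (∀ y ∈ O, P y.2 = y.2 → ∀ γ, π γ y.2 = y.2 → γ ∈ H) →
      IsQ π {y : ℝ × V | (y.1, P y.2) ∈ O} (fun y => y.2 - P y.2 + Φ (y.1, P y.2))
        (fun y => ε (y.1, P y.2)) →
      D {y | (y.1, P y.2) ∈ O} (fun y => y.2 - P y.2 + Φ (y.1, P y.2))
        (fun y => ε (y.1, P y.2)) = 0) →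
    ∀ O Φ ε, IsQ π O Φ ε → D O Φ ε = 0

/-- A problem in product form has the count of its fixed part. -/
def StForm : Prop :=
  ∀ (V : Type) [NormedAddCommGroup V] [NormedSpace ℝ V] [FiniteDimensional ℝ V]
    (V' : Type) [NormedAddCommGroup V'] [NormedSpace ℝ V'] [FiniteDimensional ℝ V']
    (π : G3 →* (V →L[ℝ] V)) (H : Subgroup G3) (P : V →L[ℝ] V) (ι : V' →L[ℝ] V),
    IsProjH π H P → Function.Injective ι → (∀ z, z ∈ range ι ↔ ∀ γ ∈ H, π γ z = z) →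
    ∃ (π' : G3 →* (V' →L[ℝ] V')) (p : V →L[ℝ] V'), (∀ γ z, ι (π' γ z) = π γ (ι z)) ∧
      (∀ z, ι (p z) = P z) ∧ ∀ O Φ ε, IsQ π O Φ ε →
        IsQ π' {y : ℝ × V' | (y.1, ι y.2) ∈ O} (fun y => p (Φ (y.1, ι y.2)))
          (fun y => ε (y.1, ι y.2)) ∧ ∀ n, IsN n →
        nQ n π {y | (y.1, P y.2) ∈ O} (fun y => y.2 - P y.2 + Φ (y.1, P y.2))
            (fun y => ε (y.1, P y.2)) =
          nQ n π' {y | (y.1, ι y.2) ∈ O} (fun y => p (Φ (y.1, ι y.2))) fun y => ε (y.1, ι y.2)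

/-- the subgroups that do not contain `sig` -/
def StGrp : Prop :=
  ∀ H : Subgroup G3, sig ∉ H → ∃ a b : ZMod 5, (∀ γ ∈ H, γ.2.toAdd = chi a b γ) ∧
    (a = 0 ∨ b = 0 ∨ ∀ g, gr a b g ∈ H)

/-- General position: a label exists after a small perturbation of `Φ`. -/
def StLab : Prop :=
  ∀ (V : Type) [NormedAddCommGroup V] [NormedSpace ℝ V] [FiniteDimensional ℝ V]
    (π : G3 →* (V →L[ℝ] V)) (H : Subgroup G3) (a b : ZMod 5) (O : Set (ℝ × V)) Φ ε,
    (∀ γ ∈ H, ∀ z, π γ z = z) → (∀ γ ∈ H, γ.2.toAdd = chi a b γ) → IsQ π O Φ ε →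
    (∀ y ∈ O, ∀ γ, π γ y.2 = y.2 → γ ∈ H) →
    ∃ U Φ' η, IsQ π U Φ' ε ∧ IsLab π U Φ' a b η ∧ U ⊆ O ∧ ∀ D, IsD π D → D O Φ ε = D U Φ' ε

/-- vanishing for the characters `a X` and `b Y` -/
def StVan : Prop :=
  ∀ (V : Type) [NormedAddCommGroup V] [NormedSpace ℝ V] [FiniteDimensional ℝ V]
    (π : G3 →* (V →L[ℝ] V)) (a b : ZMod 5) (O : Set (ℝ × V)) Φ ε η (n : NFun), IsN n →
    IsQ π O Φ ε → IsLab π O Φ a b η → a = 0 ∨ b = 0 → nQ n π O Φ ε = 0

/-- nine linear forms with sum `30 * m.snd 0` -/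
noncomputable def yy (m : EB5) (j : Fin 9) : ℂ :=
  if j = 0 then 30 * m.snd 0 - ∑ k : Fin 8, m.snd k.succ else m.snd j

/-- nine polynomials of bidegree `(a, b)` -/
noncomputable def ee (a b : ℕ) (m : EB5) (j : Fin 9) : ℂ :=
  (∏ i ∈ Finset.range a, (m.fst 1 - (5 * (j : ℕ) + i : ℕ) * m.fst 0)) *
    ∏ i ∈ Finset.range b, (yy m j - (i : ℕ) * m.snd 0)

/-- the map of the base -/
noncomputable def baseMap (a b : ℕ) (x : (ℝ × ℝ) × EB5) : (ℝ × ℝ) × EB5 :=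
  ((‖x.2.fst‖ - 1, ‖x.2.snd‖ - 1), mkB ![x.2.fst 0 - x.1.1, x.2.snd 0 - x.1.2] (ee a b x.2))

/-- its domain -/
def baseDom : Set ((ℝ × ℝ) × EB5) := {x | 0 < x.1.1 ∧ 0 < x.1.2 ∧ x.2.fst ≠ 0 ∧ x.2.snd ≠ 0}

/-- the degree of the map of the base -/
def StBase : Prop :=
  ∀ a b : ℕ, 1 ≤ a → a ≤ 4 → 1 ≤ b → b ≤ 4 →
    (∀ m : EB5, m.fst ≠ 0 → m.snd ≠ 0 → ee a b m = 0 → m.fst 0 ≠ 0 ∧ m.snd 0 ≠ 0) ∧
    Germ baseDom (baseMap a b) ∧ pdeg baseDom (baseMap a b) = 9 * a * b ^ 8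

/-- the count of a labelled problem -/
def StMain : Prop :=
  ∀ (V : Type) [NormedAddCommGroup V] [NormedSpace ℝ V] [FiniteDimensional ℝ V]
    (π : G3 →* (V →L[ℝ] V)) (a b : ZMod 5) (O : Set (ℝ × V)) Φ η, a ≠ 0 → b ≠ 0 →
    IsQ π O Φ (fun _ => 0) → IsLab π O Φ a b η →
    nQ n5 π O Φ (fun _ => 0) = 4 * a * (pdeg (windDom O) (windMap Φ η) : ℤ)

end Vale.Agent.P220Z.Def
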