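import Vale.Agent.P220Z.Def.Defs
import Vale.Agent.P220Z.Deg.Pdeg

/-!
# P220, the toolkit for the count: problems, rules, winding numbers, localisation

`G3 = G5 × C5`; `G5` acts on the base `B5`, all of `G3` acts on `V`. A problem is `(O, Φ, ε)`.
-/

open Set Topology
open scoped unitInterval

namespace Vale.Agent.P220Z.Def

/-- the cyclic group of order five -/
abbrev C5 : Type := Multiplicative (ZMod 5)

/-- the group of a problem -/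
abbrev G3 : Type := G5 × C5

/-- the generator of the third factor -/
def sig : G3 := (1, Multiplicative.ofAdd 1)

/-- the five rays -/
def RR : Set ℂ := {c | ∃ (k : ZMod 5) (r : ℝ), 0 ≤ r ∧ c = r * om k}

section Pr

variable {V : Type} [NormedAddCommGroup V] [NormedSpace ℝ V]

/-- A family of problems over the parameter space `P`. -/
structure IsPr {P : Type} [TopologicalSpace P] (π : G3 →* (V →L[ℝ] V))
    (O : Set (P × EB5 × V)) (Φ : P × EB5 × V → V) (ε : P × EB5 × V → ℂ) : Prop where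
  sub : ∀ w ∈ O, w.2.1 ∈ B5
  op : ∀ w ∈ O, O ∈ 𝓝[{v | v.2.1 ∈ B5}] w
  cont : ContinuousOn Φ O
  conte : ContinuousOn ε O
  mem : ∀ γ p b z, (p, b, z) ∈ O → (p, β5 γ.1 b, π γ z) ∈ O
  eq : ∀ γ p b z, (p, b, z) ∈ O → Φ (p, β5 γ.1 b, π γ z) = π γ (Φ (p, b, z))
  eqe : ∀ γ p b z, (p, b, z) ∈ O → ε (p, β5 γ.1 b, π γ z) = om γ.2.toAdd * ε (p, b, z)
  free : ∀ w ∈ O, π sig w.2.2 ≠ w.2.2
  cpt : IsCompact {w | w ∈ O ∧ Φ w = 0 ∧ ε w ∈ RR}

/-- the point `(t, b, z)` at the parameter `s` of a homotopy -/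
def atP (s : I) (w : ℝ × EB5 × V) : (I × ℝ) × EB5 × V := ((s, w.1), w.2)

/-- A family of loops over `P`: `s` has order five and acts freely on `O`. -/
structure IsLp {P : Type} [TopologicalSpace P] (s : V →L[ℝ] V) (O : Set (P × V))
    (Φ : P × V → V) : Prop where
  ord : s ^ 5 = 1
  op : IsOpen O
  cont : ContinuousOn Φ O
  mem : ∀ p z, (p, z) ∈ O → (p, s z) ∈ O
  eq : ∀ p z, (p, z) ∈ O → Φ (p, s z) = s (Φ (p, z))
  free : ∀ w ∈ O, s w.2 ≠ w.2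
  cpt : IsCompact {w | w ∈ O ∧ Φ w = 0}

/-- the point `(t, z)` at the parameter `s` of a homotopy -/
def atL (s : I) (w : ℝ × V) : (I × ℝ) × V := ((s, w.1), w.2)

/-- the map whose degree is the winding number: `(z, r + i t) ↦ (Φ (t, z), ε (t, z) - r)` -/
noncomputable def windMap (Φ : ℝ × V → V) (ε : ℝ × V → ℂ) (y : V × ℂ) : V × ℂ :=
  (Φ (y.2.im, y.1), ε (y.2.im, y.1) - y.2.re)

/-- its domain -/
def windDom (O : Set (ℝ × V)) : Set (V × ℂ) := {y | 0 < y.2.re ∧ (y.2.im, y.1) ∈ O}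

end Pr

/-- functions of problems -/
abbrev NFun : Type 1 :=
  ∀ (V : Type) [NormedAddCommGroup V] [NormedSpace ℝ V] [FiniteDimensional ℝ V],
    (G3 →* (V →L[ℝ] V)) → Set (ℝ × EB5 × V) → (ℝ × EB5 × V → V) → (ℝ × EB5 × V → ℂ) → ZMod 5

/-- functions of loops -/
abbrev WFun : Type 1 :=
  ∀ (V : Type) [NormedAddCommGroup V] [NormedSpace ℝ V] [FiniteDimensional ℝ V],
    (V →L[ℝ] V) → Set (ℝ × V) → (ℝ × V → V) → ZMod 5

/-- The rules N0 - N4 for the count. -/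
structure IsN (n : NFun) : Prop where
  /-- N0: nine equivariant functions without a common zero on the compact set -/
  zero : ∀ (V : Type) [NormedAddCommGroup V] [NormedSpace ℝ V] [FiniteDimensional ℝ V]
    (π : G3 →* (V →L[ℝ] V)) O Φ ε (e : ℝ × EB5 × V → Fin 9 → ℂ), IsPr π O Φ ε →
    ContinuousOn e O →
    (∀ γ t b z, (t, b, z) ∈ O → e (t, β5 γ.1 b, π γ z) = (om γ.2.toAdd : ℂ) • e (t, b, z)) →
    (∀ w ∈ O, Φ w = 0 → ε w ∈ RR → e w ≠ 0) → n V π O Φ ε = 0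
  /-- N2: excision and congruence -/
  exc : ∀ (V : Type) [NormedAddCommGroup V] [NormedSpace ℝ V] [FiniteDimensional ℝ V]
    (π : G3 →* (V →L[ℝ] V)) O Φ ε O' Φ' ε', IsPr π O Φ ε → IsPr π O' Φ' ε' → O' ⊆ O →
    (∀ w ∈ O, Φ w = 0 → ε w ∈ RR → w ∈ O') → (∀ w ∈ O', Φ' w = Φ w ∧ ε' w = ε w) →
    n V π O' Φ' ε' = n V π O Φ ε
  /-- N2: disjoint unions -/
  add : ∀ (V : Type) [NormedAddCommGroup V] [NormedSpace ℝ V] [FiniteDimensional ℝ V]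
    (π : G3 →* (V →L[ℝ] V)) O O' Φ ε, IsPr π O Φ ε → IsPr π O' Φ ε → Disjoint O O' →
    n V π (O ∪ O') Φ ε = n V π O Φ ε + n V π O' Φ ε
  /-- N1: homotopy, the domain may move -/
  hom : ∀ (V : Type) [NormedAddCommGroup V] [NormedSpace ℝ V] [FiniteDimensional ℝ V]
    (π : G3 →* (V →L[ℝ] V)) (O : Set ((I × ℝ) × EB5 × V)) Φ ε, IsPr π O Φ ε →
    n V π (atP 0 ⁻¹' O) (fun w => Φ (atP 0 w)) (fun w => ε (atP 0 w)) =
      n V π (atP 1 ⁻¹' O) (fun w => Φ (atP 1 w)) fun w => ε (atP 1 w)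
  /-- affine change of the time -/
  time : ∀ (V : Type) [NormedAddCommGroup V] [NormedSpace ℝ V] [FiniteDimensional ℝ V]
    (π : G3 →* (V →L[ℝ] V)) O Φ ε (c d : ℝ), c ≠ 0 → IsPr π O Φ ε →
    n V π {w | (c * w.1 + d, w.2) ∈ O} (fun w => Φ (c * w.1 + d, w.2))
      (fun w => ε (c * w.1 + d, w.2)) = sg5 c * n V π O Φ ε
  /-- an equivariant linear automorphism of the target -/
  lin : ∀ (V : Type) [NormedAddCommGroup V] [NormedSpace ℝ V] [FiniteDimensional ℝ V]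
    (π : G3 →* (V →L[ℝ] V)) O Φ ε (L : V ≃L[ℝ] V), (∀ γ z, L (π γ z) = π γ (L z)) →
    IsPr π O Φ ε → n V π O (fun w => L (Φ w)) ε = sg5 (L : V →L[ℝ] V).det * n V π O Φ ε
  /-- N3: conjugation by an equivariant linear isomorphism -/
  conj : ∀ (V : Type) [NormedAddCommGroup V] [NormedSpace ℝ V] [FiniteDimensional ℝ V]
    (V' : Type) [NormedAddCommGroup V'] [NormedSpace ℝ V'] [FiniteDimensional ℝ V']
    (π : G3 →* (V →L[ℝ] V)) (π' : G3 →* (V' →L[ℝ] V')) O Φ ε (T : V' ≃L[ℝ] V),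
    (∀ γ z, T (π' γ z) = π γ (T z)) → IsPr π O Φ ε →
    n V' π' {w | (w.1, w.2.1, T w.2.2) ∈ O} (fun w => T.symm (Φ (w.1, w.2.1, T w.2.2)))
      (fun w => ε (w.1, w.2.1, T w.2.2)) = n V π O Φ ε
  /-- N3: conjugation by a reflection -/
  refl : ∀ (V : Type) [NormedAddCommGroup V] [NormedSpace ℝ V] [FiniteDimensional ℝ V]
    (V' : Type) [NormedAddCommGroup V'] [NormedSpace ℝ V'] [FiniteDimensional ℝ V']
    (π : G3 →* (V →L[ℝ] V)) (π' : G3 →* (V' →L[ℝ] V')) O Φ ε (T : V' ≃L[ℝ] V),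
    (∀ (γ : G3) z, T (π' γ z) = π (γ.1, γ.2⁻¹) (T z)) → IsPr π O Φ ε →
    n V' π' {w | (w.1, w.2.1, T w.2.2) ∈ O} (fun w => T.symm (Φ (w.1, w.2.1, T w.2.2)))
      (fun w => (starRingEnd ℂ) (ε (w.1, w.2.1, T w.2.2))) = n V π O Φ ε
  /-- N4: product with the identity; `π'` is the sum of `π` and `π₂` -/
  susp : ∀ (V : Type) [NormedAddCommGroup V] [NormedSpace ℝ V] [FiniteDimensional ℝ V]
    (V₂ : Type) [NormedAddCommGroup V₂] [NormedSpace ℝ V₂] [FiniteDimensional ℝ V₂]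
    (π : G3 →* (V →L[ℝ] V)) (π₂ : G3 →* (V₂ →L[ℝ] V₂)) O Φ ε, IsPr π O Φ ε →
    n (V × V₂) (prodRep π π₂) {w | (w.1, w.2.1, w.2.2.1) ∈ O}
      (fun w => (Φ (w.1, w.2.1, w.2.2.1), w.2.2.2)) (fun w => ε (w.1, w.2.1, w.2.2.1)) =
      n V π O Φ ε

/-- The rules for the winding number. -/
structure IsW (w : WFun) : Prop where
  /-- the value, if an equivariant label without zero on the zero set is given -/
  good : ∀ (V : Type) [NormedAddCommGroup V] [NormedSpace ℝ V] [FiniteDimensional ℝ V]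
    (s : V →L[ℝ] V) O Φ (ε : ℝ × V → ℂ), IsLp s O Φ → ContinuousOn ε O →
    (∀ t z, (t, z) ∈ O → ε (t, s z) = om 1 * ε (t, z)) → (∀ y ∈ O, Φ y = 0 → ε y ≠ 0) →
    w V s O Φ = (Deg.pdeg (windDom O) (windMap Φ ε) : ℤ)
  /-- excision and congruence -/
  exc : ∀ (V : Type) [NormedAddCommGroup V] [NormedSpace ℝ V] [FiniteDimensional ℝ V]
    (s : V →L[ℝ] V) O Φ O' Φ', IsLp s O Φ → IsLp s O' Φ' → O' ⊆ O →
    (∀ y ∈ O, Φ y = 0 → y ∈ O') → (∀ y ∈ O', Φ' y = Φ y) → w V s O' Φ' = w V s O Φ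
  /-- disjoint unions -/
  add : ∀ (V : Type) [NormedAddCommGroup V] [NormedSpace ℝ V] [FiniteDimensional ℝ V]
    (s : V →L[ℝ] V) O O' Φ, IsLp s O Φ → IsLp s O' Φ → Disjoint O O' →
    w V s (O ∪ O') Φ = w V s O Φ + w V s O' Φ
  /-- homotopy, the domain may move -/
  hom : ∀ (V : Type) [NormedAddCommGroup V] [NormedSpace ℝ V] [FiniteDimensional ℝ V]
    (s : V →L[ℝ] V) (O : Set ((I × ℝ) × V)) Φ, IsLp s O Φ →
    w V s (atL 0 ⁻¹' O) (fun y => Φ (atL 0 y)) = w V s (atL 1 ⁻¹' O) fun y => Φ (atL 1 y)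

/-- the element `(g, σ ^ χ g)` for the character `χ = a X + b Y` -/
def gr (a b : ZMod 5) (g : G5) : G3 := (g, Multiplicative.ofAdd (a * g.toAdd.1 + b * g.toAdd.2))

/-- `ι` identifies `(V', s, Φ')` with the part of `(V, π sig, Φ)` fixed by the graph of
`a X + b Y`. -/
structure IsFix {V : Type} [NormedAddCommGroup V] [NormedSpace ℝ V] {V' : Type}
    [NormedAddCommGroup V'] [NormedSpace ℝ V'] (π : G3 →* (V →L[ℝ] V)) (O : Set (ℝ × V))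
    (Φ : ℝ × V → V) (a b : ZMod 5) (ι : V' →L[ℝ] V) (s : V' →L[ℝ] V') (Φ' : ℝ × V' → V') :
    Prop where
  inj : Function.Injective ι
  fix : ∀ z, z ∈ range ι ↔ ∀ g, π (gr a b g) z = z
  comm : ∀ z, ι (s z) = π sig (ι z)
  eq : ∀ t z, (t, ι z) ∈ O → ι (Φ' (t, z)) = Φ (t, ι z)

/-- N5: localisation for problems that do not depend on the base point. -/
def Loc (n : NFun) (w : WFun) (c : ZMod 5) : Prop :=
  ∀ (V : Type) [NormedAddCommGroup V] [NormedSpace ℝ V] [FiniteDimensional ℝ V]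
    (π : G3 →* (V →L[ℝ] V)) (O : Set (ℝ × V)) (Φ : ℝ × V → V) (ε : ℝ × V → ℂ)
    (V' : ZMod 5 × ZMod 5 → Type) [∀ χ, NormedAddCommGroup (V' χ)] [∀ χ, NormedSpace ℝ (V' χ)]
    [∀ χ, FiniteDimensional ℝ (V' χ)] (ι : ∀ χ, V' χ →L[ℝ] V) (s : ∀ χ, V' χ →L[ℝ] V' χ)
    (Φ' : ∀ χ, ℝ × V' χ → V' χ),
    IsPr π {y : ℝ × EB5 × V | y.2.1 ∈ B5 ∧ (y.1, y.2.2) ∈ O} (fun y => Φ (y.1, y.2.2))
      (fun y => ε (y.1, y.2.2)) →
    (∀ χ : ZMod 5 × ZMod 5, χ.1 ≠ 0 → χ.2 ≠ 0 → IsFix π O Φ χ.1 χ.2 (ι χ) (s χ) (Φ' χ)) →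
    n V π {y | y.2.1 ∈ B5 ∧ (y.1, y.2.2) ∈ O} (fun y => Φ (y.1, y.2.2))
        (fun y => ε (y.1, y.2.2)) =
      c * ∑ χ : ZMod 5 × ZMod 5, if χ.1 ≠ 0 ∧ χ.2 ≠ 0 then
        χ.1 * w (V' χ) (s χ) {y | (y.1, ι χ y.2) ∈ O} (Φ' χ) else 0

/-- The toolkit. -/
def StTool : Prop := ∃ (n : NFun) (w : WFun) (c : ZMod 5), c ≠ 0 ∧ IsN n ∧ IsW w ∧ Loc n w c

end Vale.Agent.P220Z.Def
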